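import Vale.Agent.P229.Lift

open scoped ContDiff Topology
open Set MeasureTheory Metric

noncomputable section
namespace P229

def bet : ContDiffBump (0 : P) := ⟨1, 2, one_pos, one_lt_two⟩
def the : ContDiffBump (0 : P) := ⟨2, 3, two_pos, by norm_num⟩
def betS : Sm := ⟨bet, bet.contDiff⟩
def theS : Sm := ⟨the, the.contDiff⟩

lemma bet_zero {Z : P} (h : 2 ≤ ‖Z‖) : bet Z = 0 := bet.zero_of_le_dist (by simpa [bet] using h)
lemma the_zero {Z : P} (h : 3 ≤ ‖Z‖) : the Z = 0 := the.zero_of_le_dist (by simpa [the] using h)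
lemma bet_one {Z : P} (h : ‖Z‖ ≤ 1) : bet Z = 1 :=
  bet.one_of_mem_closedBall (by simpa [bet] using h)
lemma the_one {Z : P} (h : ‖Z‖ ≤ 2) : the Z = 1 :=
  the.one_of_mem_closedBall (by simpa [the] using h)

lemma Wb_bet (d : ℕ) : ∃ M, 0 ≤ M ∧ Wb univ (fun Z => M * the Z) d betS := by
  obtain ⟨M, hM, h⟩ := exists_Wb (isCompact_closedBall (0 : P) 2) d betS
  have h2 := Wb_zero (S := {Z : P | 2 < ‖Z‖}) (isOpen_lt continuous_const continuous_norm) d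
    (G := betS) fun Z hZ => bet_zero (le_of_lt hZ)
  refine ⟨M, hM, h.glue h2 fun Z _ => ?_⟩
  rcases le_or_gt ‖Z‖ 2 with hZ | hZ
  · exact Or.inl ⟨by simpa using hZ, by rw [the_one hZ, mul_one]⟩
  · exact Or.inr ⟨hZ, mul_nonneg hM the.nonneg⟩

/-- the logarithm of the conformal factor near an island -/
def sig (b r la : ℝ) (m : ℕ) (Z : P) : ℝ :=
  -Z.1 ^ 4 / 12 - Z.2 ^ 4 / (12 * b ^ 2) + r ^ 2 * Z.2 ^ 2 / 2 +
    r ^ 5 * (la ^ m)⁻¹ * bet ((la / r) • Z)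

/-- an immersion near an island -/
structure Amb (M b : ℝ) (m : ℕ) where
  r : ℝ
  la : ℝ
  cen : P
  c : ℝ
  s : ℝ
  F1 : Sm
  F2 : Sm
  F3 : Sm
  U : Sm
  n1 : ℝ
  n2 : ℝ
  n3 : ℝ
  r0 : 0 < r
  r1 : r ≤ 1
  la1 : 1 ≤ la
  cs : c ^ 2 + s ^ 2 = 1
  hn : n1 ^ 2 + n2 ^ 2 + n3 ^ 2 = 1
  hU : ∀ Z, U Z = n1 * F1 Z + n2 * F2 Z + n3 * F3 Z
  i11 : ∀ Z ∈ closedBall cen (8 * b * r), D1 F1 Z * D1 F1 Z + D1 F2 Z * D1 F2 Z +
    D1 F3 Z * D1 F3 Z = Real.exp (2 * sig b r la m (Z - cen))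
  i22 : ∀ Z ∈ closedBall cen (8 * b * r), D2 F1 Z * D2 F1 Z + D2 F2 Z * D2 F2 Z +
    D2 F3 Z * D2 F3 Z = Real.exp (2 * sig b r la m (Z - cen))
  i12 : ∀ Z ∈ closedBall cen (8 * b * r), D1 F1 Z * D2 F1 Z + D1 F2 Z * D2 F2 Z +
    D1 F3 Z * D2 F3 Z = 0
  bU : Wb (closedBall cen (8 * b * r)) (fun _ => M) 13 U
  P0 : D1 U cen ^ 2 + D2 U cen ^ 2 ≤ 1 / 2
  N0 : -(c * s) * D1 (D1 U) cen + b * (c ^ 2 - s ^ 2) * D2 (D1 U) cen
    + b ^ 2 * c * s * D2 (D2 U) cen = 0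
  L0 : M⁻¹ ≤ c ^ 2 * D1 (D1 U) cen + 2 * b * c * s * D2 (D1 U) cen + b ^ 2 * s ^ 2 * D2 (D2 U) cen

namespace Amb
variable {M b : ℝ} {m : ℕ}

def a (i : Amb M b m) : Af := ⟨i.cen, i.r, b, i.c, i.s⟩
def a' (i : Amb M b m) : Af := ⟨0, i.la, b, i.c, i.s⟩
def al (i : Amb M b m) : ℝ := (i.la ^ m)⁻¹
def ta (i : Amb M b m) : R := vs b i.c i.s + C i.r * (C i.al * i.a'.lift betS)
def E (i : Amb M b m) : R := comp Real.exp Real.contDiff_exp (C (2 * i.r ^ 4) * i.ta)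

lemma a_k (i : Amb M b m) : i.a.k = i.r := rfl
lemma a_b (i : Amb M b m) : i.a.b = b := rfl
lemma a_c (i : Amb M b m) : i.a.c = i.c := rfl
lemma a_s (i : Amb M b m) : i.a.s = i.s := rfl

lemma la0 (i : Amb M b m) : 0 < i.la := zero_lt_one.trans_le i.la1

lemma mem (hb : 1 ≤ b) (i : Amb M b m) (z : W) : i.a.map z ∈ closedBall i.cen (8 * b * i.r) := by
  have h := i.a.norm_lin_le i.r0.le hb i.cs z
  have h2 := (W.norm_lt z).le
  have := i.r0
  rw [mem_closedBall, dist_eq_norm, Af.map, show i.a.cen = i.cen from rfl, add_sub_cancel_left]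
  refine h.trans ?_
  show 2 * b * i.r * ‖(z : P)‖ ≤ _
  calc _ ≤ 2 * b * i.r * 4 := by gcongr
    _ = _ := by ring

lemma sig_eq (hb : 1 ≤ b) (i : Amb M b m) (z : W) :
    Real.exp (2 * sig b i.r i.la m (i.a.map z - i.cen)) = i.E z := by
  have r0 := i.r0
  have b0 : 0 < b := by linarith
  have e : (i.la / i.r) • i.a.lin z = i.a'.map z := by
    rw [Af.map, Af.lin_ap, Af.lin_ap]
    ext <;> simp [a, a'] <;> field_simp
  rw [Af.map, show i.a.cen = i.cen from rfl, add_sub_cancel_left, sig, e, Af.lin_ap]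
  simp only [E, ta, vs, z1, z2, comp_ap, mul_ap, add_ap, sub_ap, neg_ap, pow_ap, C_ap, xx_ap, yy_ap,
    Af.lift_ap, betS, a, al]
  congr 1
  field_simp

lemma bc : Bc (fun i : Amb M b m => i.c) := ⟨1, fun i => by
  have := i.cs
  exact abs_le_one_iff_mul_self_le_one.2 (by nlinarith)⟩
lemma bs : Bc (fun i : Amb M b m => i.s) := ⟨1, fun i => by
  have := i.cs
  exact abs_le_one_iff_mul_self_le_one.2 (by nlinarith)⟩

lemma B_lift (hM : 0 ≤ M) (hb : 1 ≤ b) {d} {G : Amb M b m → Sm}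
    (hG : ∀ i, Wb (closedBall i.cen (8 * b * i.r)) (fun _ => M) d (G i)) :
    B d (fun i : Amb M b m => i.a.lift (G i)) := by
  have := T_lift (wt := fun _ => one') (a := fun i : Amb M b m => i.a) (Bc.const b) bc bs
    (fun i => i.r0.le) (mem hb) hM (s := 0) (ρ := fun _ => 1) hG (fun _ => zero_le_one)
    fun j i z => by
      have : i.r ^ j ≤ 1 := pow_le_one₀ i.r0.le i.r1
      simp only [one', one_mul, mul_one]
      exact mul_le_of_le_one_left hM this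
  exact T.congr this fun i => by simp

lemma Sl_lift (hM : 0 ≤ M) (hb : 1 ≤ b) {G : Amb M b m → Sm}
    (hG : ∀ i, Wb (closedBall i.cen (8 * b * i.r)) (fun _ => M) 11 (G i)) :
    Sl (fun i : Amb M b m => i.r) (fun i => i.a.lift (G i)) := by
  have h1 := (B_lift hM hb fun i => (hG i).2.1).bd
  have h2 := (B_lift hM hb fun i => (hG i).2.2).bd
  have rr : ∀ i : Amb M b m, C i.r⁻¹ * C i.r = 1 := fun i => by
    rw [← map_mul, inv_mul_cancel₀ i.r0.ne', map_one]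
  refine ⟨B_lift hM hb hG, ((bc.bd.mul1 h1).add (((Bc.const b).mul bs).bd.mul1 h2)).congr
    fun i => ?_, ((bs.neg.bd.mul1 h1).add (((Bc.const b).mul bc).bd.mul1 h2)).congr fun i => ?_⟩
  · rw [Af.dx_lift]
    simp only [a_k, a_b, a_c, a_s]
    linear_combination (C i.c * i.a.lift (D1 (G i)) + C (b * i.s) * i.a.lift (D2 (G i))) * rr i
  · rw [Af.dy_lift]
    simp only [a_k, a_b, a_c, a_s]
    linear_combination (C (-i.s) * i.a.lift (D1 (G i)) + C (b * i.c) * i.a.lift (D2 (G i))) * rr i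

lemma eqn (hb : 1 ≤ b) (i : Amb M b m) :
    (i.a.lift (D1 (D1 i.U)) - C (i.r ^ 3) * (e1 i.c i.s i.ta * i.a.lift (D1 i.U) -
      e2 b i.c i.s i.ta * i.a.lift (D2 i.U))) *
    (i.a.lift (D2 (D2 i.U)) + C (i.r ^ 3) * (e1 i.c i.s i.ta * i.a.lift (D1 i.U) -
      e2 b i.c i.s i.ta * i.a.lift (D2 i.U))) -
    (i.a.lift (D2 (D1 i.U)) - C (i.r ^ 3) * (e2 b i.c i.s i.ta * i.a.lift (D1 i.U) +
      e1 i.c i.s i.ta * i.a.lift (D2 i.U))) ^ 2 =
    -(C (i.r ^ 2) * (e1 i.c i.s (e1 i.c i.s i.ta) + e2 b i.c i.s (e2 b i.c i.s i.ta)) *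
      (i.E - i.a.lift (D1 i.U) ^ 2 - i.a.lift (D2 i.U) ^ 2)) := by
  have rr : C i.r⁻¹ * C i.r = 1 := by rw [← map_mul, inv_mul_cancel₀ i.r0.ne', map_one]
  obtain ⟨d1, hd1⟩ : ∃ d : Derivation ℝ R R, ∀ f, d f = C i.r⁻¹ * e1 i.c i.s f :=
    ⟨C i.r⁻¹ • e1 i.c i.s, fun _ => rfl⟩
  obtain ⟨d2, hd2⟩ : ∃ d : Derivation ℝ R R, ∀ f, d f = C i.r⁻¹ * e2 b i.c i.s f :=
    ⟨C i.r⁻¹ • e2 b i.c i.s, fun _ => rfl⟩
  have l1 : ∀ G, d1 (i.a.lift G) = i.a.lift (D1 G) := fun G => by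
    rw [hd1]; erw [i.a.e1_lift i.cs]
    rw [← mul_assoc]; erw [rr]; rw [one_mul]
  have l2 : ∀ G, d2 (i.a.lift G) = i.a.lift (D2 G) := fun G => by
    rw [hd2]; erw [i.a.e2_lift (by show b ≠ 0; linarith) i.cs]
    rw [← mul_assoc]; erw [rr]; rw [one_mul]
  have key := darboux d1 d2 (fun f => by
      simp only [hd1, hd2, der_mul, der_C, e1, e2]
      rw [cvf_comm]; ring)
    (F1 := i.a.lift i.F1) (F2 := i.a.lift i.F2) (F3 := i.a.lift i.F3) (E := i.E)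
    (s1 := C (i.r ^ 3) * e1 i.c i.s i.ta) (s2 := C (i.r ^ 3) * e2 b i.c i.s i.ta)
    (u := i.a.lift i.U) i.hn (fun z => by rw [E, comp_ap]; exact (Real.exp_pos _).ne')
    (by ext z; simp only [l1, add_ap, mul_ap, Af.lift_ap]; rw [i.i11 _ (mem hb i z), sig_eq hb])
    (by ext z; simp only [l2, add_ap, mul_ap, Af.lift_ap]; rw [i.i22 _ (mem hb i z), sig_eq hb])
    (by ext z; simp only [l1, l2, add_ap, mul_ap, Af.lift_ap]; rw [i.i12 _ (mem hb i z)]; rfl)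
    (by
      rw [hd1, E, e1, cvf_comp, comp_deriv_exp, der_mul, der_C, map_mul, map_pow, map_pow, map_ofNat]
      linear_combination 2 * comp Real.exp Real.contDiff_exp (2 * C i.r ^ 4 * i.ta) *
        C i.r ^ 3 * cvf i.c (-i.s) i.ta * rr)
    (by
      rw [hd2, E, e2, cvf_comp, comp_deriv_exp, der_mul, der_C, map_mul, map_pow, map_pow, map_ofNat]
      linear_combination 2 * comp Real.exp Real.contDiff_exp (2 * C i.r ^ 4 * i.ta) *
        C i.r ^ 3 * cvf (i.s / b) (i.c / b) i.ta * rr)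
    (by ext z; simp [i.hU])
  simp only [l1, l2] at key
  rw [hd1, hd2, der_mul, der_mul, der_C, der_C,
    show i.a.lift (D1 (D2 i.U)) = i.a.lift (D2 (D1 i.U)) by ext z; simp [D12]] at key
  simp only [map_pow] at key ⊢
  linear_combination key - C i.r ^ 2 * (e1 i.c i.s (e1 i.c i.s i.ta) +
    e2 b i.c i.s (e2 b i.c i.s i.ta)) * (i.E - i.a.lift (D1 i.U) ^ 2 - i.a.lift (D2 i.U) ^ 2) * rr

def dat (hM : 0 < M) (hb : 1 ≤ b) (hm : 15 ≤ m) : Dat (Amb M b m) m where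
  r i := i.r
  la i := i.la
  al i := i.al
  b := b
  c0 := min (3 * M)⁻¹ (6 * b ^ 2)⁻¹
  c1 := 6
  c i := i.c
  s i := i.s
  P1 i := i.a.lift (D1 i.U)
  P2 i := i.a.lift (D2 i.U)
  H11 i := i.a.lift (D1 (D1 i.U))
  H12 i := i.a.lift (D2 (D1 i.U))
  H22 i := i.a.lift (D2 (D2 i.U))
  be i := i.a'.lift betS
  th i := i.a'.lift theS
  ta i := i.ta
  E i := i.E
  hm := hm
  hb := hb
  hc0 := by positivity
  hc0' := by
    calc _ ≤ 6 * (6 * b ^ 2)⁻¹ * b ^ 2 := by gcongr; exact min_le_right _ _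
      _ = 1 := by field_simp
  hc1 := by norm_num
  r0 i := i.r0
  r1 i := i.r1
  la1 i := i.la1
  alm' i := inv_mul_cancel₀ (pow_pos i.la0 m).ne'
  cs i := i.cs
  th0 i z := the.nonneg
  th1 i z := the.le_one
  sth i z hz := by
    have h := i.a'.le_norm_lin i.la0.le hb i.cs z
    rw [div_lt_iff₀' i.la0] at hz
    refine the_zero ?_
    rw [Af.map, show i.a'.cen = 0 from rfl, zero_add]
    have : i.a'.k = i.la := rfl
    rw [this] at h
    linarith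
  sbe i z hz := by
    have h := i.a'.le_norm_lin i.la0.le hb i.cs z
    rw [div_lt_iff₀' i.la0] at hz
    refine bet_zero ?_
    rw [Af.map, show i.a'.cen = 0 from rfl, zero_add]
    have : i.a'.k = i.la := rfl
    rw [this] at h
    linarith
  be0 i z := bet.nonneg
  be1 i z hz := by
    have h := i.a'.norm_lin_le i.la0.le hb i.cs z
    rw [le_div_iff₀ i.la0] at hz
    refine (bet_one ?_).ge
    rw [Af.map, show i.a'.cen = 0 from rfl, zero_add]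
    refine h.trans ?_
    show 2 * b * i.la * ‖(z : P)‖ ≤ 1
    have h2 := hz.trans (min_le_right _ _)
    calc _ = 2 * b * (‖(z : P)‖ * i.la) := by ring
      _ ≤ 2 * b * (6 * b ^ 2)⁻¹ := by gcongr
      _ = (3 * b)⁻¹ := by field_simp; ring
      _ ≤ 1 := inv_le_one_of_one_le₀ (by linarith)
  be2 i z := bet.le_one
  tbe := by
    obtain ⟨K, hK, h⟩ := Wb_bet (m + 5)
    refine T_lift (a := fun i : Amb M b m => i.a') (Bc.const b) bc bs (fun i => i.la0.le)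
      (fun _ _ => mem_univ _) hK (fun _ => h) (fun i => by have := i.la0; unfold al; positivity)
      fun j i z => ?_
    show i.al * i.la ^ j * (K * the (i.a'.map z)) ≤
      K * (1 + i.al * i.la ^ (0 + j) * the (i.a'.map z))
    rw [zero_add]
    linarith
  bLb := by
    obtain ⟨K, hK, h⟩ := Wb_bet 2
    refine ⟨2 * K, by positivity, fun i z => ?_⟩
    have b0 : i.a'.b ≠ 0 := by show b ≠ 0; linarith
    have h1 := h.2.1.2.1 (i.a'.map z) (mem_univ _)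
    have h2 := h.2.2.2.2 (i.a'.map z) (mem_univ _)
    have h3 : K * the (i.a'.map z) ≤ K := mul_le_of_le_one_right hK the.le_one
    have l1 : ∀ G, e1 i.c i.s (i.a'.lift G) = C i.la * i.a'.lift (D1 G) := i.a'.e1_lift i.cs
    have l2 : ∀ G, e2 b i.c i.s (i.a'.lift G) = C i.la * i.a'.lift (D2 G) := i.a'.e2_lift b0 i.cs
    simp only [l1, l2, der_mul, der_C, add_ap, mul_ap, C_ap, Af.lift_ap, mul_zero, add_zero]
    rw [← mul_assoc, ← mul_assoc, ← mul_add, abs_mul, abs_mul_self, ← sq, mul_comm]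
    gcongr
    exact (abs_add_le _ _).trans (by linarith)
  d11 i := i.a.e1_lift i.cs _
  d21 i := i.a.e2_lift (by show b ≠ 0; linarith) i.cs _
  d12 i := (i.a.e1_lift i.cs _).trans (by ext z; simp [D12, a])
  d22 i := i.a.e2_lift (by show b ≠ 0; linarith) i.cs _
  s11 := Sl_lift hM.le hb fun i => i.bU.2.1.2.1
  s12 := Sl_lift hM.le hb fun i => i.bU.2.1.2.2
  s22 := Sl_lift hM.le hb fun i => i.bU.2.2.2.2
  P0 i := by simp only [Af.lift_ap, Af.map_o]; exact i.P0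
  N0 i := by simp only [Af.lift_ap, Af.map_o]; exact i.N0
  L0 i := by
    simp only [Af.lift_ap, Af.map_o]
    refine le_trans ?_ i.L0
    calc _ ≤ 3 * (3 * M)⁻¹ := by gcongr; exact min_le_left _ _
      _ = _ := by field_simp
  hta _ := rfl
  hE _ := rfl
  eqn := eqn hb

theorem main (hM : 0 < M) (hb : 1 ≤ b) (hm : 15 ≤ m) :
    ∀ᶠ r in 𝓝[>] (0 : ℝ), ∃ l0, ∀ i : Amb M b m, i.r = r → i.la < l0 := (dat hM hb hm).main

end Amb
end P229
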