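import Vale.Agent.P229.Int

open scoped ContDiff Topology
open Set MeasureTheory Metric

noncomputable section
namespace P229

/-! iterates of a derivation -/

def it (X : Derivation ℝ R R) (n : ℕ) (f : R) : R := (⇑X)^[n] f

@[simp] lemma it_zero (X) (f : R) : it X 0 f = f := rfl
lemma it_succ (X) (n) (f : R) : it X (n + 1) f = it X n (X f) := rfl
lemma it_succ' (X) (n) (f : R) : it X (n + 1) f = X (it X n f) :=
  Function.iterate_succ_apply' _ _ _
lemma it_one (X) (f : R) : it X 1 f = X f := rfl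

lemma it_add (X) (n) (f g : R) : it X n (f + g) = it X n f + it X n g := by
  induction n with
  | zero => rfl
  | succ n ih => rw [it_succ', it_succ', it_succ', ih, map_add]

lemma it_neg (X) (n) (f : R) : it X n (-f) = -it X n f := by
  induction n with
  | zero => rfl
  | succ n ih => rw [it_succ', it_succ', ih, map_neg]

lemma it_C_mul (X) (n) (a : ℝ) (f : R) : it X n (C a * f) = C a * it X n f := by
  induction n with
  | zero => rfl
  | succ n ih => rw [it_succ', it_succ', ih, der_mul]; simp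

lemma it_comm {X D : Derivation ℝ R R} (h : ∀ f, X (D f) = D (X f)) (n) (f : R) :
    D (it X n f) = it X n (D f) := by
  induction n with
  | zero => rfl
  | succ n ih => rw [it_succ', it_succ', ← h, ih]

lemma it_mul (X) (n) (f g : R) : it X n (f * g) =
    ∑ i ∈ Finset.range (n + 1), (n.choose i : R) * (it X i f * it X (n - i) g) := by
  induction n with
  | zero => simp
  | succ n ih =>
    rw [it_succ', ih, map_sum,
      Finset.sum_choose_succ_mul (fun i j => it X i f * it X j g) n, ← Finset.sum_add_distrib]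
    refine Finset.sum_congr rfl fun i hi => ?_
    have hi' : i ≤ n := Nat.lt_succ_iff.1 (Finset.mem_range.1 hi)
    rw [der_mul, der_mul, Derivation.map_natCast, show n + 1 - i = (n - i) + 1 by omega,
      it_succ', it_succ']
    ring

variable {ι : Type*}

/-- uniform bound against a weight -/
def Bd (w : ι → W → ℝ) (f : ι → R) : Prop := ∃ K, 0 ≤ K ∧ ∀ i z, |f i z| ≤ K * w i z

lemma Bd.add {w : ι → W → ℝ} {f g : ι → R} (hf : Bd w f) (hg : Bd w g) :
    Bd w (fun i => f i + g i) := by
  obtain ⟨K, hK, h⟩ := hf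
  obtain ⟨K', hK', h'⟩ := hg
  refine ⟨K + K', by positivity, fun i z => ?_⟩
  have := h i z; have := h' i z
  have := abs_add_le (f i z) (g i z)
  simp only [add_ap]; nlinarith

lemma Bd.neg {w : ι → W → ℝ} {f : ι → R} (hf : Bd w f) : Bd w (fun i => -f i) := by
  obtain ⟨K, hK, h⟩ := hf
  exact ⟨K, hK, fun i z => by simpa using h i z⟩

lemma Bd.congr {w : ι → W → ℝ} {f g : ι → R} (hf : Bd w f) (h : ∀ i, g i = f i) : Bd w g := by
  rwa [show g = f from funext h]

lemma Bd.mul_of {w w' w'' : ι → W → ℝ} {f g : ι → R} (hf : Bd w f) (hg : Bd w' g) {c : ℝ}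
    (hc : 0 ≤ c) (h : ∀ i z, w i z * w' i z ≤ c * w'' i z) : Bd w'' (fun i => f i * g i) := by
  obtain ⟨K, hK, h1⟩ := hf
  obtain ⟨K', hK', h2⟩ := hg
  refine ⟨K * K' * c, by positivity, fun i z => ?_⟩
  rw [mul_ap, abs_mul]
  calc _ ≤ (K * w i z) * (K' * w' i z) :=
        mul_le_mul (h1 i z) (h2 i z) (abs_nonneg _) ((abs_nonneg _).trans (h1 i z))
    _ = K * K' * (w i z * w' i z) := by ring
    _ ≤ K * K' * (c * w'' i z) := mul_le_mul_of_nonneg_left (h i z) (by positivity)
    _ = _ := by ring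

lemma Bd.mono {w w' : ι → W → ℝ} {f : ι → R} (hf : Bd w f) {c : ℝ} (hc : 0 ≤ c)
    (h : ∀ i z, w i z ≤ c * w' i z) : Bd w' f := by
  obtain ⟨K, hK, h1⟩ := hf
  refine ⟨K * c, by positivity, fun i z => (h1 i z).trans ?_⟩
  rw [mul_assoc]; gcongr; exact h i z

def one' : ι → W → ℝ := fun _ _ => 1

lemma Bd.one_mul {w : ι → W → ℝ} {f g : ι → R} (hf : Bd one' f) (hg : Bd w g) :
    Bd w (fun i => f i * g i) :=
  hf.mul_of hg zero_le_one fun i z => by simp [one']

/-- bounded family of constants -/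
def Bc (c : ι → ℝ) : Prop := ∃ K, ∀ i, |c i| ≤ K

lemma Bc.bd {c : ι → ℝ} (h : Bc c) : Bd one' (fun i => C (c i)) := by
  obtain ⟨K, h⟩ := h
  exact ⟨max K 0, le_max_right _ _, fun i z => by simpa [one'] using Or.inl (h i)⟩

lemma Bc.const (a : ℝ) : Bc (fun _ : ι => a) := ⟨|a|, fun _ => le_rfl⟩

lemma Bc.mul {c c' : ι → ℝ} (h : Bc c) (h' : Bc c') : Bc (fun i => c i * c' i) := by
  obtain ⟨K, h⟩ := h
  obtain ⟨K', h'⟩ := h'
  exact ⟨K * K', fun i => by
    rw [abs_mul]; exact mul_le_mul (h i) (h' i) (abs_nonneg _) ((abs_nonneg _).trans (h i))⟩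

lemma Bc.add {c c' : ι → ℝ} (h : Bc c) (h' : Bc c') : Bc (fun i => c i + c' i) := by
  obtain ⟨K, h⟩ := h
  obtain ⟨K', h'⟩ := h'
  exact ⟨K + K', fun i => (abs_add_le _ _).trans (add_le_add (h i) (h' i))⟩

lemma Bc.neg {c : ι → ℝ} (h : Bc c) : Bc (fun i => -c i) := by
  obtain ⟨K, h⟩ := h
  exact ⟨K, fun i => by simpa using h i⟩

lemma Bc.pow {c : ι → ℝ} (h : Bc c) (n : ℕ) : Bc (fun i => c i ^ n) := by
  obtain ⟨K, h⟩ := h
  exact ⟨K ^ n, fun i => by rw [abs_pow]; exact pow_le_pow_left₀ (abs_nonneg _) (h i) n⟩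

lemma bd_zero {w : ι → W → ℝ} : Bd w (fun _ => (0 : R)) := ⟨0, le_rfl, fun i z => by simp⟩

/-- all coordinate derivatives up to order `d` bounded against the weights `wt` -/
def T (wt : ℕ → ι → W → ℝ) : ℕ → ℕ → (ι → R) → Prop
  | 0, s, f => Bd (wt s) f
  | d + 1, s, f => Bd (wt s) f ∧ T wt d (s + 1) (fun i => dx (f i)) ∧
      T wt d (s + 1) (fun i => dy (f i))

variable {wt : ℕ → ι → W → ℝ}

lemma T.bd {d s} {f : ι → R} (h : T wt d s f) : Bd (wt s) f := by
  cases d
  · exact h
  · exact h.1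

lemma T.congr {d s} {f g : ι → R} (hf : T wt d s f) (h : ∀ i, g i = f i) : T wt d s g := by
  rwa [show g = f from funext h]

lemma T.pred {d s} {f : ι → R} (h : T wt (d + 1) s f) : T wt d s f := by
  induction d generalizing s f with
  | zero => exact h.1
  | succ d ih => exact ⟨h.1, ih h.2.1, ih h.2.2⟩

lemma T.le {d d' s} {f : ι → R} (h : T wt d s f) (hd : d' ≤ d) : T wt d' s f := by
  induction hd with
  | refl => exact h
  | step _ ih => exact ih h.pred

lemma T.add {d s} {f g : ι → R} (hf : T wt d s f) (hg : T wt d s g) :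
    T wt d s (fun i => f i + g i) := by
  induction d generalizing s f g with
  | zero => exact Bd.add hf hg
  | succ d ih =>
    exact ⟨hf.1.add hg.1, (ih hf.2.1 hg.2.1).congr fun i => map_add _ _ _,
      (ih hf.2.2 hg.2.2).congr fun i => map_add _ _ _⟩

lemma T.cmul {d s} {c : ι → ℝ} {f : ι → R} (hc : Bc c) (hf : T wt d s f) :
    T wt d s (fun i => C (c i) * f i) := by
  induction d generalizing s f with
  | zero => exact hc.bd.one_mul hf
  | succ d ih =>
    exact ⟨hc.bd.one_mul hf.1, (ih hf.2.1).congr fun i => by rw [der_mul]; simp,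
      (ih hf.2.2).congr fun i => by rw [der_mul]; simp⟩

lemma T.weaken {wt' : ℕ → ι → W → ℝ} {d s s'} {f : ι → R} (h : T wt d s f)
    (hw : ∀ j i z, wt (s + j) i z ≤ wt' (s' + j) i z) : T wt' d s' f := by
  induction d generalizing s s' f with
  | zero => exact Bd.mono h zero_le_one fun i z => by simpa using hw 0 i z
  | succ d ih =>
    refine ⟨h.1.mono zero_le_one fun i z => by simpa using hw 0 i z, ih h.2.1 ?_, ih h.2.2 ?_⟩ <;>
    · intro j i z
      have := hw (1 + j) i z
      rwa [← add_assoc, ← add_assoc] at this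

/-- all coordinate derivatives up to order `d` uniformly bounded -/
def B (d : ℕ) (f : ι → R) : Prop := T (fun _ => one') d 0 f

lemma T.toB {d s} {f : ι → R} (h : T wt d s f) (hw : ∀ j i z, wt (s + j) i z ≤ 1) : B d f :=
  h.weaken hw

lemma B.toT {d s} {f : ι → R} (h : B d f) (hw : ∀ j i z, 1 ≤ wt j i z) : T wt d s f :=
  T.weaken h fun _ _ _ => hw _ _ _

lemma B.bd {d} {f : ι → R} (h : B d f) : Bd one' f := T.bd h
lemma B.congr {d} {f g : ι → R} (hf : B d f) (h : ∀ i, g i = f i) : B d g := T.congr hf h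
lemma B.le {d d'} {f : ι → R} (h : B d f) (hd : d' ≤ d) : B d' f := T.le h hd
lemma B.add {d} {f g : ι → R} (hf : B d f) (hg : B d g) : B d (fun i => f i + g i) := T.add hf hg
lemma B.cmul {d} {c : ι → ℝ} {f : ι → R} (hc : Bc c) (hf : B d f) :
    B d (fun i => C (c i) * f i) := T.cmul hc hf
lemma B.dx {d} {f : ι → R} (h : B (d + 1) f) : B d (fun i => dx (f i)) :=
  T.toB h.2.1 fun _ _ _ => le_rfl
lemma B.dy {d} {f : ι → R} (h : B (d + 1) f) : B d (fun i => dy (f i)) :=
  T.toB h.2.2 fun _ _ _ => le_rfl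
lemma B.intro {d} {f : ι → R} (h : Bd one' f) (h1 : B d (fun i => P229.dx (f i)))
    (h2 : B d (fun i => P229.dy (f i))) : B (d + 1) f :=
  ⟨h, h1.toT fun _ _ _ => le_rfl, h2.toT fun _ _ _ => le_rfl⟩

lemma B.neg {d} {f : ι → R} (hf : B d f) : B d (fun i => -f i) :=
  (hf.cmul (Bc.const (-1))).congr fun i => by ext z; simp

lemma B.sub {d} {f g : ι → R} (hf : B d f) (hg : B d g) : B d (fun i => f i - g i) :=
  (hf.add hg.neg).congr fun i => sub_eq_add_neg _ _

lemma B.mul {d} {f g : ι → R} (hf : B d f) (hg : B d g) : B d (fun i => f i * g i) := by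
  induction d generalizing f g with
  | zero => exact Bd.one_mul hf hg
  | succ d ih =>
    exact B.intro (hf.bd.one_mul hg.bd)
      (((ih (hf.le d.le_succ) hg.dx).add (ih (hg.le d.le_succ) hf.dx)).congr
        fun i => der_mul _ _ _)
      (((ih (hf.le d.le_succ) hg.dy).add (ih (hg.le d.le_succ) hf.dy)).congr
        fun i => der_mul _ _ _)

lemma B.zero {d} : B d (fun _ : ι => (0 : R)) := by
  induction d with
  | zero => exact bd_zero
  | succ d ih => exact B.intro bd_zero (ih.congr fun _ => map_zero _) (ih.congr fun _ => map_zero _)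

lemma B.const {d} {c : ι → ℝ} (hc : Bc c) : B d (fun i => C (c i)) := by
  cases d with
  | zero => exact hc.bd
  | succ d => exact B.intro hc.bd (B.zero.congr fun _ => der_C _ _) (B.zero.congr fun _ => der_C _ _)

lemma B.one {d} : B d (fun _ : ι => (1 : R)) := (B.const (Bc.const 1)).congr fun _ => by simp

lemma B.xx {d} : B d (fun _ : ι => xx) := by
  have : Bd (one' (ι := ι)) (fun _ => P229.xx) :=
    ⟨4, by norm_num, fun i z => by simpa [one'] using ((abs_fst_le _).trans (W.norm_lt z).le)⟩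
  cases d with
  | zero => exact this
  | succ d => exact B.intro this (B.one.congr fun _ => dx_xx) (B.zero.congr fun _ => dy_xx)

lemma B.yy {d} : B d (fun _ : ι => yy) := by
  have : Bd (one' (ι := ι)) (fun _ => P229.yy) :=
    ⟨4, by norm_num, fun i z => by simpa [one'] using ((abs_snd_le _).trans (W.norm_lt z).le)⟩
  cases d with
  | zero => exact this
  | succ d => exact B.intro this (B.zero.congr fun _ => dx_yy) (B.one.congr fun _ => dy_yy)

lemma B.pow {d} {f : ι → R} (hf : B d f) (n : ℕ) : B d (fun i => f i ^ n) := by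
  induction n with
  | zero => exact B.one.congr fun _ => pow_zero _
  | succ n ih => exact (ih.mul hf).congr fun _ => pow_succ _ _

lemma B.inv {d} {f g : ι → R} (hf : B d f) (h : ∀ i, g i * f i = 1) (hg : Bd one' g) :
    B d g := by
  induction d with
  | zero => exact hg
  | succ d ih =>
    have := ih (hf.le d.le_succ)
    exact B.intro hg (((this.pow 2).neg.mul hf.dx).congr fun i => by
        rw [Derivation.leibniz_of_mul_eq_one _ (h i)]; simp)
      (((this.pow 2).neg.mul hf.dy).congr fun i => by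
        rw [Derivation.leibniz_of_mul_eq_one _ (h i)]; simp)

/-- composition of a fixed smooth function with a uniformly bounded family -/
lemma B.comp {d} {f : ι → R} (hf : B d f) (g : ℝ → ℝ) (hg : ContDiff ℝ ∞ g) :
    B d (fun i => comp g hg (f i)) := by
  have key : ∀ (g : ℝ → ℝ) (hg : ContDiff ℝ ∞ g), Bd one' (fun i => P229.comp g hg (f i)) := by
    intro g hg
    obtain ⟨K, hK, h⟩ := hf.bd
    obtain ⟨K', h'⟩ := (isCompact_Icc (a := -K) (b := K)).exists_bound_of_continuousOn
      hg.continuous.continuousOn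
    refine ⟨max K' 0, le_max_right _ _, fun i z => ?_⟩
    have := h' (f i z) (abs_le.1 (by simpa [one'] using h i z))
    simpa [one'] using Or.inl this
  induction d generalizing g with
  | zero => exact key g hg
  | succ d ih =>
    exact B.intro (key g hg)
      (((ih (hf.le d.le_succ) _ (cd_deriv hg)).mul hf.dx).congr fun i => pd_comp _ _ _ _)
      (((ih (hf.le d.le_succ) _ (cd_deriv hg)).mul hf.dy).congr fun i => pd_comp _ _ _ _)

end P229
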