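import Vale.Agent.P229.Orig

open scoped ContDiff Topology
open Set MeasureTheory Metric

noncomputable section
namespace P229

/-- bounds for all derivatives up to order `N` -/
def Nb (N : ℕ) (K : ℝ) (f : P → ℝ) : Prop := ∀ k ≤ N, ∀ Z, ‖iteratedFDeriv ℝ k f Z‖ ≤ K

lemma cd_nat {f : P → ℝ} (hf : ContDiff ℝ ∞ f) (k : ℕ) : ContDiff ℝ k f := hf.of_le (by norm_cast; simp)

lemma exists_Nb (N : ℕ) {f : P → ℝ} (hf : ContDiff ℝ ∞ f) (hs : HasCompactSupport f) :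
    ∃ K, 0 < K ∧ Nb N K f := by
  have key : ∀ k : ℕ, ∃ K, 0 < K ∧ ∀ Z, ‖iteratedFDeriv ℝ k f Z‖ ≤ K := fun k => by
    obtain ⟨K, hK⟩ := ((cd_nat hf k).continuous_iteratedFDeriv le_rfl).bounded_above_of_compact_support
      (hs.iteratedFDeriv k)
    exact ⟨max K 1, lt_max_of_lt_right one_pos, fun Z => (hK Z).trans (le_max_left _ _)⟩
  induction N with
  | zero =>
    obtain ⟨K, hK, h⟩ := key 0
    exact ⟨K, hK, fun k hk => by rw [Nat.le_zero.1 hk]; exact h⟩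
  | succ N ih =>
    obtain ⟨K, hK, h⟩ := key (N + 1)
    obtain ⟨K', hK', h'⟩ := ih
    refine ⟨K + K', by positivity, fun k hk Z => ?_⟩
    rcases Nat.le_succ_iff.1 hk with hk | rfl
    · exact (h' k hk Z).trans (by linarith)
    · exact (h Z).trans (by linarith)

lemma Nb.add {N K K'} {f g : P → ℝ} (hf : ContDiff ℝ ∞ f) (hg : ContDiff ℝ ∞ g) (h : Nb N K f)
    (h' : Nb N K' g) : Nb N (K + K') (fun Z => f Z + g Z) := fun k hk Z => by
  have := iteratedFDeriv_add_apply (x := Z) (cd_nat hf k).contDiffAt (cd_nat hg k).contDiffAt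
  erw [this]
  exact (norm_add_le _ _).trans (add_le_add (h k hk Z) (h' k hk Z))

lemma Nb.smul {N K} {f : P → ℝ} (hf : ContDiff ℝ ∞ f) (h : Nb N K f) (a : ℝ) :
    Nb N (|a| * K) (fun Z => a * f Z) := fun k hk Z => by
  have := iteratedFDeriv_const_smul_apply' (a := a) (x := Z) (cd_nat hf k).contDiffAt
  erw [this]
  rw [norm_smul, Real.norm_eq_abs]
  exact mul_le_mul_of_nonneg_left (h k hk Z) (abs_nonneg _)

lemma Nb.scale {N K} {f : P → ℝ} (hf : ContDiff ℝ ∞ f) (h : Nb N K f) {a : ℝ} (ha : 1 ≤ a) :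
    Nb N (a ^ N * K) (fun Z => f (a • Z)) := fun k hk Z => by
  rw [iteratedFDeriv_comp_const_smul a (cd_nat hf k), norm_smul, Real.norm_eq_abs,
    abs_of_nonneg (by positivity)]
  exact mul_le_mul (pow_le_pow_right₀ ha hk) (h k hk _) (norm_nonneg _) (by positivity)

lemma Nb.mono {N K K'} {f : P → ℝ} (h : Nb N K f) (hK : K ≤ K') : Nb N K' f :=
  fun k hk Z => (h k hk Z).trans hK

structure Island (M ε η : ℝ) (N : ℕ) where
  b : ℝ
  r : ℝ
  la : ℝ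
  m : ℕ
  τ : Sm
  hb : 1 ≤ b
  r0 : 0 < r
  r1 : r ≤ 1
  la1 : 1 ≤ la
  small : 8 * b * r ≤ η
  no : ∀ i : Amb M b m, i.r = r → i.la ≠ la
  nb : Nb N ε τ
  out : ∀ Z, 2 * η ≤ ‖Z‖ → τ Z = 0
  inn : ∀ Z, ‖Z‖ ≤ η → -Z.1 ^ 4 / 12 + τ Z = sig b r la m Z

theorem exists_island {M ε η : ℝ} (N : ℕ) (hM : 0 < M) (hε : 0 < ε) (hη : 0 < η) :
    Nonempty (Island M ε η N) := by
  let ρ : ContDiffBump (0 : P) := ⟨η, 2 * η, hη, by linarith⟩
  have s1 : ContDiff ℝ ∞ fun Z : P => ρ Z * Z.2 ^ 4 := ρ.contDiff.mul (contDiff_snd.pow 4)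
  have s2 : ContDiff ℝ ∞ fun Z : P => ρ Z * Z.2 ^ 2 := ρ.contDiff.mul (contDiff_snd.pow 2)
  obtain ⟨K1, hK1, h1⟩ := exists_Nb N s1 ρ.hasCompactSupport.mul_right
  obtain ⟨K2, hK2, h2⟩ := exists_Nb N s2 ρ.hasCompactSupport.mul_right
  obtain ⟨K3, hK3, h3⟩ := exists_Nb N bet.contDiff bet.hasCompactSupport
  obtain ⟨b, hb, hb'⟩ : ∃ b : ℝ, 1 ≤ b ∧ K1 / ε ≤ b := ⟨max 1 (K1 / ε), le_max_left _ _,
    le_max_right _ _⟩
  obtain ⟨r, ⟨l0, hl⟩, r1, r2, r3, r0⟩ := ((Amb.main (M := M) hM hb (m := N + 15)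
    (by omega)).and ((ev_small 1 one_pos).and ((ev_small (8 * b) hη).and ((ev_small K2 hε).and
    self_mem_nhdsWithin)))).exists
  have r0 : 0 < r := r0
  rw [one_mul] at r1
  obtain ⟨la, l1, l2, l3⟩ : ∃ la : ℝ, 1 ≤ la ∧ l0 ≤ la ∧ 3 * K3 / (ε * r ^ N) ≤ la :=
    ⟨max 1 (max l0 (3 * K3 / (ε * r ^ N))), le_max_left _ _, le_max_of_le_right (le_max_left _ _),
      le_max_of_le_right (le_max_right _ _)⟩
  have la0 : 0 < la := by linarith
  have lr : 1 ≤ la / r := by rw [le_div_iff₀ r0]; linarith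
  have s3 : ContDiff ℝ ∞ fun Z : P => bet ((la / r) • Z) :=
    bet.contDiff.comp (contDiff_const_smul _)
  have a1 := contDiff_const (c := -(12 * b ^ 2)⁻¹).mul s1
  have a2 := contDiff_const (c := r ^ 2 / 2).mul s2
  have a3 := contDiff_const (c := r ^ 5 * (la ^ (N + 15))⁻¹).mul s3
  refine ⟨⟨b, r, la, N + 15, ⟨_, (a1.add a2).add a3⟩, hb, r0, r1, l1, r2,
    fun i hi h => by have := hl i hi; linarith, ?_, fun Z hZ => ?_, fun Z hZ => ?_⟩⟩
  · refine (Nb.add (a1.add a2) a3 (Nb.add a1 a2 (h1.smul s1 _) (h2.smul s2 _))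
      ((h3.scale bet.contDiff lr).smul s3 _)).mono ?_
    have e1 : |-(12 * b ^ 2)⁻¹| * K1 ≤ ε / 12 := by
      rw [abs_neg, abs_of_pos (by positivity), inv_mul_le_iff₀ (by positivity)]
      rw [div_le_iff₀ hε] at hb'
      have : b * ε ≤ b ^ 2 * ε := by gcongr; nlinarith
      linarith
    have e2 : |r ^ 2 / 2| * K2 ≤ ε / 2 := by
      rw [abs_of_pos (by positivity)]
      have : r ^ 2 * K2 ≤ r * K2 := by gcongr; nlinarith
      linarith
    have e3 : |r ^ 5 * (la ^ (N + 15))⁻¹| * ((la / r) ^ N * K3) ≤ ε / 3 := by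
      rw [abs_of_pos (by positivity)]
      rw [div_le_iff₀ (by positivity)] at l3
      have : r ^ 5 * (la ^ (N + 15))⁻¹ * ((la / r) ^ N * K3) =
          r ^ 5 * K3 / (la ^ 15 * r ^ N) := by
        rw [div_pow]; field_simp; ring
      rw [this, div_le_iff₀ (by positivity)]
      have p1 : r ^ 5 ≤ 1 := pow_le_one₀ r0.le r1
      have p2 : la ≤ la ^ 15 := le_self_pow₀ l1 (by norm_num)
      calc r ^ 5 * K3 ≤ 1 * K3 := by gcongr
        _ ≤ ε / 3 * (la * r ^ N) := by linarith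
        _ ≤ _ := by gcongr
    linarith
  · have e1 : ρ Z = 0 := ρ.zero_of_le_dist (by simpa [ρ] using hZ)
    have e2 : bet ((la / r) • Z) = 0 := by
      refine bet_zero ?_
      rw [norm_smul, Real.norm_of_nonneg (by positivity), div_mul_eq_mul_div, le_div_iff₀ r0]
      have : r ≤ b * r := le_mul_of_one_le_left r0.le hb
      have : ‖Z‖ ≤ la * ‖Z‖ := le_mul_of_one_le_left (norm_nonneg _) l1
      linarith
    simp [e1, e2]
  · have e1 : ρ Z = 1 := ρ.one_of_mem_closedBall (by simpa [ρ] using hZ)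
    simp only [sig, e1]
    ring

def yj (j : ℕ) : ℝ := (1 / 2) ^ j

lemma yj0 (j) : 0 < yj j := by unfold yj; positivity

def isl (j : ℕ) : Island ((j : ℝ) + 1) (yj j) (yj j / 8) j :=
  (exists_island j (by positivity) (yj0 j) (by have := yj0 j; positivity)).some

def tj (j : ℕ) (Z : P) : ℝ := (isl j).τ (Z - (0, yj j))

lemma tj_zero {j} {Z : P} (h : yj j / 4 ≤ |Z.2 - yj j|) : tj j Z = 0 :=
  (isl j).out _ (by have := abs_snd_le (Z - (0, yj j)); simp only [Prod.snd_sub] at this; linarith)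

def tau : Sm := ⟨fun Z => ∑' j, tj j Z, by
  refine contDiff_tsum_of_eventually (N := ⊤) (v := fun _ j => yj j)
    (fun j => (isl j).τ.sm.comp (contDiff_id.sub contDiff_const))
    (fun _ _ => summable_geometric_two) fun k _ => ?_
  rw [Nat.cofinite_eq_atTop]
  filter_upwards [Filter.eventually_ge_atTop k] with j hj Z
  have := iteratedFDeriv_comp_sub (𝕜 := ℝ) (f := (isl j).τ) k ((0, yj j) : P) Z
  erw [this]
  exact (isl j).nb k hj _⟩

lemma tau_flat : Flat tau := fun Z hZ => by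
  show ∑' j, tj j Z = 0
  rw [tsum_congr fun j => tj_zero (j := j) (Z := Z) ?_, tsum_zero]
  have := yj0 j
  rw [abs_sub_comm, abs_of_pos (by linarith)]
  linarith

lemma yj_lt {i j : ℕ} (h : i < j) : 2 * yj j ≤ yj i := by
  obtain ⟨k, rfl⟩ := Nat.exists_eq_add_of_lt h
  have : (1 / 2 : ℝ) ^ k ≤ 1 := pow_le_one₀ (by norm_num) (by norm_num)
  have := yj0 i
  simp only [yj, pow_succ, pow_add] at *
  nlinarith

lemma tau_eq (j) {Z : P} (h : ‖Z - (0, yj j)‖ ≤ yj j / 8) : tau Z = tj j Z := by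
  refine tsum_eq_single j fun i hi => tj_zero ?_
  have h1 := (abs_snd_le _).trans h
  simp only [Prod.snd_sub] at h1
  obtain ⟨h2, h3⟩ := abs_le.1 h1
  have := yj0 i
  have := yj0 j
  rcases lt_or_gt_of_ne hi with hi | hi
  · have := yj_lt hi
    rw [abs_sub_comm, abs_of_pos (by linarith)]
    linarith
  · have := yj_lt hi
    rw [abs_of_pos (by linarith)]
    linarith

theorem no_global {F1 F2 F3 : Sm} {δ : ℝ} (hδ : 0 < δ)
    (hF : ∀ Z ∈ closedBall (0 : P) δ, Iso F1 F2 F3 (-Z.1 ^ 4 / 12 + tau Z) Z) : False := by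
  obtain ⟨n1, n2, n3, hn, h1, h2, h3⟩ : ∃ n1 n2 n3 : ℝ, n1 ^ 2 + n2 ^ 2 + n3 ^ 2 = 1 ∧
      D1 (comb n1 n2 n3 F1 F2 F3) 0 = 0 ∧ D2 (comb n1 n2 n3 F1 F2 F3) 0 = 0 ∧
      (0 < D1 (D1 (comb n1 n2 n3 F1 F2 F3)) 0 ∨ 0 < D2 (D2 (comb n1 n2 n3 F1 F2 F3)) 0) := by
    obtain ⟨i1, i2, i3⟩ := hF 0 (mem_closedBall_self hδ.le)
    obtain ⟨E, hE⟩ : ∃ E, E = Real.exp (2 * (-(0 : P).1 ^ 4 / 12 + tau 0)) := ⟨_, rfl⟩
    have E0 : E ≠ 0 := by rw [hE]; exact (Real.exp_pos _).ne'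
    rw [← hE] at i1 i2
    obtain ⟨n1, hn1⟩ : ∃ n, n = (D1 F2 0 * D2 F3 0 - D1 F3 0 * D2 F2 0) / E := ⟨_, rfl⟩
    obtain ⟨n2, hn2⟩ : ∃ n, n = (D1 F3 0 * D2 F1 0 - D1 F1 0 * D2 F3 0) / E := ⟨_, rfl⟩
    obtain ⟨n3, hn3⟩ : ∃ n, n = (D1 F1 0 * D2 F2 0 - D1 F2 0 * D2 F1 0) / E := ⟨_, rfl⟩
    have hn : n1 ^ 2 + n2 ^ 2 + n3 ^ 2 = 1 := by
      rw [hn1, hn2, hn3]
      field_simp
      linear_combination (D2 F1 0 * D2 F1 0 + D2 F2 0 * D2 F2 0 + D2 F3 0 * D2 F3 0) * i1 + E * i2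
        - (D1 F1 0 * D2 F1 0 + D1 F2 0 * D2 F2 0 + D1 F3 0 * D2 F3 0) * i3
    have h1 : D1 (comb n1 n2 n3 F1 F2 F3) 0 = 0 := by
      rw [D1, dv_comb, comb_ap, hn1, hn2, hn3]; simp only [D1]; ring
    have h2 : D2 (comb n1 n2 n3 F1 F2 F3) 0 = 0 := by
      rw [D2, dv_comb, comb_ap, hn1, hn2, hn3]; simp only [D2]; ring
    by_contra hc
    push Not at hc
    have c1 := hc n1 n2 n3 hn h1 h2
    have c2 := hc (-n1) (-n2) (-n3) (by linear_combination hn)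
      (by simp only [D1, dv_comb, comb_ap] at h1 ⊢; linear_combination -h1)
      (by simp only [D2, dv_comb, comb_ap] at h2 ⊢; linear_combination -h2)
    refine origin hδ tau_flat hn hF h1 h2 ?_ ?_
    · simp only [D1, D2, dv_comb, comb_ap] at c1 c2 ⊢; linarith [c1.1, c2.1]
    · simp only [D1, D2, dv_comb, comb_ap] at c1 c2 ⊢; linarith [c1.2, c2.2]
  obtain ⟨U, hU⟩ : ∃ U, U = comb n1 n2 n3 F1 F2 F3 := ⟨_, rfl⟩
  rw [← hU] at h1 h2 h3
  obtain ⟨M, hM, bU⟩ := exists_Wb (isCompact_closedBall (0 : P) δ) 13 U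
  have ty : Filter.Tendsto yj Filter.atTop (𝓝 0) :=
    tendsto_pow_atTop_nhds_zero_of_lt_one (by norm_num) (by norm_num)
  have tc : ∀ G : Sm, Filter.Tendsto (fun j => G (0, yj j)) Filter.atTop (𝓝 (G 0)) := fun G =>
    (G.sm.continuous.tendsto 0).comp (tendsto_const_nhds.prodMk_nhds ty)
  have ti : Filter.Tendsto (fun j : ℕ => ((j : ℝ) + 1)⁻¹) Filter.atTop (𝓝 0) := by
    simpa using tendsto_one_div_add_atTop_nhds_zero_nat (𝕜 := ℝ)
  have e1 : ∀ᶠ j in Filter.atTop, D1 U (0, yj j) ^ 2 + D2 U (0, yj j) ^ 2 ≤ 1 / 2 :=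
    (((tc (D1 U)).pow 2).add ((tc (D2 U)).pow 2)).eventually_le_const (by rw [h1, h2]; norm_num)
  have e2 : ∀ᶠ j : ℕ in Filter.atTop, ((j : ℝ) + 1)⁻¹ ≤ D1 (D1 U) (0, yj j) ∨
      ((j : ℝ) + 1)⁻¹ ≤ D2 (D2 U) (0, yj j) := by
    rcases h3 with h3 | h3
    · exact (ti.eventually_lt (tc _) h3).mono fun j hj => Or.inl hj.le
    · exact (ti.eventually_lt (tc _) h3).mono fun j hj => Or.inr hj.le
  have e3 : ∀ᶠ j in Filter.atTop, yj j ≤ δ / 2 := ty.eventually_le_const (by linarith)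
  have e4 : ∀ᶠ j : ℕ in Filter.atTop, M ≤ j := tendsto_natCast_atTop_atTop.eventually_ge_atTop M
  obtain ⟨j, j1, j2, j3, j4⟩ := (e1.and (e2.and (e3.and e4))).exists
  have y0 := yj0 j
  have hb := (isl j).hb
  obtain ⟨c, s, cs, N0, L1, L2⟩ := eigen (D1 (D1 U) (0, yj j)) ((isl j).b * D2 (D1 U) (0, yj j))
    ((isl j).b ^ 2 * D2 (D2 U) (0, yj j))
  have in1 : ∀ Z ∈ closedBall ((0, yj j) : P) (8 * (isl j).b * (isl j).r),
      ‖Z - (0, yj j)‖ ≤ yj j / 8 := fun Z hZ =>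
    (mem_closedBall_iff_norm.1 hZ).trans (isl j).small
  have in2 : ∀ Z ∈ closedBall ((0, yj j) : P) (8 * (isl j).b * (isl j).r),
      Z ∈ closedBall (0 : P) δ := fun Z hZ => by
    have h := in1 Z hZ
    have : ‖((0, yj j) : P)‖ ≤ yj j := norm_le_of _ (by simpa using y0.le) (by simp [abs_of_pos y0])
    have := norm_le_norm_sub_add Z (0, yj j)
    rw [mem_closedBall, dist_zero_right]
    linarith
  have in3 : ∀ Z ∈ closedBall ((0, yj j) : P) (8 * (isl j).b * (isl j).r),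
      Iso F1 F2 F3 (sig (isl j).b (isl j).r (isl j).la (isl j).m (Z - (0, yj j))) Z := fun Z hZ => by
    have := hF Z (in2 Z hZ)
    rw [tau_eq j (in1 Z hZ), tj] at this
    rw [← (isl j).inn _ (in1 Z hZ)]
    simpa using this
  refine (isl j).no ⟨(isl j).r, (isl j).la, (0, yj j), c, s, F1, F2, F3, U, n1, n2, n3,
    (isl j).r0, (isl j).r1, (isl j).la1, cs, hn, fun Z => by rw [hU, comb_ap],
    fun Z hZ => (in3 Z hZ).1, fun Z hZ => (in3 Z hZ).2.1, fun Z hZ => (in3 Z hZ).2.2,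
    bU.mono fun Z hZ => ⟨in2 Z hZ, by linarith⟩, j1, by linear_combination N0, ?_⟩ rfl rfl
  rcases j2 with j2 | j2
  · linarith
  · have p : 0 < ((j : ℝ) + 1)⁻¹ := by positivity
    have := le_mul_of_one_le_left (p.le.trans j2) (one_le_pow₀ (n := 2) hb)
    linarith

end P229
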