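import Vale.Agent.P229.Tame

open scoped ContDiff Topology
open Set MeasureTheory Metric

noncomputable section
namespace P229

def SS : R := xx ^ 2 + yy ^ 2 - 1

/-- constant coefficient vector field -/
def cvf (u v : ℝ) : Derivation ℝ R R := C u • dx + C v • dy

lemma cvf_ap (u v : ℝ) (f : R) : cvf u v f = C u * dx f + C v * dy f := rfl

/-- the vector fields of the Legendre transform in one variable -/
structure Core0 (ι : Type*) (m : ℕ) extends Sys ι m where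
  r : ι → ℝ
  xi : ι → R
  L : ι → R
  c0 : ℝ
  hc0 : 0 < c0
  hm : 15 ≤ m
  r0 : ∀ i, 0 < r i
  r1 : ∀ i, r i ≤ 1
  hX : ∀ i f, X i f = A i * dx f
  hD : ∀ i f, D i f = dy f + nu i * dx f
  hLA : ∀ i, L i * A i = 1
  hL : ∀ i, L i = dx (xi i)
  hLn : ∀ i, L i * nu i = -dy (xi i)
  Lpos : ∀ i z, c0 ≤ L i z
  bA : B 11 A
  bn : B 11 nu
  bxi : B 3 xi
  xi0 : ∀ i, xi i o = 0

/-- the equation in Legendre form -/
structure Core (ι : Type*) (m : ℕ) extends Core0 ι m where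
  t0 : ι → ℝ
  Ph : ι → R
  Pr : ι → R
  Pb : ι → R
  be : ι → R
  hh : ι → R
  u1 : ι → ℝ
  v1 : ι → ℝ
  u2 : ι → ℝ
  v2 : ι → ℝ
  c1 : ℝ
  hc1 : 0 < c1
  alm' : ∀ i, al i * la i ^ m = 1
  ht0 : ∀ i, c0 ≤ t0 i
  bt0 : Bc t0
  sm1 : ∃ K, 0 ≤ K ∧ ∀ i z, |xi i z * A i z - z.1.1| ≤ K * r i * ‖(z : P)‖
  sm2 : Bd one' (fun i => C (r i)⁻¹ * nu i)
  hPh : ∀ i, D i (nu i) = -X i (Ph i)
  ePh : ∀ i, Ph i = C (r i ^ 2 * t0 i) * SS * A i + C (r i ^ 3) * (Pr i + Pb i)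
  gPr : toSys.G (m + 2) 1 Pr
  gPb : toSys.G (m + 2) 2 Pb
  sth : ∀ i, Supp (c1 / la i) (th i)
  sbe : ∀ i, Supp (c1 / la i) (be i)
  be0 : ∀ i z, 0 ≤ be i z
  be1 : ∀ i (z : W), ‖(z : P)‖ ≤ c0 / la i → 1 ≤ be i z
  be2 : ∀ i z, be i z ≤ 1
  bu1 : Bc u1
  bv1 : Bc v1
  bu2 : Bc u2
  bv2 : Bc v2
  ell : ∀ i (s t : ℝ), c0 * s ^ 2 ≤ (u1 i * s + v1 i * t) ^ 2 + (u2 i * s + v2 i * t) ^ 2
  ePb : ∀ i, Pb i = -(hh i * A i * C (al i) *
    (cvf (u1 i) (v1 i) (cvf (u1 i) (v1 i) (be i)) + cvf (u2 i) (v2 i) (cvf (u2 i) (v2 i) (be i))))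
  bLb : ∃ K, 0 ≤ K ∧ ∀ i z, |(cvf (u1 i) (v1 i) (cvf (u1 i) (v1 i) (be i)) +
    cvf (u2 i) (v2 i) (cvf (u2 i) (v2 i) (be i))) z| ≤ K * la i ^ 2
  ghh : toSys.G 1 1 hh
  hh0 : ∀ i z, c0 ≤ hh i z

instance {ι : Type*} {m : ℕ} : CoeOut (Core ι m) (Core0 ι m) := ⟨Core.toCore0⟩

variable {ι : Type*} {m : ℕ}

lemma Bd.sub {w : ι → W → ℝ} {f g : ι → R} (hf : Bd w f) (hg : Bd w g) :
    Bd w (fun i => f i - g i) := (hf.add hg.neg).congr fun _ => sub_eq_add_neg _ _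

lemma Bd.mul1 {f g : ι → R} (hf : Bd one' f) (hg : Bd one' g) : Bd one' (fun i => f i * g i) :=
  hf.one_mul hg

lemma Bd.pow1 {f : ι → R} (hf : Bd one' f) (n : ℕ) : Bd one' (fun i => f i ^ n) :=
  B.pow (d := 0) hf n

lemma bd_nat (c : ℕ) : Bd one' (fun _ : ι => (c : R)) :=
  ⟨c, c.cast_nonneg, fun i z => by simp [one']⟩

lemma bd_ofNat (c : ℕ) [c.AtLeastTwo] : Bd one' (fun _ : ι => (OfNat.ofNat c : R)) := bd_nat c

lemma Bd.get {f : ι → R} (h : Bd one' f) : ∃ K, 0 ≤ K ∧ ∀ i z, |f i z| ≤ K := by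
  simpa [Bd, one'] using h

namespace Core0
variable (S : Core0 ι m)

lemma X_xi (i) : S.X i (S.xi i) = 1 := by rw [S.hX, ← S.hL, mul_comm, S.hLA]
lemma D_xi (i) : S.D i (S.xi i) = 0 := by rw [S.hD, ← S.hL, mul_comm, S.hLn]; ring
lemma X_xx (i) : S.X i xx = S.A i := by rw [S.hX]; simp
lemma D_xx (i) : S.D i xx = S.nu i := by rw [S.hD]; simp
lemma X_yy (i) : S.X i yy = 0 := by rw [S.hX]; simp
lemma D_yy (i) : S.D i yy = 1 := by rw [S.hD]; simp

lemma dx_eq (i f) : dx f = S.L i * S.X i f := by rw [S.hX, ← mul_assoc, S.hLA, one_mul]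
lemma dy_eq (i f) : dy f = S.D i f - S.nu i * S.L i * S.X i f := by
  rw [mul_assoc, ← S.dx_eq, S.hD]; ring

lemma comm (i f) : S.X i (S.D i f) = S.D i (S.X i f) := by
  have hA := S.hLA i
  have h1 : dx (S.L i * S.nu i) = -dy (S.L i) := by rw [S.hLn, map_neg, dxy_comm, ← S.hL]
  have h2 : dy (S.L i * S.A i) = 0 := by rw [hA]; simp
  have h3 : dx (S.L i * S.A i) = 0 := by rw [hA]; simp
  rw [der_mul] at h1 h2 h3
  have key : S.A i * dx (S.nu i) = dy (S.A i) + S.nu i * dx (S.A i) := by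
    linear_combination (S.A i) ^ 2 * h1 - S.A i * h2 - S.A i * S.nu i * h3
      - (S.A i * dx (S.nu i) - dy (S.A i) - S.nu i * dx (S.A i)) * hA
  simp only [S.hX, S.hD, map_add, der_mul, dxy_comm]
  linear_combination dx f * key

lemma D_A (i) : S.D i (S.A i) = S.X i (S.nu i) := by rw [← S.X_xx, ← S.comm, S.D_xx]

lemma X_a (k i) : S.X i (S.a k i) = S.a (k + 1) i := (it_succ' _ _ _).symm
lemma X_n (k i) : S.X i (S.n k i) = S.n (k + 1) i := (it_succ' _ _ _).symm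
lemma D_a (k i) : S.D i (S.a k i) = S.n (k + 1) i := by
  rw [Sys.a, it_comm (S.comm i), S.D_A]; rfl

lemma J_X {ρ} (hρ : ρ < 4) (i) {f : R} (h : Supp ρ f) : I ρ (S.L i * S.X i f) = 0 := by
  rw [← S.dx_eq]; exact I_pd hρ h _

lemma J_D {ρ} (hρ : ρ < 4) (i) {f : R} (h : Supp ρ f) : I ρ (S.L i * S.D i f) = 0 := by
  have : S.L i * S.D i f = dy (f * S.L i) + dx (f * (S.L i * S.nu i)) := by
    rw [der_mul, der_mul, S.hLn, map_neg, dxy_comm, ← S.hL, S.hD]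
    linear_combination dx f * S.hLn i
  rw [this, I_add hρ, dy, dx, I_pd hρ (h.mul_right _), I_pd hρ (h.mul_right _), add_zero]

lemma suppX {ρ} (i) {f : R} (h : Supp ρ f) : Supp ρ (S.X i f) := by
  rw [S.hX]; exact (h.pd _).mul_left _

lemma suppD {ρ} (i) {f : R} (h : Supp ρ f) : Supp ρ (S.D i f) := by
  rw [S.hD]; exact (h.pd _).add ((h.pd _).mul_left _)

variable {S}

lemma BX {d} {f : ι → R} (h : B (d + 1) f) (hd : d ≤ 11) : B d (fun i => S.X i (f i)) :=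
  ((S.bA.le hd).mul h.dx).congr fun i => S.hX i _

lemma BD {d} {f : ι → R} (h : B (d + 1) f) (hd : d ≤ 11) : B d (fun i => S.D i (f i)) :=
  (h.dy.add ((S.bn.le hd).mul h.dx)).congr fun i => S.hD i _

lemma Bit {d j} {f : ι → R} (h : B (d + j) f) (hd : d + j ≤ 12) :
    B d (fun i => it (S.X i) j (f i)) := by
  induction j generalizing d with
  | zero => exact h
  | succ j ih =>
    exact (BX (ih (d := d + 1) (by rwa [show d + 1 + j = d + (j + 1) by ring]) (by omega))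
      (by omega)).congr fun i => it_succ' _ _ _

variable (S)

lemma bd_a {j} (hj : j ≤ 11) : Bd one' (S.a j) :=
  (Bit (S := S) (d := 0) (S.bA.le (by omega)) (by omega)).bd

lemma bd_n {j} (hj : j ≤ 11) : Bd one' (S.n j) :=
  (Bit (S := S) (d := 0) (S.bn.le (by omega)) (by omega)).bd

lemma bL : B 2 S.L := S.bxi.dx.congr S.hL

lemma g0_of_B {s} {f : ι → R} (h : B 1 f) : S.G0 s f :=
  ⟨Sys.bd_of_one h.bd, Sys.bd_of_one (BD h (by norm_num)).bd⟩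

lemma gA {d s} : S.G d s S.A := Sys.G.gA (S.g0_of_B (S.bA.le (by norm_num)))
lemma gn {d s} : S.G d s S.nu := Sys.G.gn (S.g0_of_B (S.bn.le (by norm_num)))

lemma gxx {d s} : S.G d s (fun _ => xx) := by
  cases d with
  | zero => exact S.g0_of_B B.xx
  | succ d => exact Sys.G.of_X (S.g0_of_B B.xx) S.X_xx S.gA

lemma gyy {d s} : S.G d s (fun _ => yy) := by
  cases d with
  | zero => exact S.g0_of_B B.yy
  | succ d => exact Sys.G.of_X (S.g0_of_B B.yy) S.X_yy Sys.G.zero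

lemma br : Bc S.r := ⟨1, fun i => by rw [abs_of_pos (S.r0 i)]; exact S.r1 i⟩

lemma gSS {d s} (hd : d ≤ 2 * m) : S.G d s (fun _ => SS) :=
  ((((S.gxx (s := 0)).mul (S.gxx (s := 0)) (by omega) s.zero_le s.zero_le).add
    ((S.gyy (s := 0)).mul (S.gyy (s := 0)) (by omega) s.zero_le s.zero_le)).sub Sys.G.one).congr
    fun _ => by rw [SS]; ring

lemma X_SS (i) : S.X i SS = 2 * xx * S.A i := by
  simp only [SS, map_sub, map_add, Derivation.leibniz_pow, S.X_xx, S.X_yy,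
    Derivation.map_one_eq_zero]
  simp; ring

lemma D_SS (i) : S.D i SS = 2 * xx * S.nu i + 2 * yy := by
  simp only [SS, map_sub, map_add, Derivation.leibniz_pow, S.D_xx, S.D_yy,
    Derivation.map_one_eq_zero]
  simp; ring

/-- Lipschitz bound at the centre -/
lemma lip {f : ι → R} (hX : Bd one' fun i => S.X i (f i)) (hD : Bd one' fun i => S.D i (f i)) :
    ∃ K, 0 ≤ K ∧ ∀ i z, |f i z - f i o| ≤ K * ‖(z : P)‖ := by
  obtain ⟨K, hK, h1⟩ := ((S.bL.bd.mul1 hX).congr fun i => S.dx_eq i (f i)).get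
  obtain ⟨K', hK', h2⟩ := ((hD.sub ((S.bn.bd.mul1 S.bL.bd).mul1 hX)).congr
    fun i => S.dy_eq i (f i)).get
  exact ⟨2 * (K + K'), by positivity, fun i z => mean_value _
    (fun z => (h1 i z).trans (by linarith)) (fun z => (h2 i z).trans (by linarith)) z⟩

lemma xi_le : ∃ K, 0 ≤ K ∧ ∀ i z, |S.xi i z| ≤ K * ‖(z : P)‖ := by
  obtain ⟨K, hK, h⟩ := S.lip (f := S.xi) ((B.one (d := 0)).bd.congr S.X_xi)
    (bd_zero.congr S.D_xi)
  exact ⟨K, hK, fun i z => by simpa [S.xi0] using h i z⟩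

lemma X_comp (i) (g hg f) : S.X i (comp g hg f) = comp (deriv g) (cd_deriv hg) f * S.X i f := by
  rw [S.hX, S.hX, dx, pd_comp]; ring

lemma D_comp (i) (g hg f) : S.D i (comp g hg f) = comp (deriv g) (cd_deriv hg) f * S.D i f := by
  rw [S.hD, S.hD, dx, dy, pd_comp, pd_comp]; ring

end Core0

namespace Core
open Core0
variable (S : Core ι m)

lemma D_n (k i) : S.D i (S.n k i) = -it (S.X i) (k + 1) (S.Ph i) := by
  rw [Sys.n, it_comm (S.comm i), S.hPh, it_neg]; rfl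

lemma gPh : S.G (m + 2) 2 S.Ph := by
  have := S.hm
  exact (((((S.gSS (s := 0) (by omega)).cmul ((S.br.pow 2).mul S.bt0)).mul (S.gA (s := 0))
    (by omega) (Nat.zero_le 2) (Nat.zero_le 2))).add
    (((S.gPr.up (by norm_num)).add S.gPb).cmul (S.br.pow 3))).congr S.ePh

/-- the differentiated equation -/
lemma eqn (k : ℕ) : ∃ k1 c1 b1 b2 : ι → R, Bd one' k1 ∧ Bd one' c1 ∧
    Bd one' (fun i => S.X i (k1 i)) ∧ Bd one' (fun i => S.D i (k1 i)) ∧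
    Bd one' (fun i => S.X i (c1 i)) ∧ Bd one' (fun i => S.D i (c1 i)) ∧ Bd one' b1 ∧ Bd one' b2 ∧
    ∀ (J : Set ι) (ρ : ℝ) (N : ℕ), S.Hyp J ρ N → N ≤ m → 1 ≤ N → k + 1 ≤ m → k + 5 ≤ 2 * N + 1 →
      S.Low J ρ (k + 1) (k + 5) (fun i => -(S.D i (S.n (k + 2) i) +
        (C (S.r i ^ 2 * S.t0 i) * SS + C (S.r i ^ 3) * k1 i) * S.a (k + 3) i +
        C (S.r i ^ 3) * c1 i * S.n (k + 3) i +
        (C (S.r i ^ 2 * S.t0 i) * (2 * ((k + 2 : ℕ) + 2) * xx * S.A i) + C (S.r i ^ 3) * b1 i)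
          * S.a (k + 2) i + C (S.r i ^ 3) * b2 i * S.n (k + 2) i)) := by
  have hm := S.hm
  have a1 := S.bd_a (j := 1) (by norm_num)
  have n1 := S.bd_n (j := 1) (by norm_num)
  obtain ⟨_, fA, fn, f0, hd, h1, h2, h3⟩ := (S.gPr.up (by norm_num)).add S.gPb
  have h1' := h1
  have h2' := h2
  obtain ⟨_, fAA, fAn, fA0, hA, e1, e2, e3⟩ := h1'
  obtain ⟨_, fnA, fnn, fn0, hn, e4, e5, e6⟩ := h2'
  obtain ⟨_, f0A, f0n, f00, h0, e7, e8, e9⟩ := h3
  have x1 := Sys.bd_to_one (h1.bdX a1 n1) (by omega)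
  have x2 := Sys.bd_to_one (h2.bdX a1 n1) (by omega)
  refine ⟨fA, fn, fun i => ((k + 2 : ℕ) : R) * S.X i (fA i) + fAA i * S.a 1 i + fnA i * S.n 1 i
      + f0A i, fun i => ((k + 2 : ℕ) : R) * S.X i (fn i) + fAn i * S.a 1 i + fnn i * S.n 1 i
      + f0n i, Sys.bd_to_one h1.bd (by omega), Sys.bd_to_one h2.bd (by omega), x1,
      Sys.bd_to_one h1.bdD (by omega), x2, Sys.bd_to_one h2.bdD (by omega), ?_, ?_, ?_⟩
  · exact ((((bd_nat _).mul1 x1).add ((Sys.bd_to_one e1.bd (by omega)).mul1 a1)).add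
      ((Sys.bd_to_one e4.bd (by omega)).mul1 n1)).add (Sys.bd_to_one e7.bd (by omega))
  · exact ((((bd_nat _).mul1 x2).add ((Sys.bd_to_one e2.bd (by omega)).mul1 a1)).add
      ((Sys.bd_to_one e5.bd (by omega)).mul1 n1)).add (Sys.bd_to_one e8.bd (by omega))
  intro J ρ N H hN hN1 hk hs
  have t1 := Sys.T2 (k := k) H hN hN1 hd h1 h2 hA e1 e2 e3 hn e4 e5 e6 h0 e7 e8 e9 hk (by omega)
  have gx : ∀ {d s}, S.G d s (fun _ => xx) := S.gxx
  have gA : ∀ {d s}, S.G d s S.A := S.gA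
  have two : ∀ {d s} {f : ι → R}, S.G d s f → S.G d s (fun i => 2 * f i) := fun h =>
    (h.add h).congr fun _ => two_mul _
  have gxA : ∀ {s}, S.G m s (fun i => 2 * (xx * S.A i)) := fun {s} =>
    two ((gx (s := 0)).mul (gA (s := 0)) (by omega) s.zero_le s.zero_le)
  have t2 := Sys.T2 (S := S.toSys) (k := k) (s := 0) (d := m) (f := fun i => SS * S.A i)
    (fA := fun _ => SS) (fn := fun _ => 0) (f0 := fun i => 2 * (xx * S.A i) * S.A i)
    (fAA := fun _ => 0) (fAn := fun _ => 0) (fA0 := fun i => 2 * (xx * S.A i))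
    (fnA := fun _ => 0) (fnn := fun _ => 0) (fn0 := fun _ => 0)
    (f0A := fun i => 2 * (2 * (xx * S.A i))) (f0n := fun _ => 0)
    (f00 := fun i => 2 * (S.A i * (S.A i * S.A i))) H hN hN1
    (fun i => by rw [der_mul, S.X_SS]; simp only [Sys.a, it_one]; ring)
    (S.gSS (by omega)) Sys.G.zero
    (fun i => by rw [S.X_SS]; ring) Sys.G.zero Sys.G.zero gxA
    (fun i => by simp) Sys.G.zero Sys.G.zero Sys.G.zero
    (fun i => by simp only [der_mul, der_ofNat, S.X_xx, Sys.a, it_one]; ring)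
    (two gxA) Sys.G.zero
    (two ((gA (s := 0)).mul ((gA (s := 0)).mul (gA (s := 0)) (by omega) le_rfl le_rfl)
      (by omega) (Nat.zero_le _) (Nat.zero_le _))) hk (by omega)
  refine ((Sys.Low.bmul (Sys.Bnd.of_bd (S.br.pow 3).bd) (t1.mono le_rfl (by omega))).add
    (Sys.Low.bmul (Sys.Bnd.of_bd ((S.br.pow 2).mul S.bt0).bd)
      (t2.mono le_rfl (by omega)))).congr fun i => ?_
  rw [S.D_n, S.ePh, mul_assoc, it_add, it_C_mul, it_C_mul, S.X_SS]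
  simp only [map_zero]
  ring

end Core
end P229
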