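import Vale.Agent.P229.Ring

open scoped ContDiff Topology
open Set MeasureTheory Metric

noncomputable section
namespace P229

lemma gram {a1 a2 a3 b1 b2 b3 n1 n2 n3 w1 w2 w3 v1 v2 v3 E : ℝ} (hE : E ≠ 0)
    (haa : a1 * a1 + a2 * a2 + a3 * a3 = E) (hbb : b1 * b1 + b2 * b2 + b3 * b3 = E)
    (hab : a1 * b1 + a2 * b2 + a3 * b3 = 0) (hn : n1 ^ 2 + n2 ^ 2 + n3 ^ 2 = 1)
    (hwa : w1 * a1 + w2 * a2 + w3 * a3 = 0) (hwb : w1 * b1 + w2 * b2 + w3 * b3 = 0)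
    (hva : v1 * a1 + v2 * a2 + v3 * a3 = 0) (hvb : v1 * b1 + v2 * b2 + v3 * b3 = 0) :
    E * ((n1 * w1 + n2 * w2 + n3 * w3) * (n1 * v1 + n2 * v2 + n3 * v3)) =
      (w1 * v1 + w2 * v2 + w3 * v3) *
        (E - (n1 * a1 + n2 * a2 + n3 * a3) ^ 2 - (n1 * b1 + n2 * b2 + n3 * b3) ^ 2) := by
  obtain ⟨c1, hc1⟩ : ∃ c, c = a2 * b3 - a3 * b2 := ⟨_, rfl⟩
  obtain ⟨c2, hc2⟩ : ∃ c, c = a3 * b1 - a1 * b3 := ⟨_, rfl⟩
  obtain ⟨c3, hc3⟩ : ∃ c, c = a1 * b2 - a2 * b1 := ⟨_, rfl⟩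
  have key : ∀ x1 x2 x3 y1 y2 y3 : ℝ,
      (x1 * c1 + x2 * c2 + x3 * c3) * (y1 * c1 + y2 * c2 + y3 * c3) =
      E ^ 2 * (x1 * y1 + x2 * y2 + x3 * y3)
        - E * ((x1 * a1 + x2 * a2 + x3 * a3) * (y1 * a1 + y2 * a2 + y3 * a3))
        - E * ((x1 * b1 + x2 * b2 + x3 * b3) * (y1 * b1 + y2 * b2 + y3 * b3)) := by
    intro x1 x2 x3 y1 y2 y3
    have : (x1 * c1 + x2 * c2 + x3 * c3) * (y1 * c1 + y2 * c2 + y3 * c3) =
        ((a1 * a1 + a2 * a2 + a3 * a3) * (b1 * b1 + b2 * b2 + b3 * b3)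
          - (a1 * b1 + a2 * b2 + a3 * b3) ^ 2) * (x1 * y1 + x2 * y2 + x3 * y3)
        - (b1 * b1 + b2 * b2 + b3 * b3) *
          ((x1 * a1 + x2 * a2 + x3 * a3) * (y1 * a1 + y2 * a2 + y3 * a3))
        - (a1 * a1 + a2 * a2 + a3 * a3) *
          ((x1 * b1 + x2 * b2 + x3 * b3) * (y1 * b1 + y2 * b2 + y3 * b3))
        + (a1 * b1 + a2 * b2 + a3 * b3) *
          ((x1 * a1 + x2 * a2 + x3 * a3) * (y1 * b1 + y2 * b2 + y3 * b3) +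
          (x1 * b1 + x2 * b2 + x3 * b3) * (y1 * a1 + y2 * a2 + y3 * a3)) := by
      rw [hc1, hc2, hc3]; ring
    rw [this, haa, hbb, hab]; ring
  have k1 := key n1 n2 n3 w1 w2 w3
  have k2 := key n1 n2 n3 v1 v2 v3
  have k3 := key w1 w2 w3 v1 v2 v3
  have k4 := key n1 n2 n3 n1 n2 n3
  rw [hwa, hwb] at k1 k3
  rw [hva, hvb] at k2
  rw [show n1 * n1 + n2 * n2 + n3 * n3 = 1 by linear_combination hn] at k4
  apply mul_left_cancel₀ (pow_ne_zero 3 hE)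
  have e : (n1 * c1 + n2 * c2 + n3 * c3) * (w1 * c1 + w2 * c2 + w3 * c3) *
      ((n1 * c1 + n2 * c2 + n3 * c3) * (v1 * c1 + v2 * c2 + v3 * c3)) =
      (n1 * c1 + n2 * c2 + n3 * c3) * (n1 * c1 + n2 * c2 + n3 * c3) *
      ((w1 * c1 + w2 * c2 + w3 * c3) * (v1 * c1 + v2 * c2 + v3 * c3)) := by ring
  rw [k1, k2, k3, k4] at e
  linear_combination e

/-- the Darboux equation for a height function of a conformal immersion -/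
theorem darboux (d1 d2 : Derivation ℝ R R) (hc : ∀ f, d1 (d2 f) = d2 (d1 f))
    {F1 F2 F3 E s1 s2 u : R} {n1 n2 n3 : ℝ} (hn : n1 ^ 2 + n2 ^ 2 + n3 ^ 2 = 1)
    (hE : ∀ z, E z ≠ 0) (h11 : d1 F1 * d1 F1 + d1 F2 * d1 F2 + d1 F3 * d1 F3 = E)
    (h22 : d2 F1 * d2 F1 + d2 F2 * d2 F2 + d2 F3 * d2 F3 = E)
    (h12 : d1 F1 * d2 F1 + d1 F2 * d2 F2 + d1 F3 * d2 F3 = 0)
    (hs1 : d1 E = 2 * E * s1) (hs2 : d2 E = 2 * E * s2)
    (hu : u = C n1 * F1 + C n2 * F2 + C n3 * F3) :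
    (d1 (d1 u) - (s1 * d1 u - s2 * d2 u)) * (d2 (d2 u) + (s1 * d1 u - s2 * d2 u)) -
      (d1 (d2 u) - (s2 * d1 u + s1 * d2 u)) ^ 2 =
      -((d1 s1 + d2 s2) * (E - d1 u ^ 2 - d2 u ^ 2)) := by
  have a1 := congrArg d1 h11
  have a2 := congrArg d2 h11
  have b1 := congrArg d1 h22
  have b2 := congrArg d2 h22
  have c1 := congrArg d1 h12
  have c2 := congrArg d2 h12
  rw [hs1] at a1 b1
  rw [hs2] at a2 b2
  have a22 := congrArg d2 a2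
  have b11 := congrArg d1 b1
  have c12 := congrArg d1 c2
  simp only [map_add, der_mul, hs1, hs2, map_zero, der_ofNat, hc] at a1 a2 b1 b2 c1 c2 a22 b11 c12
  ext z
  have ev := fun {f g : R} (h : f = g) => congrArg (fun f : R => f z) h
  have a1 := ev a1
  have a2 := ev a2
  have b1 := ev b1
  have b2 := ev b2
  have c1 := ev c1
  have c2 := ev c2
  have a22 := ev a22
  have b11 := ev b11
  have c12 := ev c12
  have h11 := ev h11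
  have h22 := ev h22
  have h12 := ev h12
  simp only [hu, map_add, der_mul, der_C, hc, add_ap, mul_ap, sub_ap, pow_ap, neg_ap, C_ap,
    zero_ap, ofNat_ap, mul_zero, add_zero] at a1 a2 b1 b2 c1 c2 a22 b11 c12 h11 h22 h12 ⊢
  have g1 := gram (w1 := d1 (d1 F1) z - s1 z * d1 F1 z + s2 z * d2 F1 z)
    (w2 := d1 (d1 F2) z - s1 z * d1 F2 z + s2 z * d2 F2 z)
    (w3 := d1 (d1 F3) z - s1 z * d1 F3 z + s2 z * d2 F3 z)
    (v1 := d2 (d2 F1) z + s1 z * d1 F1 z - s2 z * d2 F1 z)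
    (v2 := d2 (d2 F2) z + s1 z * d1 F2 z - s2 z * d2 F2 z)
    (v3 := d2 (d2 F3) z + s1 z * d1 F3 z - s2 z * d2 F3 z) (hE z) h11 h22 h12 hn
    (by linear_combination a1 / 2 - s1 z * h11 + s2 z * h12)
    (by linear_combination c1 - a2 / 2 - s1 z * h12 + s2 z * h22)
    (by linear_combination c2 - b1 / 2 + s1 z * h11 - s2 z * h12)
    (by linear_combination b2 / 2 + s1 z * h12 - s2 z * h22)
  have o1 : (d2 (d1 F1) z - s2 z * d1 F1 z - s1 z * d2 F1 z) * d1 F1 z +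
      (d2 (d1 F2) z - s2 z * d1 F2 z - s1 z * d2 F2 z) * d1 F2 z +
      (d2 (d1 F3) z - s2 z * d1 F3 z - s1 z * d2 F3 z) * d1 F3 z = 0 := by
    linear_combination a2 / 2 - s2 z * h11 - s1 z * h12
  have o2 : (d2 (d1 F1) z - s2 z * d1 F1 z - s1 z * d2 F1 z) * d2 F1 z +
      (d2 (d1 F2) z - s2 z * d1 F2 z - s1 z * d2 F2 z) * d2 F2 z +
      (d2 (d1 F3) z - s2 z * d1 F3 z - s1 z * d2 F3 z) * d2 F3 z = 0 := by
    linear_combination b1 / 2 - s2 z * h12 - s1 z * h22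
  have g2 := gram (hE z) h11 h22 h12 hn o1 o2 o1 o2
  apply mul_left_cancel₀ (hE z)
  obtain ⟨V, hV⟩ : ∃ V, V = E z - (n1 * d1 F1 z + n2 * d1 F2 z + n3 * d1 F3 z) ^ 2 -
    (n1 * d2 F1 z + n2 * d2 F2 z + n3 * d2 F3 z) ^ 2 := ⟨_, rfl⟩
  rw [← hV] at g1 g2 ⊢
  linear_combination g1 - g2 + V * (c12 - a22 / 2 - b11 / 2
    + (s1 z * a1 / 2 - s2 z * (c1 - a2 / 2) - s1 z * (c2 - b1 / 2) + s2 z * b2 / 2)
    + (s2 z * a2 + s1 z * b1)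
    - 2 * s1 z ^ 2 * h11 - 2 * s2 z ^ 2 * h22 + (s1 z ^ 2 - s2 z ^ 2) * (h11 - h22))

end P229
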