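import Vale.Agent.P229.Final

open scoped ContDiff Topology
open Set MeasureTheory Metric

noncomputable section
namespace P229

variable {ι : Type*} {m : ℕ}

lemma T.cvf {wt : ℕ → ι → W → ℝ} {d s} {u v : ι → ℝ} {f : ι → R} (h : T wt (d + 1) s f)
    (hu : Bc u) (hv : Bc v) : T wt d (s + 1) (fun i => cvf (u i) (v i) (f i)) :=
  (h.2.1.cmul hu).add (h.2.2.cmul hv)

/-- slowly varying families -/
def Sl (r : ι → ℝ) (f : ι → R) : Prop :=
  B 11 f ∧ Bd one' (fun i => C (r i)⁻¹ * dx (f i)) ∧ Bd one' (fun i => C (r i)⁻¹ * dy (f i))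

lemma Sl.add {r : ι → ℝ} {f g : ι → R} (hf : Sl r f) (hg : Sl r g) :
    Sl r (fun i => f i + g i) :=
  ⟨hf.1.add hg.1, (hf.2.1.add hg.2.1).congr fun i => by rw [map_add, mul_add],
    (hf.2.2.add hg.2.2).congr fun i => by rw [map_add, mul_add]⟩

lemma Sl.cmul {r c : ι → ℝ} {f : ι → R} (hc : Bc c) (hf : Sl r f) :
    Sl r (fun i => C (c i) * f i) :=
  ⟨hf.1.cmul hc, (hc.bd.mul1 hf.2.1).congr fun i => by rw [der_mul, der_C]; ring,
    (hc.bd.mul1 hf.2.2).congr fun i => by rw [der_mul, der_C]; ring⟩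

lemma Sl.congr {r : ι → ℝ} {f g : ι → R} (hf : Sl r f) (h : ∀ i, g i = f i) : Sl r g := by
  rwa [show g = f from funext h]

lemma bd_of_grad {f : ι → R} (h0 : ∀ i, f i o = 0) (h1 : Bd one' fun i => dx (f i))
    (h2 : Bd one' fun i => dy (f i)) :
    ∃ K, 0 ≤ K ∧ ∀ i z, |f i z| ≤ K * ‖(z : P)‖ := by
  obtain ⟨K, hK, e1⟩ := h1.get
  obtain ⟨K', hK', e2⟩ := h2.get
  refine ⟨2 * (K + K'), by positivity, fun i z => ?_⟩
  have := mean_value (f i) (K := K + K') (fun z => (e1 i z).trans (by linarith))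
    (fun z => (e2 i z).trans (by linarith)) z
  rwa [h0, sub_zero] at this

lemma bd_of_grad' {f : ι → R} (h0 : ∀ i, f i o = 0) (h1 : Bd one' fun i => dx (f i))
    (h2 : Bd one' fun i => dy (f i)) : Bd one' f := by
  obtain ⟨K, hK, e⟩ := bd_of_grad h0 h1 h2
  refine ⟨K * 4, by positivity, fun i z => (e i z).trans ?_⟩
  have := (W.norm_lt z).le
  simp only [one', mul_one]
  gcongr

lemma Sl.near {r : ι → ℝ} {f : ι → R} (hf : Sl r f) :
    Bd one' (fun i => C (r i)⁻¹ * (f i - C (f i o))) :=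
  bd_of_grad' (fun i => by simp) (hf.2.1.congr fun i => by simp)
    (hf.2.2.congr fun i => by simp)

def z1 (c s : ℝ) : R := C c * xx - C s * yy
def z2 (c s : ℝ) : R := C s * xx + C c * yy
def e1 (c s : ℝ) : Derivation ℝ R R := cvf c (-s)
def e2 (b c s : ℝ) : Derivation ℝ R R := cvf (s / b) (c / b)
def vs (b c s : ℝ) : R :=
  -(C (1 / 12) * z1 c s ^ 4) - C (b ^ 2 / 12) * z2 c s ^ 4 + C (b ^ 2 / 2) * z2 c s ^ 2

section
variable {b c s : ℝ}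

lemma dx_e (hb : b ≠ 0) (h : c ^ 2 + s ^ 2 = 1) (f : R) :
    dx f = C c * e1 c s f + C (b * s) * e2 b c s f := by
  ext z
  simp only [e1, e2, cvf_ap, add_ap, mul_ap, C_ap]
  field_simp
  linear_combination -(dx f z) * h

lemma dy_e (hb : b ≠ 0) (h : c ^ 2 + s ^ 2 = 1) (f : R) :
    dy f = C (-s) * e1 c s f + C (b * c) * e2 b c s f := by
  ext z
  simp only [e1, e2, cvf_ap, add_ap, mul_ap, C_ap]
  field_simp
  linear_combination -(dy f z) * h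

lemma e1_z1 (h : c ^ 2 + s ^ 2 = 1) : e1 c s (z1 c s) = 1 := by
  ext z; simp [e1, z1, cvf_ap]; linear_combination h
lemma e1_z2 : e1 c s (z2 c s) = 0 := by
  ext z; simp [e1, z2, cvf_ap]; ring
lemma e2_z1 : e2 b c s (z1 c s) = 0 := by
  ext z; simp [e2, z1, cvf_ap]; ring
lemma e2_z2 (h : c ^ 2 + s ^ 2 = 1) : e2 b c s (z2 c s) = C b⁻¹ := by
  ext z; simp [e2, z2, cvf_ap]; linear_combination b⁻¹ * h

lemma lap_vs (hb : b ≠ 0) (h : c ^ 2 + s ^ 2 = 1) :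
    e1 c s (e1 c s (vs b c s)) + e2 b c s (e2 b c s (vs b c s)) = -SS := by
  simp only [vs, map_add, map_sub, map_neg, der_mul, der_C, Derivation.leibniz_pow, e1_z1 h, e1_z2,
    e2_z1, e2_z2 h, smul_eq_mul, nsmul_eq_mul, Derivation.map_natCast, Derivation.map_one_eq_zero,
    map_zero]
  ext z
  simp [SS, z1, z2]
  field_simp
  linear_combination (-12 * (z.1.1 ^ 2 + z.1.2 ^ 2)) * h

end

lemma abs_exp_sub_one_le' (x : ℝ) : |Real.exp x - 1| ≤ |x| * Real.exp |x| := by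
  have h1 := Real.add_one_le_exp x
  have h2 := Real.add_one_le_exp (-x)
  have h3 : Real.exp x * Real.exp (-x) = 1 := by rw [← Real.exp_add]; simp
  have h4 := Real.exp_pos x
  rcases le_total 0 x with h | h
  · rw [abs_of_nonneg h, abs_of_nonneg (by linarith)]
    nlinarith
  · have h5 : Real.exp x ≤ 1 := Real.exp_le_one_iff.2 h
    rw [abs_of_nonpos h, abs_of_nonpos (by linarith)]
    nlinarith

/-- the data of the rescaled Darboux equation -/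
structure Dat (ι : Type*) (m : ℕ) where
  r : ι → ℝ
  la : ι → ℝ
  al : ι → ℝ
  b : ℝ
  c0 : ℝ
  c1 : ℝ
  c : ι → ℝ
  s : ι → ℝ
  P1 : ι → R
  P2 : ι → R
  H11 : ι → R
  H12 : ι → R
  H22 : ι → R
  be : ι → R
  th : ι → R
  ta : ι → R
  E : ι → R
  hm : 15 ≤ m
  hb : 1 ≤ b
  hc0 : 0 < c0
  hc0' : 6 * c0 * b ^ 2 ≤ 1
  hc1 : 0 < c1
  r0 : ∀ i, 0 < r i
  r1 : ∀ i, r i ≤ 1
  la1 : ∀ i, 1 ≤ la i
  alm' : ∀ i, al i * la i ^ m = 1
  cs : ∀ i, c i ^ 2 + s i ^ 2 = 1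
  th0 : ∀ i z, 0 ≤ th i z
  th1 : ∀ i z, th i z ≤ 1
  sth : ∀ i, Supp (c1 / la i) (th i)
  sbe : ∀ i, Supp (c1 / la i) (be i)
  be0 : ∀ i z, 0 ≤ be i z
  be1 : ∀ i (z : W), ‖(z : P)‖ ≤ c0 / la i → 1 ≤ be i z
  be2 : ∀ i z, be i z ≤ 1
  tbe : T (fun k i z => 1 + al i * la i ^ k * th i z) (m + 5) 0 (fun i => C (al i) * be i)
  bLb : ∃ K, 0 ≤ K ∧ ∀ i z, |(e1 (c i) (s i) (e1 (c i) (s i) (be i)) +
    e2 b (c i) (s i) (e2 b (c i) (s i) (be i))) z| ≤ K * la i ^ 2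
  d11 : ∀ i, e1 (c i) (s i) (P1 i) = C (r i) * H11 i
  d21 : ∀ i, e2 b (c i) (s i) (P1 i) = C (r i) * H12 i
  d12 : ∀ i, e1 (c i) (s i) (P2 i) = C (r i) * H12 i
  d22 : ∀ i, e2 b (c i) (s i) (P2 i) = C (r i) * H22 i
  s11 : Sl r H11
  s12 : Sl r H12
  s22 : Sl r H22
  P0 : ∀ i, P1 i o ^ 2 + P2 i o ^ 2 ≤ 1 / 2
  N0 : ∀ i, -(c i * s i) * H11 i o + b * (c i ^ 2 - s i ^ 2) * H12 i o
    + b ^ 2 * c i * s i * H22 i o = 0
  L0 : ∀ i, 3 * c0 ≤ c i ^ 2 * H11 i o + 2 * b * c i * s i * H12 i o + b ^ 2 * s i ^ 2 * H22 i o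
  hta : ∀ i, ta i = vs b (c i) (s i) + C (r i) * (C (al i) * be i)
  hE : ∀ i, E i = comp Real.exp Real.contDiff_exp (C (2 * r i ^ 4) * ta i)
  eqn : ∀ i, (H11 i - C (r i ^ 3) * (e1 (c i) (s i) (ta i) * P1 i - e2 b (c i) (s i) (ta i) * P2 i)) *
      (H22 i + C (r i ^ 3) * (e1 (c i) (s i) (ta i) * P1 i - e2 b (c i) (s i) (ta i) * P2 i)) -
      (H12 i - C (r i ^ 3) * (e2 b (c i) (s i) (ta i) * P1 i + e1 (c i) (s i) (ta i) * P2 i)) ^ 2 =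
    -(C (r i ^ 2) * (e1 (c i) (s i) (e1 (c i) (s i) (ta i)) +
      e2 b (c i) (s i) (e2 b (c i) (s i) (ta i))) * (E i - P1 i ^ 2 - P2 i ^ 2))

lemma Bd.res {κ : Type*} {w : ι → W → ℝ} {f : ι → R} (h : Bd w f) (g : κ → ι) :
    Bd (fun k => w (g k)) (fun k => f (g k)) := by
  obtain ⟨K, hK, h⟩ := h
  exact ⟨K, hK, fun k z => h _ z⟩

lemma T.res {κ : Type*} {wt : ℕ → ι → W → ℝ} {d s} {f : ι → R} (h : T wt d s f) (g : κ → ι) :
    T (fun j k => wt j (g k)) d s (fun k => f (g k)) := by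
  induction d generalizing s f with
  | zero => exact Bd.res h g
  | succ d ih => exact ⟨h.1.res g, ih h.2.1, ih h.2.2⟩

lemma Sl.res {κ : Type*} {r : ι → ℝ} {f : ι → R} (h : Sl r f) (g : κ → ι) :
    Sl (fun k => r (g k)) (fun k => f (g k)) := ⟨T.res h.1 g, h.2.1.res g, h.2.2.res g⟩

namespace Dat
variable (S : Dat ι m)

def res {κ : Type*} (g : κ → ι) : Dat κ m where
  r k := S.r (g k)
  la k := S.la (g k)
  al k := S.al (g k)
  b := S.b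
  c0 := S.c0
  c1 := S.c1
  c k := S.c (g k)
  s k := S.s (g k)
  P1 k := S.P1 (g k)
  P2 k := S.P2 (g k)
  H11 k := S.H11 (g k)
  H12 k := S.H12 (g k)
  H22 k := S.H22 (g k)
  be k := S.be (g k)
  th k := S.th (g k)
  ta k := S.ta (g k)
  E k := S.E (g k)
  hm := S.hm
  hb := S.hb
  hc0 := S.hc0
  hc0' := S.hc0'
  hc1 := S.hc1
  r0 _ := S.r0 _
  r1 _ := S.r1 _
  la1 _ := S.la1 _
  alm' _ := S.alm' _
  cs _ := S.cs _
  th0 _ := S.th0 _
  th1 _ := S.th1 _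
  sth _ := S.sth _
  sbe _ := S.sbe _
  be0 _ := S.be0 _
  be1 _ := S.be1 _
  be2 _ := S.be2 _
  tbe := S.tbe.res g
  bLb := by obtain ⟨K, hK, h⟩ := S.bLb; exact ⟨K, hK, fun _ => h _⟩
  d11 _ := S.d11 _
  d21 _ := S.d21 _
  d12 _ := S.d12 _
  d22 _ := S.d22 _
  s11 := S.s11.res g
  s12 := S.s12.res g
  s22 := S.s22.res g
  P0 _ := S.P0 _
  N0 _ := S.N0 _
  L0 _ := S.L0 _
  hta _ := S.hta _
  hE _ := S.hE _
  eqn _ := S.eqn _

lemma b0 : 0 < S.b := zero_lt_one.trans_le S.hb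
lemma b2 : 1 ≤ S.b ^ 2 := one_le_pow₀ S.hb
lemma c0_le : S.c0 ≤ 1 / 6 := by have := S.hc0'; have := S.b2; have := S.hc0; nlinarith
lemma la0 (i) : 0 < S.la i := zero_lt_one.trans_le (S.la1 i)
lemma al0 (i) : 0 < S.al i := by
  have := S.alm' i
  have h := pow_pos (S.la0 i) m
  by_contra h'
  nlinarith [not_lt.1 h']
lemma bc : Bc S.c := ⟨1, fun i => by
  have := S.cs i
  exact abs_le_one_iff_mul_self_le_one.2 (by nlinarith)⟩
lemma bs : Bc S.s := ⟨1, fun i => by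
  have := S.cs i
  exact abs_le_one_iff_mul_self_le_one.2 (by nlinarith)⟩
lemma br : Bc S.r := ⟨1, fun i => by rw [abs_of_pos (S.r0 i)]; exact S.r1 i⟩
lemma bb : Bc (fun _ : ι => S.b) := Bc.const _
lemma bsb : Bc (fun i => S.s i / S.b) := S.bs.mul (Bc.const S.b⁻¹)
lemma bcb : Bc (fun i => S.c i / S.b) := S.bc.mul (Bc.const S.b⁻¹)
lemma bP10 : Bc (fun i => S.P1 i o) := ⟨1, fun i => by
  have := S.P0 i
  exact abs_le_one_iff_mul_self_le_one.2 (by nlinarith)⟩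
lemma bP20 : Bc (fun i => S.P2 i o) := ⟨1, fun i => by
  have := S.P0 i
  exact abs_le_one_iff_mul_self_le_one.2 (by nlinarith)⟩

def d1 (i : ι) : Derivation ℝ R R := e1 (S.c i) (S.s i)
def d2 (i : ι) : Derivation ℝ R R := e2 S.b (S.c i) (S.s i)

def Q1 (i : ι) : R := C (S.r i)⁻¹ * (S.P1 i - C (S.P1 i o))
def Q2 (i : ι) : R := C (S.r i)⁻¹ * (S.P2 i - C (S.P2 i o))
def p (i : ι) : R := C (S.c i) * S.Q1 i + C (S.b * S.s i) * S.Q2 i
def q (i : ι) : R := C (-S.s i) * S.Q1 i + C (S.b * S.c i) * S.Q2 i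
def L (i : ι) : R := C (S.c i ^ 2) * S.H11 i + C (2 * S.b * S.c i * S.s i) * S.H12 i +
  C (S.b ^ 2 * S.s i ^ 2) * S.H22 i
def N (i : ι) : R := C (-(S.c i * S.s i)) * S.H11 i +
  C (S.b * (S.c i ^ 2 - S.s i ^ 2)) * S.H12 i + C (S.b ^ 2 * S.c i * S.s i) * S.H22 i
def Q (i : ι) : R := C (S.s i ^ 2) * S.H11 i + C (-(2 * S.b * S.c i * S.s i)) * S.H12 i +
  C (S.b ^ 2 * S.c i ^ 2) * S.H22 i
def g1 (i : ι) : R := S.d1 i (S.ta i) * S.P1 i - S.d2 i (S.ta i) * S.P2 i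
def g2 (i : ι) : R := S.d2 i (S.ta i) * S.P1 i + S.d1 i (S.ta i) * S.P2 i
def gxx (i : ι) : R := C (S.c i ^ 2 - S.b ^ 2 * S.s i ^ 2) * S.g1 i +
  C (2 * S.b * S.c i * S.s i) * S.g2 i
def gxy (i : ι) : R := C (-(S.c i * S.s i * (1 + S.b ^ 2))) * S.g1 i +
  C (S.b * (S.c i ^ 2 - S.s i ^ 2)) * S.g2 i
def gyy (i : ι) : R := C (S.s i ^ 2 - S.b ^ 2 * S.c i ^ 2) * S.g1 i +
  C (-(2 * S.b * S.c i * S.s i)) * S.g2 i
def Lb (i : ι) : R := S.d1 i (S.d1 i (S.be i)) + S.d2 i (S.d2 i (S.be i))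
def V (i : ι) : R := S.E i - S.P1 i ^ 2 - S.P2 i ^ 2

lemma rr (i) : C (S.r i)⁻¹ * C (S.r i) = 1 := by
  rw [← map_mul, inv_mul_cancel₀ (S.r0 i).ne', map_one]

lemma dx_d (i f) : dx f = C (S.c i) * S.d1 i f + C (S.b * S.s i) * S.d2 i f :=
  dx_e S.b0.ne' (S.cs i) f
lemma dy_d (i f) : dy f = C (-S.s i) * S.d1 i f + C (S.b * S.c i) * S.d2 i f :=
  dy_e S.b0.ne' (S.cs i) f

lemma d1Q1 (i) : S.d1 i (S.Q1 i) = S.H11 i := by
  rw [Q1, der_mul, map_sub, der_C, der_C, d1, S.d11]; linear_combination S.H11 i * S.rr i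
lemma d2Q1 (i) : S.d2 i (S.Q1 i) = S.H12 i := by
  rw [Q1, der_mul, map_sub, der_C, der_C, d2, S.d21]; linear_combination S.H12 i * S.rr i
lemma d1Q2 (i) : S.d1 i (S.Q2 i) = S.H12 i := by
  rw [Q2, der_mul, map_sub, der_C, der_C, d1, S.d12]; linear_combination S.H12 i * S.rr i
lemma d2Q2 (i) : S.d2 i (S.Q2 i) = S.H22 i := by
  rw [Q2, der_mul, map_sub, der_C, der_C, d2, S.d22]; linear_combination S.H22 i * S.rr i

lemma dx_p (i) : dx (S.p i) = S.L i := by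
  rw [S.dx_d i]
  simp only [p, L, map_add, der_mul, der_C, d1Q1, d2Q1, d1Q2, d2Q2]
  ext z; simp; ring
lemma dy_p (i) : dy (S.p i) = S.N i := by
  rw [S.dy_d i]
  simp only [p, N, map_add, der_mul, der_C, d1Q1, d2Q1, d1Q2, d2Q2]
  ext z; simp; ring
lemma dx_q (i) : dx (S.q i) = S.N i := by
  rw [S.dx_d i]
  simp only [q, N, map_add, der_mul, der_C, d1Q1, d2Q1, d1Q2, d2Q2]
  ext z; simp; ring
lemma dy_q (i) : dy (S.q i) = S.Q i := by
  rw [S.dy_d i]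
  simp only [q, Q, map_add, der_mul, der_C, d1Q1, d2Q1, d1Q2, d2Q2]
  ext z; simp; ring

lemma Q1_eq (i) : S.Q1 i = C (S.c i) * S.p i + C (-S.s i) * S.q i := by
  ext z; simp only [p, q, add_ap, mul_ap, C_ap]
  linear_combination -(S.Q1 i z) * S.cs i
lemma Q2_eq (i) : S.Q2 i = C (S.s i / S.b) * S.p i + C (S.c i / S.b) * S.q i := by
  ext z; simp only [p, q, add_ap, mul_ap, C_ap]
  have := S.b0
  field_simp
  linear_combination -(S.Q2 i z) * S.b * S.cs i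
lemma P1_eq (i) : S.P1 i = C (S.P1 i o) + C (S.r i) * S.Q1 i := by
  rw [Q1]; linear_combination -(S.P1 i - C (S.P1 i o)) * S.rr i
lemma P2_eq (i) : S.P2 i = C (S.P2 i o) + C (S.r i) * S.Q2 i := by
  rw [Q2]; linear_combination -(S.P2 i - C (S.P2 i o)) * S.rr i

lemma slL : Sl S.r S.L :=
  ((S.s11.cmul (S.bc.pow 2)).add (S.s12.cmul ((((Bc.const 2).mul S.bb).mul S.bc).mul S.bs))).add
    (S.s22.cmul ((S.bb.pow 2).mul (S.bs.pow 2)))
lemma slN : Sl S.r S.N :=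
  ((S.s11.cmul (S.bc.mul S.bs).neg).add (S.s12.cmul (S.bb.mul ((S.bc.pow 2).add
    (S.bs.pow 2).neg)))).add (S.s22.cmul (((S.bb.pow 2).mul S.bc).mul S.bs))
lemma slQ : Sl S.r S.Q :=
  ((S.s11.cmul (S.bs.pow 2)).add (S.s12.cmul ((((Bc.const 2).mul S.bb).mul S.bc).mul
    S.bs).neg)).add (S.s22.cmul ((S.bb.pow 2).mul (S.bc.pow 2)))

lemma p0 (i) : S.p i o = 0 := by simp [p, Q1, Q2]
lemma q0 (i) : S.q i o = 0 := by simp [q, Q1, Q2]
lemma N0' (i) : S.N i o = 0 := by simpa [N] using S.N0 i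
lemma L0' (i) : 3 * S.c0 ≤ S.L i o := by simpa [L] using S.L0 i

lemma bp : B 12 S.p :=
  B.intro (bd_of_grad' S.p0 (S.slL.1.bd.congr S.dx_p) (S.slN.1.bd.congr S.dy_p))
    (S.slL.1.congr S.dx_p) (S.slN.1.congr S.dy_p)
lemma bq : B 12 S.q :=
  B.intro (bd_of_grad' S.q0 (S.slN.1.bd.congr S.dx_q) (S.slQ.1.bd.congr S.dy_q))
    (S.slN.1.congr S.dx_q) (S.slQ.1.congr S.dy_q)
lemma bQ1 : B 12 S.Q1 := ((S.bp.cmul S.bc).add (S.bq.cmul S.bs.neg)).congr S.Q1_eq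
lemma bQ2 : B 12 S.Q2 := ((S.bp.cmul S.bsb).add (S.bq.cmul S.bcb)).congr S.Q2_eq
lemma bP1 : B 12 S.P1 := ((B.const S.bP10).add (S.bQ1.cmul S.br)).congr S.P1_eq
lemma bP2 : B 12 S.P2 := ((B.const S.bP20).add (S.bQ2.cmul S.br)).congr S.P2_eq

def wt (k : ℕ) (i : ι) (z : W) : ℝ := 1 + S.al i * S.la i ^ k * S.th i z

lemma one_le_wt (k i z) : 1 ≤ S.wt k i z :=
  le_add_of_nonneg_right (by have := S.al0 i; have := S.la0 i; have := S.th0 i z; positivity)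

lemma wt_le {k} (hk : k ≤ m) (i z) : S.wt k i z ≤ 2 := by
  have h1 : S.al i * S.la i ^ k ≤ 1 := by
    rw [← S.alm' i]
    exact mul_le_mul_of_nonneg_left (pow_le_pow_right₀ (S.la1 i) hk) (S.al0 i).le
  have := mul_le_mul h1 (S.th1 i z) (S.th0 i z) zero_le_one
  unfold wt; linarith

lemma bvs {d} : B d (fun i => vs S.b (S.c i) (S.s i)) := by
  have h1 : B d (fun i => z1 (S.c i) (S.s i)) := (B.xx.cmul S.bc).sub (B.yy.cmul S.bs)
  have h2 : B d (fun i => z2 (S.c i) (S.s i)) := (B.xx.cmul S.bs).add (B.yy.cmul S.bc)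
  exact (((h1.pow 4).cmul (Bc.const _)).neg.sub ((h2.pow 4).cmul (Bc.const _))).add
    ((h2.pow 2).cmul (Bc.const _))

lemma tta : T S.wt (m + 5) 0 S.ta :=
  ((S.bvs.toT S.one_le_wt).add (T.cmul S.br S.tbe)).congr S.hta

lemma td1 {d k} {f : ι → R} (h : T S.wt (d + 1) k f) : T S.wt d (k + 1) (fun i => S.d1 i (f i)) :=
  h.cvf S.bc S.bs.neg
lemma td2 {d k} {f : ι → R} (h : T S.wt (d + 1) k f) : T S.wt d (k + 1) (fun i => S.d2 i (f i)) :=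
  h.cvf S.bsb S.bcb

lemma bd1 {d k} {f : ι → R} (h : T S.wt d k f) (hk : k ≤ m) : Bd one' f :=
  h.bd.mono (c := 2) (by norm_num) fun i z => by simpa [one'] using S.wt_le hk i z

lemma bgxx : Bd one' S.gxx := by
  have := S.hm
  have h1 := S.bd1 (S.td1 S.tta) (by omega)
  have h2 := S.bd1 (S.td2 S.tta) (by omega)
  have b1 : Bd one' S.g1 := (h1.mul1 S.bP1.bd).sub (h2.mul1 S.bP2.bd)
  have b2 : Bd one' S.g2 := (h2.mul1 S.bP1.bd).add (h1.mul1 S.bP2.bd)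
  exact (((S.bc.pow 2).add ((S.bb.pow 2).mul (S.bs.pow 2)).neg).bd.mul1 b1).add
    (((((Bc.const 2).mul S.bb).mul S.bc).mul S.bs).bd.mul1 b2)

def E1 (i : ι) : R := C (S.r i)⁻¹ * (S.E i - 1)

lemma bE1 : Bd one' S.E1 := by
  obtain ⟨K, hK, h⟩ := (S.bd1 S.tta (Nat.zero_le _)).get
  refine ⟨2 * K * Real.exp (2 * K), by positivity, fun i z => ?_⟩
  have r0 := S.r0 i
  have r1 := S.r1 i
  simp only [E1, S.hE, mul_ap, C_ap, sub_ap, comp_ap, one_ap, one', mul_one, abs_mul, abs_inv,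
    abs_of_pos r0]
  rw [inv_mul_le_iff₀ r0]
  refine (abs_exp_sub_one_le' _).trans ?_
  have h4 : S.r i ^ 4 ≤ S.r i := pow_le_of_le_one r0.le r1 (by norm_num)
  have h5 : |2 * S.r i ^ 4 * S.ta i z| ≤ S.r i * (2 * K) := by
    rw [abs_mul, abs_of_pos (by positivity : 0 < 2 * S.r i ^ 4)]
    calc _ ≤ 2 * S.r i * K := by gcongr; exact h i z
      _ = _ := by ring
  have h6 : |2 * S.r i ^ 4 * S.ta i z| ≤ 2 * K := h5.trans (mul_le_of_le_one_left (by positivity) r1)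
  rw [← mul_assoc]
  gcongr

lemma E_eq (i) : S.E i = 1 + C (S.r i) * S.E1 i := by
  rw [E1]; linear_combination -(S.E i - 1) * S.rr i

/-- `V` minus its main part, divided by `r` -/
def V1 (i : ι) : R := S.E1 i - S.Q1 i * (S.P1 i + C (S.P1 i o)) - S.Q2 i * (S.P2 i + C (S.P2 i o))

lemma V_eq (i) : S.V i = C (1 - S.P1 i o ^ 2 - S.P2 i o ^ 2) + C (S.r i) * S.V1 i := by
  have h1 := S.P1_eq i
  have h2 := S.P2_eq i
  rw [V, V1, S.E_eq, map_sub, map_sub, map_pow, map_pow, map_one]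
  linear_combination -(S.P1 i + C (S.P1 i o)) * h1 - (S.P2 i + C (S.P2 i o)) * h2

lemma bV1 : Bd one' S.V1 :=
  (S.bE1.sub (S.bQ1.bd.mul1 (S.bP1.bd.add S.bP10.bd))).sub (S.bQ2.bd.mul1 (S.bP2.bd.add S.bP20.bd))

/-- the equation in the coordinates `x`, `y` -/
lemma eqn' (i) : (S.L i - C (S.r i ^ 3) * S.gxx i) * (S.Q i - C (S.r i ^ 3) * S.gyy i) -
    (S.N i - C (S.r i ^ 3) * S.gxy i) ^ 2 =
    C (S.b ^ 2) * C (S.r i ^ 2) * (SS - C (S.r i) * (C (S.al i) * S.Lb i)) * S.V i := by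
  have h := S.eqn i
  have h2 : e1 (S.c i) (S.s i) (e1 (S.c i) (S.s i) (S.ta i)) +
      e2 S.b (S.c i) (S.s i) (e2 S.b (S.c i) (S.s i) (S.ta i)) =
      -SS + C (S.r i) * (C (S.al i) * S.Lb i) := by
    rw [S.hta, ← lap_vs S.b0.ne' (S.cs i), Lb, d1, d2]
    simp only [map_add, der_mul, der_C, mul_zero, add_zero]
    ring
  rw [h2] at h
  ext z
  have hz := congrArg (fun f : R => f z) h
  simp only [L, N, Q, gxx, gxy, gyy, g1, g2, V, d1, d2, add_ap, sub_ap, mul_ap, C_ap, pow_ap,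
    neg_ap] at hz ⊢
  have hc := S.cs i
  set c := S.c i
  set s := S.s i
  set a := S.H11 i z - S.r i ^ 3 * (e1 c s (S.ta i) z * S.P1 i z - e2 S.b c s (S.ta i) z * S.P2 i z)
    with ha
  set a' := S.H22 i z + S.r i ^ 3 * (e1 c s (S.ta i) z * S.P1 i z - e2 S.b c s (S.ta i) z * S.P2 i z)
    with ha'
  set a'' := S.H12 i z - S.r i ^ 3 * (e2 S.b c s (S.ta i) z * S.P1 i z + e1 c s (S.ta i) z * S.P2 i z)
    with ha''
  calc _ = S.b ^ 2 * (c ^ 2 + s ^ 2) ^ 2 * (a * a' - a'' ^ 2) := by rw [ha, ha', ha'']; ring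
    _ = _ := by rw [hc, hz]; ring

structure Small : Prop where
  hL : ∀ i z, 2 * S.c0 ≤ S.L i z
  hg : ∀ i z, |S.r i ^ 3 * S.gxx i z| ≤ S.c0
  hV : ∀ i z, 1 / 4 ≤ S.V i z

lemma exists_small : ∃ r1, 0 < r1 ∧ (S.res (Subtype.val : {i // S.r i ≤ r1} → ι)).Small := by
  obtain ⟨K1, hK1, h1⟩ := S.slL.near.get
  obtain ⟨K2, hK2, h2⟩ := S.bgxx.get
  obtain ⟨K3, hK3, h3⟩ := S.bV1.get
  have c0 := S.hc0
  have c1 := S.c0_le
  have key : ∀ (i : {i // S.r i ≤ S.c0 / (K1 + K2 + K3 + 1)}) {K : ℝ}, K ≤ K1 + K2 + K3 + 1 →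
      S.r i * K ≤ S.c0 := fun i K hK => by
    have := (le_div_iff₀ (by positivity)).1 i.2
    have := S.r0 i
    nlinarith
  refine ⟨S.c0 / (K1 + K2 + K3 + 1), by positivity, fun i z => ?_, fun i z => ?_, fun i z => ?_⟩
  · have := h1 i z
    have r0 := S.r0 i
    simp only [mul_ap, C_ap, sub_ap, abs_mul, abs_inv, abs_of_pos r0] at this
    rw [inv_mul_le_iff₀ r0] at this
    have := key i (K := K1) (by linarith)
    have := S.L0' i
    have := (abs_le.1 ‹|S.L i z - S.L i o| ≤ _›).1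
    show 2 * S.c0 ≤ S.L i z
    linarith
  · show |S.r i ^ 3 * S.gxx i z| ≤ S.c0
    have r0 := S.r0 i
    have h4 : S.r i ^ 3 ≤ S.r i := pow_le_of_le_one r0.le (S.r1 i) (by norm_num)
    rw [abs_mul, abs_of_pos (by positivity)]
    refine le_trans ?_ (key i (K := K2) (by linarith))
    gcongr
    exact h2 i z
  · show 1 / 4 ≤ S.V i z
    have r0 := S.r0 i
    rw [S.V_eq]
    have := S.P0 i
    have := key i (K := K3) (by linarith)
    have := mul_le_mul_of_nonneg_left (abs_le.1 (h3 i z)).1 r0.le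
    simp only [add_ap, mul_ap, C_ap]
    linarith

end Dat
end P229
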