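import Vale.Agent.P229.Dat

open scoped ContDiff Topology
open Set MeasureTheory Metric

noncomputable section
namespace P229

variable {ι : Type*} {m : ℕ}

lemma Core0.g_of_T (S : Core0 ι m) {d s} {f : ι → R} (h : T S.Om (d + 1) s f)
    (hs : s + d ≤ 2 * m) : S.G d s f := by
  have h0 : ∀ {d s} {f : ι → R}, T S.Om (d + 1) s f → S.G0 s f := fun h =>
    ⟨h.1, (h.2.2.bd.add (S.bn.bd.one_mul h.2.1.bd)).congr fun i => S.hD i _⟩
  induction d generalizing s f with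
  | zero => exact h0 h
  | succ d ih =>
    exact Sys.G.of_X (h0 h) (fun i => S.hX i _)
      ((S.gA (s := 0)).mul (ih h.2.1 (by omega)) (by omega) (Nat.zero_le _) le_rfl)

lemma comp_deriv_exp (f : R) : comp (deriv Real.exp) (cd_deriv Real.contDiff_exp) f =
    comp Real.exp Real.contDiff_exp f := by
  ext z; simp

namespace Dat
variable {S : Dat ι m} (h : S.Small)
include h

lemma Small.Lpos (i z) : 0 < S.L i z := by have := h.hL i z; have := S.hc0; linarith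

def Small.A (i : ι) : R := inv (S.L i) fun z => (h.Lpos i z).ne'
def Small.nu (i : ι) : R := -(S.N i * h.A i)

lemma Small.hLA (i) : S.L i * h.A i = 1 := mul_inv' _ _

lemma Small.A_le (i z) : |h.A i z| ≤ (2 * S.c0)⁻¹ := by
  have := S.hc0
  rw [Small.A, inv_ap, abs_inv, abs_of_pos (h.Lpos i z)]
  exact inv_anti₀ (by positivity) (h.hL i z)

lemma Small.bA : B 11 h.A :=
  S.slL.1.inv (fun i => by rw [mul_comm, h.hLA]) ⟨(2 * S.c0)⁻¹, by have := S.hc0; positivity,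
    fun i z => by simpa only [one', mul_one] using h.A_le i z⟩

def Small.core0 : Core0 ι m where
  al := S.al
  la := S.la
  th := S.th
  X i := h.A i • dx
  D i := dy + h.nu i • dx
  A := h.A
  nu := h.nu
  al0 i := (S.al0 i).le
  la1 := S.la1
  th0 := S.th0
  th1 := S.th1
  alm i := (S.alm' i).le
  r := S.r
  xi := S.p
  L := S.L
  c0 := S.c0
  hc0 := S.hc0
  hm := S.hm
  r0 := S.r0
  r1 := S.r1
  hX _ _ := rfl
  hD _ _ := rfl
  hLA := h.hLA
  hL i := (S.dx_p i).symm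
  hLn i := by rw [S.dy_p, Small.nu]; linear_combination -S.N i * h.hLA i
  Lpos i z := by have := h.hL i z; have := S.hc0; linarith
  bA := h.bA
  bn := (S.slN.1.mul h.bA).neg
  bxi := S.bp.le (by norm_num)
  xi0 := S.p0

def Small.ga (i : ι) : R := C (S.r i ^ 3) * S.gxx i * h.A i

lemma Small.ga_le (i z) : |h.ga i z| ≤ 1 / 2 := by
  have := S.hc0
  simp only [Small.ga, mul_ap, C_ap]
  rw [abs_mul]
  calc _ ≤ S.c0 * (2 * S.c0)⁻¹ := mul_le_mul (h.hg i z) (h.A_le i z) (abs_nonneg _) this.le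
    _ = _ := by field_simp

def Small.J (i : ι) : R := inv (1 - h.ga i) fun z => by
  have := (abs_le.1 (h.ga_le i z)).2
  simp only [sub_ap, one_ap]
  linarith

lemma Small.hJ (i) : h.J i * (1 - h.ga i) = 1 := by rw [mul_comm]; exact mul_inv' _ _

lemma Small.J_mem (i z) : 2 / 3 ≤ h.J i z ∧ h.J i z ≤ 2 := by
  obtain ⟨h1, h2⟩ := abs_le.1 (h.ga_le i z)
  rw [Small.J, inv_ap, sub_ap, one_ap]
  constructor
  · rw [le_inv_comm₀ (by norm_num) (by linarith)]; linarith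
  · rw [inv_le_comm₀ (by linarith) (by norm_num)]; linarith

lemma Small.der_J (D : Derivation ℝ R R) (i) : D (h.J i) = h.J i * h.J i * D (h.ga i) := by
  rw [Derivation.leibniz_of_mul_eq_one _ (h.hJ i)]
  simp; ring

omit h in
lemma der_E (D : Derivation ℝ R R) (hD : ∀ g hg f, D (comp g hg f) =
    comp (deriv g) (cd_deriv hg) f * D f) (i) :
    D (S.E i) = S.E i * D (C (2 * S.r i ^ 4) * S.ta i) := by
  rw [S.hE, hD, comp_deriv_exp]

omit h in
lemma der_E1 (D : Derivation ℝ R R) (hD : ∀ g hg f, D (comp g hg f) =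
    comp (deriv g) (cd_deriv hg) f * D f) (i) :
    D (S.E1 i) = S.E i * D (C (2 * S.r i ^ 3) * S.ta i) := by
  rw [E1, der_mul, map_sub, der_E D hD, der_mul, der_mul, der_C, der_C, der_C]
  simp only [Derivation.map_one_eq_zero, map_mul, map_pow]
  linear_combination (C 2 * C (S.r i) ^ 3 * S.E i * D (S.ta i)) * S.rr i

def Small.hh (i : ι) : R := C (S.b ^ 2) * S.V i * h.J i
def t0 (S : Dat ι m) (i : ι) : ℝ := S.b ^ 2 * (1 - S.P1 i o ^ 2 - S.P2 i o ^ 2)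
def Small.hh1 (i : ι) : R :=
  C (S.t0 i * S.r i ^ 2) * (S.gxx i * h.A i * h.J i) + C (S.b ^ 2) * (S.V1 i * h.J i)
def Small.Pr (i : ι) : R := SS * h.A i * h.hh1 i + h.J i * (S.gyy i + (S.gxy i + S.gxy i) * h.nu i
  + S.gxx i * (h.nu i * h.nu i) -
    C (S.r i ^ 3) * ((S.gxx i * S.gyy i - S.gxy i * S.gxy i) * h.A i))
def Small.Pb (i : ι) : R := -(h.hh i * h.A i * C (S.al i) * S.Lb i)

omit h in
lemma bt0 : Bc S.t0 :=
  (S.bb.pow 2).mul (((Bc.const 1).add (S.bP10.pow 2).neg).add (S.bP20.pow 2).neg)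

lemma Small.hh_eq (i) : h.hh i = C (S.t0 i) + C (S.r i) * h.hh1 i := by
  have := h.hJ i
  rw [Small.ga] at this
  rw [Small.hh, Small.hh1, S.V_eq, t0]
  simp only [map_mul, map_pow] at this ⊢
  linear_combination (C S.b ^ 2 * C (1 - S.P1 i o ^ 2 - S.P2 i o ^ 2)) * this

lemma Small.ePh (i) : h.core0.D i (S.q i) =
    C (S.r i ^ 2 * S.t0 i) * SS * h.A i + C (S.r i ^ 3) * (h.Pr i + h.Pb i) := by
  have e0 : h.core0.D i (S.q i) = S.Q i + h.nu i * S.N i := by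
    rw [h.core0.hD, S.dy_q, S.dx_q]; rfl
  have e1 := S.eqn' i
  have e2 := h.hLA i
  have e3 := h.hJ i
  have e4 := h.hh_eq i
  rw [e0, Small.Pr, Small.Pb]
  rw [Small.ga] at e3
  rw [Small.hh] at e4 ⊢
  simp only [Small.nu, map_mul, map_pow] at *
  linear_combination h.J i * h.A i * e1 - h.J i * (S.Q i - C (S.r i) ^ 3 * S.gyy i) * e2
    - (S.Q i - S.N i * h.A i * S.N i) * e3 + C (S.r i) ^ 2 * SS * h.A i * e4

lemma Small.gall : h.core0.G (m + 2) 1 h.Pr ∧ h.core0.G (m + 2) 2 h.Pb ∧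
    h.core0.G (m + 2) 1 h.hh := by
  have hm := S.hm
  set Z := h.core0 with hZ
  have mul : ∀ {f g : ι → R}, Z.G (m + 2) 1 f → Z.G (m + 2) 1 g →
      Z.G (m + 2) 1 (fun i => f i * g i) := fun hf hg => hf.mul hg (by omega) le_rfl le_rfl
  have gA : Z.G (m + 2) 1 h.A := Z.gA
  have gn : Z.G (m + 2) 1 h.nu := Z.gn
  have gp : Z.G (m + 2) 1 S.p :=
    Sys.G.of_X (Z.g0_of_B (S.bp.le (by norm_num))) Z.X_xi Sys.G.one
  have gq : Z.G (m + 2) 1 S.q :=
    Sys.G.of_X (Z.g0_of_B (S.bq.le (by norm_num))) (fun i => by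
      rw [Z.hX, S.dx_q]; show h.A i * S.N i = -h.nu i; rw [Small.nu]; ring) Z.gn.neg
  have gQ1 : Z.G (m + 2) 1 S.Q1 := ((gp.cmul S.bc).add (gq.cmul S.bs.neg)).congr S.Q1_eq
  have gQ2 : Z.G (m + 2) 1 S.Q2 := ((gp.cmul S.bsb).add (gq.cmul S.bcb)).congr S.Q2_eq
  have gP1 : Z.G (m + 2) 1 S.P1 := ((Sys.G.const S.bP10).add (gQ1.cmul S.br)).congr S.P1_eq
  have gP2 : Z.G (m + 2) 1 S.P2 := ((Sys.G.const S.bP20).add (gQ2.cmul S.br)).congr S.P2_eq
  have gt : Z.G (m + 2) 1 S.ta := (Z.g_of_T (S.tta.le (by omega)) (by omega)).up zero_le_one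
  have gt1 : Z.G (m + 2) 1 (fun i => S.d1 i (S.ta i)) :=
    Z.g_of_T ((S.td1 S.tta).le (by omega)) (by omega)
  have gt2 : Z.G (m + 2) 1 (fun i => S.d2 i (S.ta i)) :=
    Z.g_of_T ((S.td2 S.tta).le (by omega)) (by omega)
  have gg1 : Z.G (m + 2) 1 S.g1 := (mul gt1 gP1).sub (mul gt2 gP2)
  have gg2 : Z.G (m + 2) 1 S.g2 := (mul gt2 gP1).add (mul gt1 gP2)
  have bcs := (((Bc.const 2).mul S.bb).mul S.bc).mul S.bs
  have gxx : Z.G (m + 2) 1 S.gxx :=
    (gg1.cmul ((S.bc.pow 2).add ((S.bb.pow 2).mul (S.bs.pow 2)).neg)).add (gg2.cmul bcs)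
  have gxy : Z.G (m + 2) 1 S.gxy :=
    (gg1.cmul ((S.bc.mul S.bs).mul ((Bc.const 1).add (S.bb.pow 2))).neg).add
      (gg2.cmul (S.bb.mul ((S.bc.pow 2).add (S.bs.pow 2).neg)))
  have gyy : Z.G (m + 2) 1 S.gyy :=
    (gg1.cmul ((S.bs.pow 2).add ((S.bb.pow 2).mul (S.bc.pow 2)).neg)).add (gg2.cmul bcs.neg)
  have bE : Bd one' S.E := ((B.one (d := 0)).bd.add (S.br.bd.mul1 S.bE1)).congr S.E_eq
  have gt4 := gt.cmul ((Bc.const 2).mul (S.br.pow 4))
  have gt3 := gt.cmul ((Bc.const 2).mul (S.br.pow 3))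
  have gE : Z.G (m + 2) 1 S.E :=
    Sys.G.chain ⟨Sys.bd_of_one bE, (bE.one_mul gt4.bdD).congr fun i => der_E _ (Z.D_comp i) i⟩
      (fun i => der_E _ (Z.X_comp i) i) (fun _ _ hd => hd) gt4 (by omega)
  have gE1 : Z.G (m + 2) 1 S.E1 :=
    Sys.G.chain ⟨Sys.bd_of_one S.bE1, (bE.one_mul gt3.bdD).congr fun i => der_E1 _ (Z.D_comp i) i⟩
      (fun i => der_E1 _ (Z.X_comp i) i) (fun _ hd _ => gE.le hd) gt3 (by omega)
  have gV1 : Z.G (m + 2) 1 S.V1 :=
    (gE1.sub (mul gQ1 (gP1.add (Sys.G.const S.bP10)))).sub (mul gQ2 (gP2.add (Sys.G.const S.bP20)))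
  have gV : Z.G (m + 2) 1 S.V := ((gE.sub (mul gP1 gP1)).sub (mul gP2 gP2)).congr fun i => by
    rw [V]; ring
  have gga : Z.G (m + 2) 1 h.ga := mul (gxx.cmul (S.br.pow 3)) gA
  have bJ : Bd one' h.J := ⟨2, by norm_num, fun i z => by
    have := h.J_mem i z
    simp only [one', mul_one]
    rw [abs_of_nonneg (by linarith)]; exact this.2⟩
  have gJ : Z.G (m + 2) 1 h.J :=
    Sys.G.chain ⟨Sys.bd_of_one bJ, ((bJ.mul1 bJ).one_mul gga.bdD).congr fun i => h.der_J _ i⟩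
      (fun i => h.der_J _ i) (fun _ hd hJ => hJ.mul hJ (by omega) le_rfl le_rfl) gga (by omega)
  have ghh : Z.G (m + 2) 1 h.hh := mul (gV.cmul (S.bb.pow 2)) gJ
  have ghh1 : Z.G (m + 2) 1 h.hh1 :=
    ((mul (mul gxx gA) gJ).cmul (bt0.mul (S.br.pow 2))).add ((mul gV1 gJ).cmul (S.bb.pow 2))
  have gLb : Z.G (m + 2) 2 (fun i => C (S.al i) * S.Lb i) :=
    (Z.g_of_T ((S.td1 (S.td1 S.tbe)).add (S.td2 (S.td2 S.tbe))) (by omega)).congr fun i => by
      simp only [Lb, der_mul, der_C, mul_zero, add_zero]; ring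
  refine ⟨(mul (mul (Z.gSS (by omega)) gA) ghh1).add (mul gJ (((gyy.add
    (mul (gxy.add gxy) gn)).add (mul gxx (mul gn gn))).sub
      ((mul ((mul gxx gyy).sub (mul gxy gxy)) gA).cmul (S.br.pow 3)))), ?_, ghh⟩
  exact ((mul ghh gA).mul gLb (by omega) one_le_two le_rfl).neg.congr fun i => by
    rw [Small.Pb]; ring

omit h in
lemma bN : Bd one' (fun i => C (S.r i)⁻¹ * S.N i) :=
  S.slN.near.congr fun i => by rw [S.N0']; simp

lemma Small.sm1 : ∃ K, 0 ≤ K ∧ ∀ i z, |S.p i z * h.A i z - z.1.1| ≤ K * S.r i * ‖(z : P)‖ := by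
  have bx : Bd one' (fun _ : ι => xx) := (B.xx (d := 0)).bd
  obtain ⟨K, hK, e⟩ := bd_of_grad (f := fun i => C (S.r i)⁻¹ * (S.p i - xx * S.L i))
    (fun i => by simp [S.p0, o_val]) ((bx.mul1 S.slL.2.1).neg.congr fun i => by
      simp only [der_mul, map_sub, S.dx_p, der_C, dx_xx]; ring)
    ((bN.sub (bx.mul1 S.slL.2.2)).congr fun i => by
      simp only [der_mul, map_sub, S.dy_p, der_C, dy_xx]; ring)
  have := S.hc0
  refine ⟨K * (2 * S.c0)⁻¹, by positivity, fun i z => ?_⟩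
  have r0 := S.r0 i
  have e1 := e i z
  simp only [mul_ap, C_ap, sub_ap, xx_ap, abs_mul, abs_inv, abs_of_pos r0] at e1
  rw [inv_mul_le_iff₀ r0] at e1
  have e2 : S.p i z * h.A i z - z.1.1 = (S.p i z - z.1.1 * S.L i z) * h.A i z := by
    have : S.L i z * h.A i z = 1 := congrArg (fun f : R => f z) (h.hLA i)
    linear_combination z.1.1 * this
  rw [e2, abs_mul]
  calc _ ≤ S.r i * (K * ‖(z : P)‖) * (2 * S.c0)⁻¹ :=
        mul_le_mul e1 (h.A_le i z) (abs_nonneg _) (by positivity)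
    _ = _ := by ring

def Small.core : Core ι m where
  toCore0 := h.core0
  t0 := S.t0
  Ph i := h.core0.D i (S.q i)
  Pr := h.Pr
  Pb := h.Pb
  be := S.be
  hh := h.hh
  u1 := S.c
  v1 i := -S.s i
  u2 i := S.s i / S.b
  v2 i := S.c i / S.b
  c1 := S.c1
  hc1 := S.hc1
  alm' := S.alm'
  ht0 i := by
    show S.c0 ≤ S.t0 i
    have := S.P0 i; have := S.b2; have := S.c0_le
    rw [t0]; nlinarith
  bt0 := bt0
  sm1 := h.sm1
  sm2 := (bN.mul1 h.bA.bd).neg.congr fun i => by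
    show C (S.r i)⁻¹ * h.nu i = _
    rw [Small.nu]; ring
  hPh i := by
    rw [h.core0.comm, ← map_neg, h.core0.hX, S.dx_q]
    congr 1
    show h.nu i = -(h.A i * S.N i)
    rw [Small.nu]; ring
  ePh := h.ePh
  gPr := h.gall.1
  gPb := h.gall.2.1
  sth := S.sth
  sbe := S.sbe
  be0 := S.be0
  be1 := S.be1
  be2 := S.be2
  bu1 := S.bc
  bv1 := S.bs.neg
  bu2 := S.bsb
  bv2 := S.bcb
  ell i s t := by
    show S.c0 * s ^ 2 ≤ _
    have b0 := S.b0
    have e : (S.s i / S.b * s + S.c i / S.b * t) ^ 2 = (S.s i * s + S.c i * t) ^ 2 / S.b ^ 2 := by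
      field_simp
    have e2 : (S.c i * s + -S.s i * t) ^ 2 / S.b ^ 2 ≤ (S.c i * s + -S.s i * t) ^ 2 :=
      div_le_self (sq_nonneg _) S.b2
    have e3 : S.c0 * s ^ 2 ≤ ((S.c i * s + -S.s i * t) ^ 2 + (S.s i * s + S.c i * t) ^ 2)
        / S.b ^ 2 := by
      rw [le_div_iff₀ (by positivity)]
      have : (S.c i * s + -S.s i * t) ^ 2 + (S.s i * s + S.c i * t) ^ 2 = s ^ 2 + t ^ 2 := by
        linear_combination (s ^ 2 + t ^ 2) * S.cs i
      rw [this]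
      have := S.hc0'
      have : 0 < S.c0 * S.b ^ 2 := mul_pos S.hc0 (by positivity)
      nlinarith [sq_nonneg s, sq_nonneg t]
    rw [add_div] at e3
    rw [e]; linarith
  ePb _ := rfl
  bLb := S.bLb
  ghh := h.gall.2.2.le (by omega)
  hh0 i z := by
    show S.c0 ≤ h.hh i z
    have := (h.J_mem i z).1
    have := h.hV i z
    have := S.b2
    have := S.c0_le
    simp only [Small.hh, mul_ap, C_ap]
    have e : 1 / 4 * (2 / 3) ≤ S.V i z * h.J i z := by gcongr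
    nlinarith

omit h in
theorem main (S : Dat ι m) :
    ∀ᶠ r in 𝓝[>] (0 : ℝ), ∃ l0, ∀ i, S.r i = r → S.la i < l0 := by
  obtain ⟨r1, hr1, h⟩ := S.exists_small
  filter_upwards [h.core.core_main, ev_small 1 hr1] with r ⟨l0, hl⟩ hr
  exact ⟨l0, fun i hi => hl ⟨i, by linarith⟩ hi⟩

end Dat
end P229
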