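import Vale.Agent.P229.Core

open scoped ContDiff Topology
open Set MeasureTheory Metric Filter

noncomputable section
namespace P229

lemma exists_cut1 {a b : ℝ} (ha : 0 < a) (hab : a < b) : ∃ g : ℝ → ℝ, ContDiff ℝ ∞ g ∧
    (∀ t, 0 ≤ g t) ∧ (∀ t, g t ≤ 1) ∧ (∀ t, |t| ≤ a → g t = 1) ∧ (∀ t, b ≤ |t| → g t = 0) := by
  let f : ContDiffBump (0 : ℝ) := ⟨a, b, ha, hab⟩
  refine ⟨f, f.contDiff, fun t => f.nonneg, fun t => f.le_one, fun t ht => ?_, fun t ht => ?_⟩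
  · exact f.one_of_mem_closedBall (by simpa using ht)
  · exact f.zero_of_le_dist (by simpa using ht)

lemma exists_cut (ι : Type*) {a b : ℝ} (ha : 0 < a) (hab : a < b) : ∃ χ : R,
    (∀ d, B d (fun _ : ι => χ)) ∧ (∀ z, 0 ≤ χ z) ∧ (∀ z, χ z ≤ 1) ∧
    (∀ z : W, ‖(z : P)‖ ≤ a → χ z = 1) ∧ (∀ z : W, b ≤ ‖(z : P)‖ → χ z = 0) := by
  obtain ⟨g, hg, h0, h1, h2, h3⟩ := exists_cut1 ha hab
  refine ⟨comp g hg xx * comp g hg yy, fun d => (B.xx.comp g hg).mul (B.yy.comp g hg),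
    fun z => ?_, fun z => ?_, fun z hz => ?_, fun z hz => ?_⟩
  · simpa using mul_nonneg (h0 _) (h0 _)
  · simpa using mul_le_one₀ (h1 _) (h0 _) (h1 _)
  · simp [h2 _ ((abs_fst_le _).trans hz), h2 _ ((abs_snd_le _).trans hz)]
  · rw [Prod.norm_def] at hz
    rcases le_max_iff.1 hz with h | h
    · simp [h3 _ h]
    · simp [h3 _ h]

lemma pd_eq_zero_of_one {a : ℝ} {χ : R} (h : ∀ z : W, ‖(z : P)‖ ≤ a → χ z = 1) (v : P) (z : W)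
    (hz : ‖(z : P)‖ < a) : pd v χ z = 0 := by
  have := pd_eq_zero_of_open v (χ - 1) (V := {w | ‖w‖ < a})
    (isOpen_lt continuous_norm continuous_const) (fun w hw => by simp [h w (le_of_lt hw)]) z hz
  simpa using this

lemma int_ineq {ρ c K ε : ℝ} (hρ : ρ < 4) (hc : 0 ≤ c) (hε : 0 ≤ ε) {L Z U Y : R}
    (hZ : I ρ (L * Z) = 0) (h1 : ∀ z, c ≤ L z) (h2 : ∀ z, L z ≤ K)
    (hU : ∀ z : W, ‖(z : P)‖ ≤ ρ → 0 ≤ U z) (hY : ∀ z : W, ‖(z : P)‖ ≤ ρ → 0 ≤ Y z)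
    (h : ∀ z : W, ‖(z : P)‖ ≤ ρ → ε * U z ≤ Z z + Y z) : c * ε * I ρ U ≤ K * I ρ Y := by
  rw [← I_C_mul hρ, ← I_C_mul hρ, ← zero_add (I ρ (C K * Y)), ← hZ, ← I_add hρ]
  refine I_mono hρ fun z hz => ?_
  simp only [mul_ap, C_ap, add_ap]
  have e1 := mul_le_mul_of_nonneg_left (h z hz) (hc.trans (h1 z))
  have e2 := mul_le_mul_of_nonneg_right (h1 z) (mul_nonneg hε (hU z hz))
  have e3 := mul_le_mul_of_nonneg_right (h2 z) (hY z hz)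
  nlinarith

lemma ev_small (K : ℝ) {c : ℝ} (hc : 0 < c) : ∀ᶠ r in 𝓝[>] (0 : ℝ), K * r ≤ c := by
  have : Tendsto (fun r : ℝ => K * r) (𝓝[>] 0) (𝓝 (K * 0)) :=
    ((continuous_const.mul continuous_id).tendsto 0).mono_left nhdsWithin_le_nhds
  rw [mul_zero] at this
  exact (this.eventually (ge_mem_nhds hc))

lemma quad {r c0 t0 s K E1 E2 E3 : ℝ} (v1 v2 : ℝ) (hr : 0 < r) (hr1 : r ≤ 1) (hc : 0 < c0)
    (ht : c0 ≤ t0) (hs : 1 ≤ s) (h1 : |E1| ≤ K) (h2 : |E2| ≤ K) (h3 : |E3| ≤ K)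
    (a1 : K * r ≤ c0 / 2) (a2 : K * r ≤ 1 / 2) (a3 : K ^ 2 * r ≤ c0 / 4) (a4 : c0 * r ≤ 1) :
    (-(r ^ 2 * t0 * s) + r ^ 3 * E1) * v1 ^ 2 + (-1 + r ^ 3 * E2) * v2 ^ 2 + r ^ 2 * E3 * v1 * v2
      ≤ -(r ^ 2 * c0 / 4) * (v1 ^ 2 + v2 ^ 2) := by
  have hK : 0 ≤ K := (abs_nonneg _).trans h1
  have r2 : 0 < r ^ 2 := by positivity
  have r21 : r ^ 2 ≤ r := by nlinarith
  have b1 : -(r ^ 2 * t0 * s) + r ^ 3 * E1 ≤ -(r ^ 2 * c0 / 2) := by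
    have : c0 ≤ t0 * s := by nlinarith
    have e : r * E1 ≤ c0 / 2 := by nlinarith [(abs_le.1 h1).2]
    nlinarith [mul_le_mul_of_nonneg_left this r2.le, mul_le_mul_of_nonneg_left e r2.le]
  have b2 : -1 + r ^ 3 * E2 ≤ -(1 / 2) := by
    have e : r * E2 ≤ K * r := by nlinarith [(abs_le.1 h2).2]
    have : r ^ 2 * (r * E2) ≤ r ^ 2 * (1 / 2) := mul_le_mul_of_nonneg_left (e.trans a2) r2.le
    nlinarith
  have b3 : (r ^ 2 * E3) ^ 2 ≤ r ^ 2 * c0 / 4 := by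
    have e : E3 ^ 2 ≤ K ^ 2 := sq_le_sq' (abs_le.1 h3).1 (abs_le.1 h3).2
    have e2 : r ^ 2 * E3 ^ 2 ≤ c0 / 4 := by
      calc r ^ 2 * E3 ^ 2 ≤ r * K ^ 2 := mul_le_mul r21 e (sq_nonneg _) hr.le
        _ ≤ _ := by linarith
    nlinarith [mul_le_mul_of_nonneg_left e2 r2.le]
  have b4 : r ^ 2 * c0 ≤ 1 := by nlinarith
  have c1 := mul_le_mul_of_nonneg_right b1 (sq_nonneg v1)
  have c2 := mul_le_mul_of_nonneg_right b2 (sq_nonneg v2)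
  have c3 := mul_le_mul_of_nonneg_right b3 (sq_nonneg v1)
  have c4 := mul_le_mul_of_nonneg_right b4 (sq_nonneg v2)
  nlinarith [sq_nonneg (r ^ 2 * E3 * v1 - v2 / 2)]

lemma amgm {ε : ℝ} (hε : 0 < ε) (a b : ℝ) : 2 * a * b ≤ ε * a ^ 2 + b ^ 2 / ε := by
  have : 0 ≤ (ε * a - b) ^ 2 / ε := by positivity
  have e : (ε * a - b) ^ 2 / ε = ε * a ^ 2 + b ^ 2 / ε - 2 * a * b := by field_simp; ring
  linarith

lemma hquad {H1 H2 H3 k : ℝ} (v1 v2 : ℝ) (h1 : |H1| ≤ k) (h2 : |H2| ≤ k) (h3 : |H3| ≤ k) :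
    H1 * v1 ^ 2 + H2 * v2 ^ 2 + H3 * v1 * v2 ≤ 2 * k * (v1 ^ 2 + v2 ^ 2) := by
  have hk : 0 ≤ k := (abs_nonneg _).trans h1
  have c1 := mul_le_mul_of_nonneg_right (abs_le.1 h1).2 (sq_nonneg v1)
  have c2 := mul_le_mul_of_nonneg_right (abs_le.1 h2).2 (sq_nonneg v2)
  have c3 := mul_le_mul_of_nonneg_right (abs_le.1 h3).2 (sq_nonneg (v1 + v2))
  have c4 := mul_le_mul_of_nonneg_right (abs_le.1 h3).1 (sq_nonneg (v1 - v2))
  nlinarith [mul_nonneg hk (sq_nonneg v1), mul_nonneg hk (sq_nonneg v2)]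

variable {ι : Type*} {m : ℕ}

namespace Core
open Core0
variable (S : Core ι m)

lemma energy_id (i) {ρ} (hρ : ρ < 4) {B G v1 v2 κ c g : R} (hB : Supp ρ B) (hG : Supp ρ G)
    (h12 : S.D i v1 = S.X i v2) (heq : S.D i v2 + κ * S.X i v1 + c * S.X i v2 = -g) :
    I ρ (S.L i * ((-S.X i (B * κ) - S.D i (B * c) + S.D i (G * κ)) * v1 ^ 2 +
      (S.X i B - S.D i G - S.X i (G * c)) * v2 ^ 2 - 2 * (S.D i B + S.X i (G * κ)) * v1 * v2 +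
      2 * (B * v1 + G * v2) * g)) = 0 := by
  have e1 := S.J_X hρ i (f := B * (v2 * v2 - κ * (v1 * v1)) - G * (2 * (κ * (v1 * v2)) + c * (v2 * v2)))
    ((hB.mul_right _).sub (hG.mul_right _))
  have e2 := S.J_D hρ i (f := G * (κ * (v1 * v1) - v2 * v2) - B * (2 * (v1 * v2) + c * (v1 * v1)))
    ((hG.mul_right _).sub (hB.mul_right _))
  have e3 := ((I_add hρ _ _).trans (congrArg₂ (· + ·) e1 e2)).trans (add_zero _)
  refine Eq.trans ?_ e3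
  congr 1
  have hg : g = -(S.D i v2 + κ * S.X i v1 + c * S.X i v2) := by rw [heq]; ring
  simp only [hg, map_sub, map_add, der_mul, der_ofNat, h12]
  ring

lemma ell_id (i) {ρ} (hρ : ρ < 4) {η w v1 v2 κ c g : R} (hη : Supp ρ η)
    (h1 : S.X i w = v1) (h2 : S.D i w = v2) (heq : S.D i v2 + κ * S.X i v1 + c * S.X i v2 = -g) :
    I ρ (S.L i * (η * (v2 ^ 2 + κ * v1 ^ 2 + c * v1 * v2) +
      w * (S.D i η * v2 + S.X i (η * κ) * v1 + S.X i (η * c) * v2) - η * w * g)) = 0 := by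
  have e1 := S.J_X hρ i (f := η * (w * (κ * v1 + c * v2))) (hη.mul_right _)
  have e2 := S.J_D hρ i (f := η * (w * v2)) (hη.mul_right _)
  have e3 := ((I_add hρ _ _).trans (congrArg₂ (· + ·) e1 e2)).trans (add_zero _)
  refine Eq.trans ?_ e3
  congr 1
  have hg : g = -(S.D i v2 + κ * S.X i v1 + c * S.X i v2) := by rw [heq]; ring
  simp only [hg, map_add, der_mul, h1, h2]
  ring

def En (J : Set ι) (ρ : ℝ) (k : ℕ) : Prop :=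
  ∃ K, 0 ≤ K ∧ ∀ i ∈ J, I ρ (S.Sg k i) ≤ K * (1 + (S.al i * S.la i ^ (k + 1)) ^ 2)

lemma L_le : ∃ K, 0 ≤ K ∧ ∀ i z, S.L i z ≤ K := by
  obtain ⟨K, hK, h⟩ := S.bL.bd.get
  exact ⟨K, hK, fun i z => (abs_le.1 (h i z)).2⟩

lemma la0 (i) : 0 < S.la i := zero_lt_one.trans_le (S.la1 i)

lemma I_th {ρ} (hρ : ρ < 4) (h1 : 1 ≤ ρ) (i) (hi : S.c1 ≤ S.la i) :
    I ρ (S.th i) ≤ 4 * S.c1 ^ 2 / S.la i ^ 2 := by
  have := I_le_small hρ (div_nonneg S.hc1.le (S.la0 i).le)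
    (((div_le_one (S.la0 i)).2 hi).trans h1) (S.sth i) (S.th1 i)
  rw [div_pow] at this
  linarith [mul_div_assoc 4 (S.c1 ^ 2) (S.la i ^ 2)]

end Core
end P229
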