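import Vale.Agent.P229.Test

open scoped ContDiff Topology
open Set MeasureTheory Metric Filter

noncomputable section
namespace P229

variable {ι : Type*}

lemma Bc.of_bd {f : ι → R} (h : Bd one' f) : Bc (fun i => f i o) := by
  obtain ⟨K, _, h⟩ := h.get
  exact ⟨K, fun i => h i o⟩

lemma Bc.sqrt {c : ι → ℝ} (h : Bc c) : Bc (fun i => Real.sqrt (c i)) := by
  obtain ⟨K, h⟩ := h
  refine ⟨Real.sqrt K, fun i => ?_⟩
  rw [abs_of_nonneg (Real.sqrt_nonneg _)]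
  exact Real.sqrt_le_sqrt (abs_le.1 (h i)).2

lemma Bc.get {c : ι → ℝ} (h : Bc c) : ∃ K, 0 ≤ K ∧ ∀ i, |c i| ≤ K := by
  obtain ⟨K, h⟩ := h
  exact ⟨max K 0, le_max_right _ _, fun i => (h i).trans (le_max_left _ _)⟩

lemma o_val : ((o : W) : P) = 0 := rfl

lemma final_ineq {a b e u : ℝ} (ha : 0 < a) (hb : 0 ≤ b) (hu : 1 ≤ u)
    (h : a * u ^ 2 ≤ b + e * u) : u ≤ (b + e) / a := by
  rw [le_div_iff₀ ha]
  have : u * (u * a) ≤ u * (b + e) := by nlinarith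
  exact le_of_mul_le_mul_left this (by linarith)

namespace Core
open Core0

lemma test_id {m} (S : Core ι m) (i) {φ w a n κ c g : R} {κ0 c0 : ℝ} (hφ : Supp 2 φ)
    (h1 : S.X i w = a) (h2 : S.D i w = n) (heq : S.D i n + κ * S.X i a + c * S.X i n + g = 0) :
    I 2 (S.L i * (φ * g)) = -I 2 (S.L i * ((S.D i (S.D i φ) + C κ0 * S.X i (S.X i φ) +
      C c0 * S.D i (S.X i φ)) * w)) + I 2 (S.L i * (S.X i (φ * (κ - C κ0)) * a)) +
      I 2 (S.L i * (S.X i (φ * (c - C c0)) * n)) := by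
  have h4 : (2 : ℝ) < 4 := by norm_num
  have e1 := S.J_X h4 i (f := φ * (κ * a + c * n) - S.X i φ * (C κ0 * w))
    ((hφ.mul_right _).sub ((S.suppX i hφ).mul_right _))
  have e2 := S.J_D h4 i (f := φ * n - S.D i φ * w - S.X i φ * (C c0 * w))
    (((hφ.mul_right _).sub ((S.suppD i hφ).mul_right _)).sub ((S.suppX i hφ).mul_right _))
  have e3 := ((I_add h4 _ _).trans (congrArg₂ (· + ·) e1 e2)).trans (add_zero _)
  rw [← I_neg h4, ← I_add h4, ← I_add h4, ← sub_eq_zero, ← I_sub h4, ← neg_eq_zero, ← I_neg h4]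
  refine Eq.trans ?_ e3
  congr 1
  have hg : g = -(S.D i n + κ * S.X i a + c * S.X i n) := by linear_combination heq
  simp only [hg, map_sub, map_add, der_mul, der_C, h1, h2]
  ring

set_option maxHeartbeats 1000000 in
theorem core_main {m} (S : Core ι m) :
    ∀ᶠ r in 𝓝[>] (0 : ℝ), ∃ l0 : ℝ, ∀ i, S.r i = r → S.la i < l0 := by
  have hm := S.hm
  obtain ⟨k, rfl⟩ : ∃ k, m = k + 1 := ⟨m - 1, by omega⟩
  have h4 : (2 : ℝ) < 4 := by norm_num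
  have hc0 := S.hc0
  have hc1 := S.hc1
  have a1 := S.bd_a (j := 1) (by norm_num)
  have n1 := S.bd_n (j := 1) (by norm_num)
  obtain ⟨_, PA, Pn, P0, hd, g1, g2, g3⟩ := S.gPr
  have bθ := (S.br.pow 2).mul S.bt0
  have br3 := S.br.pow 3
  obtain ⟨κ, hκ⟩ : ∃ κ : ι → R, ∀ i, κ i = C (S.r i ^ 2 * S.t0 i) * SS + C (S.r i ^ 3) * PA i :=
    ⟨_, fun _ => rfl⟩
  obtain ⟨c, hc⟩ : ∃ c : ι → R, ∀ i, c i = C (S.r i ^ 3) * Pn i := ⟨_, fun _ => rfl⟩
  have gκ : S.G (k + 2) 1 κ := (((S.gSS (by omega)).cmul bθ).add (g1.cmul br3)).congr hκ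
  have gc : S.G (k + 2) 1 c := (g2.cmul br3).congr hc
  have gxAA : S.G (k + 2) 2 (fun i => xx * (S.A i * S.A i)) :=
    (S.gxx (s := 0)).mul ((S.gA (s := 0)).mul (S.gA (s := 0)) (by omega) le_rfl le_rfl)
      (by omega) (Nat.zero_le _) (Nat.zero_le _)
  have gf0 := ((gxAA.add gxAA).cmul bθ).add (g3.cmul br3)
  have hdec : S.Dec (fun i => C (S.r i ^ 2 * S.t0 i) * SS * S.A i + C (S.r i ^ 3) * S.Pr i) κ c
      (fun i => C (S.r i ^ 2 * S.t0 i) * (xx * (S.A i * S.A i) + xx * (S.A i * S.A i)) +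
        C (S.r i ^ 3) * P0 i) := fun i => by
    simp only [map_add, der_mul, der_C, S.X_SS, hd i, hκ, hc, Sys.a, it_one]; ring
  have bXκ := Sys.bd_to_one (gκ.bdX a1 n1) (by omega)
  have bXc := Sys.bd_to_one (gc.bdX a1 n1) (by omega)
  obtain ⟨Kκ, hKκ, eκ⟩ := S.lip bXκ (Sys.bd_to_one gκ.bdD (by omega))
  obtain ⟨Kc, hKc, ec⟩ := S.lip bXc (Sys.bd_to_one gc.bdD (by omega))
  obtain ⟨Xκ, hXκ, fκ⟩ := bXκ.get
  obtain ⟨Xc, hXc, fc⟩ := bXc.get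
  have bκ0 := Bc.of_bd (Sys.bd_to_one gκ.bd (by omega))
  have bc0 := Bc.of_bd (Sys.bd_to_one gc.bd (by omega))
  obtain ⟨s, hs⟩ : ∃ s : ι → ℝ, ∀ i, s i =
    (1 / 2) * (c i o + Real.sqrt (c i o ^ 2 + -4 * κ i o)) := ⟨_, fun _ => rfl⟩
  have bs : Bc s := by
    rw [show s = _ from funext hs]
    exact (Bc.const _).mul (bc0.add ((bc0.pow 2).add ((Bc.const _).mul bκ0)).sqrt)
  obtain ⟨Ks, hKs, es⟩ := bs.get
  obtain ⟨Kcs, hKcs, ecs⟩ := (bc0.add ((Bc.const (-2)).mul bs)).get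
  obtain ⟨ζ, hζ⟩ : ∃ ζ : ι → R, ∀ i, ζ i = S.xi i - C (s i) * yy := ⟨_, fun _ => rfl⟩
  have ζB : B 2 ζ := ((S.bxi.le (by norm_num)).sub (B.yy.cmul bs)).congr hζ
  have ζx : ∀ i, dx (ζ i) = S.L i := fun i => by rw [hζ, S.hL]; simp
  have ζ0 : ∀ i, ζ i o = 0 := fun i => by rw [hζ]; simp [S.xi0, o_val]
  have ζX : ∀ i, S.X i (ζ i) = 1 := fun i => by rw [hζ]; simp [S.X_xi, S.X_yy]
  have ζD : ∀ i, S.D i (ζ i) = -C (s i) := fun i => by rw [hζ]; simp [S.D_xi, S.D_yy]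
  obtain ⟨Kz, hKz, ez⟩ := S.lip (BX (S := S.toCore0) (ζB.le one_le_two) (by norm_num)).bd
    (BD (S := S.toCore0) (ζB.le one_le_two) (by norm_num)).bd
  obtain ⟨cm, Km, hcm, em⟩ := S.main_lower ζB ζx ζ0
  obtain ⟨C1, hC1⟩ : ∃ C1, C1 = Kz * S.c1 + 1 := ⟨_, rfl⟩
  have C10 : 0 < C1 := by rw [hC1]; positivity
  obtain ⟨Ψ, Ψs, Ψ1, Ψ2, KΨ, hKΨ, Ψ3⟩ := exists_test (k + 1 + 1 + 2) C10
  obtain ⟨χ, χs, χ1, χ2, Kχ, hKχ, χ3⟩ := exists_test 0 zero_lt_one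
  obtain ⟨p, KΘ, hKΘ, p0, p1, p2, eΘ⟩ := S.theta_int
  obtain ⟨cn, hcn, ecn⟩ := it_pow (k + 1 + 1)
  obtain ⟨KP, hKP, eP⟩ := (Sys.bd_to_one g1.bd (by omega)).get
  obtain ⟨Ksm, hKsm, esm⟩ := S.sm1
  obtain ⟨KA, hKA, eA⟩ := S.bA.bd.get
  obtain ⟨KL, hKL, eL⟩ := S.L_le
  filter_upwards [S.all_en, ev_small KP hc0, ev_small Ksm (show (0 : ℝ) < 1 / 2 by norm_num),
    self_mem_nhdsWithin] with r hen sm1 sm2 hr
  have hr : 0 < r := hr
  obtain ⟨hE, H⟩ := hen {i | S.r i = r ∧ S.c1 ≤ S.la i} fun i hi => hi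
  have hJ : ∀ i ∈ {i | S.r i = r ∧ S.c1 ≤ S.la i}, S.c1 ≤ S.la i := fun i hi => hi.2
  obtain ⟨K1, hK1, w1⟩ := S.low_int h4 one_le_two hJ (Sys.Low.ofa (e := 0) (le_refl k))
    (hE k (by omega))
  obtain ⟨K2, hK2, w2⟩ := S.low_int h4 one_le_two hJ (Sys.Low.ofa (e := 0) (le_refl (k + 1)))
    (hE (k + 1) le_rfl)
  obtain ⟨K3, hK3, w3⟩ := S.low_int h4 one_le_two hJ (Sys.Low.ofn (e := 0) (le_refl (k + 1)))
    (hE (k + 1) le_rfl)
  obtain ⟨K4, hK4, w4⟩ := S.low_int h4 one_le_two hJ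
    (Sys.T1 (k := k + 1) H (by omega) hdec gκ gc gf0 (by omega) (by omega)) (hE (k + 1) le_rfl)
  obtain ⟨Kt, hKt⟩ : ∃ Kt, Kt = 2 * (KA * (2 * C1 + 2 * Ks) + 2) := ⟨_, rfl⟩
  have Kt0 : 0 < Kt := by rw [hKt]; positivity
  obtain ⟨K0, hK0⟩ : ∃ K0, K0 = KΨ * Kχ * ((1 + 4 * C1 ^ 2) * 5) := ⟨_, rfl⟩
  have K00 : 0 ≤ K0 := by rw [hK0]; positivity
  obtain ⟨δ, hδ⟩ : ∃ δ, δ = r ^ 3 * cm / (8 * (KΘ + 1)) := ⟨_, rfl⟩
  have δ0 : 0 < δ := by rw [hδ]; positivity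
  obtain ⟨K', hK'⟩ : ∃ K', K' = (K0 * (Kcs + 1)) ^ 2 * (3 * K1) +
    (K0 * (Kt * Kκ + Xκ)) ^ 2 * (3 * K2) + (K0 * (Kt * Kc + Xc)) ^ 2 * (3 * K3) +
    K0 ^ 2 * (3 * K4) := ⟨_, rfl⟩
  obtain ⟨U, hU⟩ : ∃ U, U = S.c1 + S.c0 + Kt +
    |(r ^ 3 * cn * |Km| + 4 * (KL * K' / δ)) / (r ^ 3 * cm / 2)| + 1 := ⟨_, rfl⟩
  refine ⟨U ^ 2, fun i hri => ?_⟩
  by_contra hl
  have Uabs := abs_nonneg ((r ^ 3 * cn * |Km| + 4 * (KL * K' / δ)) / (r ^ 3 * cm / 2))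
  obtain ⟨u, hu⟩ : ∃ u, u = Real.sqrt (S.la i) := ⟨_, rfl⟩
  have la0 := S.la0 i
  have uu : u ^ 2 = S.la i := by rw [hu, Real.sq_sqrt la0.le]
  have Uu : U ≤ u := by rw [hu]; exact Real.le_sqrt_of_sq_le (not_lt.1 hl)
  have u1 : 1 ≤ u := by linarith
  have u0 : 0 < u := by linarith
  have ul : u ≤ S.la i := by nlinarith only [uu, u1]
  have hi : i ∈ {i | S.r i = r ∧ S.c1 ≤ S.la i} := ⟨hri, by linarith⟩
  have κ0 : κ i o ≤ 0 := by
    have e1 := (abs_le.1 (eP i o)).2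
    have e2 := S.ht0 i
    have : r * PA i o ≤ S.t0 i := by nlinarith only [e1, e2, sm1, hr]
    rw [hκ]
    simp only [SS, add_ap, mul_ap, C_ap, sub_ap, pow_ap, xx_ap, yy_ap, one_ap, o_val, hri,
      Prod.fst_zero, Prod.snd_zero]
    nlinarith only [mul_le_mul_of_nonneg_left this (sq_nonneg r)]
  have hs2 : s i ^ 2 + κ i o - c i o * s i = 0 := by
    have := Real.sq_sqrt (show 0 ≤ c i o ^ 2 + -4 * κ i o by
      nlinarith only [sq_nonneg (c i o), κ0])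
    rw [hs]; linear_combination (1 / 4) * this
  obtain ⟨Θ, hΘ⟩ : ∃ Θ : R, Θ = p * lor (C (S.la i) * ζ i) * lor (C u * yy) := ⟨_, rfl⟩
  have lor0 : ∀ f z, 0 ≤ lor f z := fun f z => by rw [lor_ap]; positivity
  have lor1 : ∀ f z, lor f z ≤ 1 := fun f z => by
    rw [lor_ap, div_le_one (by positivity)]; nlinarith only [sq_nonneg (f z)]
  have Θ0 : ∀ z, 0 ≤ Θ z := fun z => by
    rw [hΘ]; exact mul_nonneg (mul_nonneg (p0 z) (lor0 _ z)) (lor0 _ z)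
  have Θ1 : ∀ z, Θ z ≤ 1 := fun z => by
    rw [hΘ]; exact mul_le_one₀ (mul_le_one₀ (p1 z) (lor0 _ z) (lor1 _ z)) (lor0 _ z) (lor1 _ z)
  have ΘI : I 2 (S.L i * Θ) ≤ KΘ / (S.la i * u) := by rw [hΘ]; exact eΘ i _ _ _ (ζX i) la0 u0
  have tube : ∀ (z : W) (x y : ℝ), |x| ≤ KΨ → |y| ≤ Kχ → (2 * C1 < |S.la i * ζ i z| → x = 0) →
      (2 * 1 < |u * z.1.2| → y = 0) → |x * y| ≤ K0 * Θ z ∧
        |x * y| * (‖(z : P)‖ * u) ≤ K0 * Kt * Θ z ∧ (1 < ‖(z : P)‖ → x * y = 0) := by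
    intro z x y hx hy h1 h2
    have := Θ0 z
    by_cases hxy : x * y = 0
    · rw [hxy, abs_zero, zero_mul]; exact ⟨by positivity, by positivity, fun _ => rfl⟩
    have b1 : |S.la i * ζ i z| ≤ 2 * C1 := not_lt.1 fun h => hxy (by rw [h1 h, zero_mul])
    have b2 : |u * z.1.2| ≤ 2 := by
      have := not_lt.1 fun h => hxy (by rw [h2 h, mul_zero]); linarith
    have b3 : u * |z.1.2| ≤ 2 := by rwa [abs_mul, abs_of_pos u0] at b2
    have b4 : u * |ζ i z| ≤ 2 * C1 := by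
      rw [abs_mul, abs_of_pos la0] at b1
      exact (mul_le_mul_of_nonneg_right ul (abs_nonneg _)).trans b1
    have b5 : u * |S.xi i z| ≤ 2 * C1 + 2 * Ks := by
      have e : S.xi i z = ζ i z + s i * z.1.2 := by rw [hζ]; simp
      have : |S.xi i z| ≤ |ζ i z| + Ks * |z.1.2| := by
        rw [e]; refine (abs_add_le _ _).trans ?_
        rw [abs_mul]; gcongr; exact es i
      linarith only [mul_le_mul_of_nonneg_left this u0.le, mul_le_mul_of_nonneg_left b3 hKs, b4]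
    have b6 : |z.1.1| ≤ KA * |S.xi i z| + ‖(z : P)‖ / 2 := by
      have e1 := esm i z
      have e2 : Ksm * S.r i * ‖(z : P)‖ ≤ 1 / 2 * ‖(z : P)‖ := by rw [hri]; gcongr
      have e3 : |S.xi i z * S.A i z| ≤ KA * |S.xi i z| := by
        rw [abs_mul, mul_comm]; gcongr; exact eA i z
      have := abs_sub_abs_le_abs_sub z.1.1 (S.xi i z * S.A i z)
      rw [abs_sub_comm] at this
      linarith
    have b7 : ‖(z : P)‖ * u ≤ Kt := by
      have : ‖(z : P)‖ ≤ KA * |S.xi i z| + |z.1.2| + ‖(z : P)‖ / 2 :=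
        norm_le_of _ (by linarith [abs_nonneg z.1.2])
          (by have := norm_nonneg (z : P); have : 0 ≤ KA * |S.xi i z| := by positivity
              linarith)
      rw [hKt]
      linarith only [mul_le_mul_of_nonneg_left this u0.le, mul_le_mul_of_nonneg_left b5 hKA, b3]
    have b8 : ‖(z : P)‖ ≤ 1 := by
      have : ‖(z : P)‖ * u ≤ 1 * u := by linarith
      exact le_of_mul_le_mul_right this u0
    have b9 : |x * y| ≤ K0 * Θ z := by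
      have e1 : (S.la i * ζ i z) ^ 2 ≤ 4 * C1 ^ 2 := by
        linarith only [sq_le_sq' (abs_le.1 b1).1 (abs_le.1 b1).2]
      have e2 : (u * z.1.2) ^ 2 ≤ 4 := by
        linarith only [sq_le_sq' (abs_le.1 b2).1 (abs_le.1 b2).2]
      have e3 : 1 ≤ ((1 + 4 * C1 ^ 2) * 5) * Θ z := by
        rw [hΘ, mul_ap, mul_ap, p2 z b8, lor_ap, lor_ap]
        simp only [mul_ap, C_ap, yy_ap, one_mul]
        rw [div_mul_div_comm, one_mul, mul_one_div, le_div_iff₀ (by positivity), one_mul]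
        gcongr; linarith
      rw [abs_mul, hK0, mul_assoc]
      calc _ ≤ KΨ * Kχ * 1 := by rw [mul_one]; gcongr
        _ ≤ _ := by gcongr
    refine ⟨b9, ?_, fun h => absurd b8 (not_le.2 h)⟩
    calc _ ≤ K0 * Θ z * Kt := by gcongr
      _ = _ := by ring
  obtain ⟨F0, hF0⟩ : ∃ F0, F0 = comp Ψ Ψs (C (S.la i) * ζ i) := ⟨_, rfl⟩
  obtain ⟨F1, hF1⟩ : ∃ F1, F1 = comp _ (cd_deriv Ψs) (C (S.la i) * ζ i) := ⟨_, rfl⟩
  obtain ⟨F2, hF2⟩ : ∃ F2, F2 = comp _ (cd_deriv (cd_deriv Ψs)) (C (S.la i) * ζ i) := ⟨_, rfl⟩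
  obtain ⟨G0, hG0⟩ : ∃ G0, G0 = comp χ χs (C u * yy) := ⟨_, rfl⟩
  obtain ⟨G1, hG1⟩ : ∃ G1, G1 = comp _ (cd_deriv χs) (C u * yy) := ⟨_, rfl⟩
  obtain ⟨G2, hG2⟩ : ∃ G2, G2 = comp _ (cd_deriv (cd_deriv χs)) (C u * yy) := ⟨_, rfl⟩
  have XF0 : S.X i F0 = F1 * C (S.la i) := by rw [hF0, hF1, S.X_comp, der_mul, ζX]; simp
  have XF1 : S.X i F1 = F2 * C (S.la i) := by rw [hF1, hF2, S.X_comp, der_mul, ζX]; simp
  have DF0 : S.D i F0 = -(F1 * C (S.la i) * C (s i)) := by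
    rw [hF0, hF1, S.D_comp, der_mul, ζD]; simp; ring
  have DF1 : S.D i F1 = -(F2 * C (S.la i) * C (s i)) := by
    rw [hF1, hF2, S.D_comp, der_mul, ζD]; simp; ring
  have XG0 : S.X i G0 = 0 := by rw [hG0, S.X_comp, der_mul, S.X_yy]; simp
  have DG0 : S.D i G0 = G1 * C u := by rw [hG0, hG1, S.D_comp, der_mul, S.D_yy]; simp
  have DG1 : S.D i G1 = G2 * C u := by rw [hG1, hG2, S.D_comp, der_mul, S.D_yy]; simp
  have t00 := fun z => tube z (F0 z) (G0 z) (by rw [hF0]; simpa using (Ψ3 _).1)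
    (by rw [hG0]; simpa using (χ3 _).1) (fun h => by rw [hF0]; simpa using (Ψ2 _ h).1)
    (fun h => by rw [hG0]; simpa using (χ2 _ h).1)
  have t10 := fun z => tube z (F1 z) (G0 z) (by rw [hF1]; simpa using (Ψ3 _).2.1)
    (by rw [hG0]; simpa using (χ3 _).1) (fun h => by rw [hF1]; simpa using (Ψ2 _ h).2.1)
    (fun h => by rw [hG0]; simpa using (χ2 _ h).1)
  have t11 := fun z => tube z (F1 z) (G1 z) (by rw [hF1]; simpa using (Ψ3 _).2.1)
    (by rw [hG1]; simpa using (χ3 _).2.1) (fun h => by rw [hF1]; simpa using (Ψ2 _ h).2.1)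
    (fun h => by rw [hG1]; simpa using (χ2 _ h).2.1)
  have t02 := fun z => tube z (F0 z) (G2 z) (by rw [hF0]; simpa using (Ψ3 _).1)
    (by rw [hG2]; simpa using (χ3 _).2.2) (fun h => by rw [hF0]; simpa using (Ψ2 _ h).1)
    (fun h => by rw [hG2]; simpa using (χ2 _ h).2.2)
  have φs : Supp 2 (F0 * G0) := fun z hz => (t00 z).2.2 (by linarith)
  obtain ⟨q, hq⟩ : ∃ q, q = it (S.X i) (k + 1 + 1)
      (C (S.r i ^ 2 * S.t0 i) * SS * S.A i + C (S.r i ^ 3) * S.Pr i) - κ i * S.a (k + 1 + 1) i -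
      c i * S.n (k + 1 + 1) i := ⟨_, rfl⟩
  have hid := S.test_id i (κ := κ i) (c := c i) (κ0 := κ i o) (c0 := c i o)
    (g := q + C (S.r i ^ 3) * it (S.X i) (k + 1 + 1) (S.Pb i)) φs (S.X_a k i) (S.D_a k i)
    (by rw [hq, S.D_n, S.X_a, S.X_n, S.ePh, mul_add (C (S.r i ^ 3)),
          ← add_assoc (C (S.r i ^ 2 * S.t0 i) * SS * S.A i), it_add _ _ _
          (C (S.r i ^ 3) * S.Pb i), it_C_mul]
        ring)
  have bound : ∀ (f : R) (K X : ℝ), 0 ≤ K → (∀ z, |f z - f o| ≤ K * ‖(z : P)‖) →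
      (∀ z, |S.X i f z| ≤ X) → ∀ z, |S.X i (F0 * G0 * (f - C (f o))) z| ≤
        u * (K0 * (Kt * K + X)) * Θ z := by
    intro f K X hK h1 h2 z
    have e : S.X i (F0 * G0 * (f - C (f o))) z =
        S.la i * (F1 z * G0 z * (f z - f o)) + F0 z * G0 z * S.X i f z := by
      simp only [der_mul, map_sub, der_C, XF0, XG0, add_ap, mul_ap, sub_ap, C_ap, zero_ap]; ring
    have hX : 0 ≤ X := (abs_nonneg _).trans (h2 z)
    have := Θ0 z
    rw [e]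
    refine (abs_add_le _ _).trans ?_
    rw [abs_mul, abs_mul (F1 z * G0 z), abs_mul (F0 z * G0 z), abs_of_pos la0]
    have e1 : S.la i * (|F1 z * G0 z| * |f z - f o|) ≤ u * (K0 * Kt * Θ z * K) := by
      calc _ ≤ S.la i * (|F1 z * G0 z| * (K * ‖(z : P)‖)) := by gcongr; exact h1 z
        _ = u * (|F1 z * G0 z| * (‖(z : P)‖ * u) * K) := by rw [← uu]; ring
        _ ≤ _ := mul_le_mul_of_nonneg_left
            (mul_le_mul_of_nonneg_right (t10 z).2.1 hK) u0.le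
    have e2 : |F0 z * G0 z| * |S.X i f z| ≤ u * (K0 * Θ z * X) := by
      calc _ ≤ K0 * Θ z * X := by gcongr; exacts [(t00 z).1, h2 z]
        _ ≤ _ := le_mul_of_one_le_left (by positivity) u1
    linarith only [e1, e2]
  have al1 : S.al i * S.la i ^ (k + 1) = 1 := S.alm' i
  have al2 : S.al i * S.la i ^ (k + 1 + 1) = S.la i := by rw [pow_succ, ← mul_assoc, al1, one_mul]
  have al3 : S.al i * S.la i ^ (1 + (k + 1) + 1) = S.la i ^ 2 := by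
    rw [show 1 + (k + 1) + 1 = k + 1 + 1 + 1 by ring, pow_succ, ← mul_assoc, al2]; ring
  have la1 := S.la1 i
  have la2 : 1 ≤ S.la i ^ 2 := one_le_pow₀ la1
  have al0 : (S.al i * S.la i ^ 0) ^ 2 / S.la i ^ 2 ≤ 1 := by
    rw [div_le_one (by positivity)]
    exact (pow_le_one₀ (S.src_nonneg _ i) (S.src_le (by omega) i)).trans la2
  have v1 : I 2 (S.a k i ^ 2) ≤ 3 * K1 := by
    have := w1 i hi
    rw [al1] at this
    linarith only [this, mul_le_mul_of_nonneg_left al0 hK1]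
  have v2 : I 2 (S.a (k + 1) i ^ 2) ≤ 3 * K2 * S.la i ^ 2 := by
    have := w2 i hi
    rw [al2] at this
    linarith only [this, mul_le_mul_of_nonneg_left al0 hK2, mul_le_mul_of_nonneg_left la2 hK2]
  have v3 : I 2 (S.n (k + 1) i ^ 2) ≤ 3 * K3 * S.la i ^ 2 := by
    have := w3 i hi
    rw [al2] at this
    linarith only [this, mul_le_mul_of_nonneg_left al0 hK3, mul_le_mul_of_nonneg_left la2 hK3]
  have v4 : I 2 (q ^ 2) ≤ 3 * K4 * S.la i ^ 2 := by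
    have := w4 i hi
    rw [al2, al3, ← hq, show (S.la i ^ 2) ^ 2 / S.la i ^ 2 = S.la i ^ 2 by field_simp] at this
    linarith only [this, mul_le_mul_of_nonneg_left la2 hK4]
  have lu : 0 ≤ (S.la i * u) ^ 2 := sq_nonneg _
  have p1' : 0 ≤ (K0 * (Kcs + 1)) ^ 2 * (3 * K1) := by positivity
  have p2' : 0 ≤ (K0 * (Kt * Kκ + Xκ)) ^ 2 * (3 * K2) := by positivity
  have p3' : 0 ≤ (K0 * (Kt * Kc + Xc)) ^ 2 * (3 * K3) := by positivity
  have p4' : 0 ≤ K0 ^ 2 * (3 * K4) := by positivity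
  have E1 := S.err i (φ := S.D i (S.D i (F0 * G0)) + C (κ i o) * S.X i (S.X i (F0 * G0)) +
      C (c i o) * S.D i (S.X i (F0 * G0))) (v := S.a k i) (κ := S.la i * u * (K0 * (Kcs + 1)))
      (K' := K') δ0 la0 u0 (eL i) Θ0 Θ1 (fun z => ?_) ΘI ?_
  rotate_left
  · have e : (S.D i (S.D i (F0 * G0)) + C (κ i o) * S.X i (S.X i (F0 * G0)) +
        C (c i o) * S.D i (S.X i (F0 * G0))) z =
        S.la i * u * ((c i o + -2 * s i) * (F1 z * G1 z)) + u ^ 2 * (F0 z * G2 z) := by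
      simp only [der_mul, map_add, map_neg, der_C, XF0, XF1, XG0, DF0, DF1, DG0, DG1, add_ap,
        mul_ap, neg_ap, C_ap, zero_ap, map_zero]
      linear_combination (S.la i ^ 2 * F2 z * G0 z) * hs2
    rw [e]
    refine (abs_add_le _ _).trans ?_
    rw [abs_mul, abs_mul (c i o + _), abs_mul (u ^ 2), abs_of_pos (mul_pos la0 u0),
      abs_of_nonneg (sq_nonneg u)]
    have := Θ0 z
    have e1 : S.la i * u * (|c i o + -2 * s i| * |F1 z * G1 z|) ≤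
        S.la i * u * (Kcs * (K0 * Θ z)) := by gcongr; exacts [ecs i, (t11 z).1]
    have e2 : u ^ 2 * |F0 z * G2 z| ≤ S.la i * u * (K0 * Θ z) := by
      gcongr
      · nlinarith only [ul, u0]
      · exact (t02 z).1
    linarith only [e1, e2]
  · calc _ ≤ (S.la i * u * (K0 * (Kcs + 1))) ^ 2 * (3 * K1) := by gcongr
      _ = (K0 * (Kcs + 1)) ^ 2 * (3 * K1) * (S.la i * u) ^ 2 := by ring
      _ ≤ _ := by rw [hK']; gcongr; linarith only [p1', p2', p3', p4']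
  have E2 := S.err i (v := S.a (k + 1) i) (K' := K') δ0 la0 u0 (eL i) Θ0 Θ1
    (bound (κ i) Kκ Xκ hKκ (eκ i) (fκ i)) ΘI ?_
  rotate_left
  · calc _ ≤ (u * (K0 * (Kt * Kκ + Xκ))) ^ 2 * (3 * K2 * S.la i ^ 2) := by gcongr
      _ = (K0 * (Kt * Kκ + Xκ)) ^ 2 * (3 * K2) * (S.la i * u) ^ 2 := by ring
      _ ≤ _ := by rw [hK']; gcongr; linarith only [p1', p2', p3', p4']
  have E3 := S.err i (v := S.n (k + 1) i) (K' := K') δ0 la0 u0 (eL i) Θ0 Θ1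
    (bound (c i) Kc Xc hKc (ec i) (fc i)) ΘI ?_
  rotate_left
  · calc _ ≤ (u * (K0 * (Kt * Kc + Xc))) ^ 2 * (3 * K3 * S.la i ^ 2) := by gcongr
      _ = (K0 * (Kt * Kc + Xc)) ^ 2 * (3 * K3) * (S.la i * u) ^ 2 := by ring
      _ ≤ _ := by rw [hK']; gcongr; linarith only [p1', p2', p3', p4']
  have E4 := S.err i (φ := F0 * G0) (v := q) (κ := K0) (K' := K') δ0 la0 u0 (eL i) Θ0 Θ1
    (fun z => (t00 z).1) ΘI ?_
  rotate_left
  · calc _ ≤ K0 ^ 2 * (3 * K4 * S.la i ^ 2) := by gcongr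
      _ = K0 ^ 2 * (3 * K4) * (S.la i * 1) ^ 2 := by ring
      _ ≤ _ := by rw [hK']; gcongr; linarith only [p1', p2', p3', p4']
  have sPb : Supp (S.c1 / S.la i) (S.Pb i) := by
    rw [S.ePb]; exact ((S.supp_Lb i).mul_left _).neg
  have c12 : S.c1 / S.la i ≤ 2 := ((div_le_one la0).2 hi.2).trans one_le_two
  have M1 : F0 * G0 * it (S.X i) (k + 1 + 1) (S.Pb i) =
      C (S.la i ^ (k + 1 + 1 + 2)) * ζ i ^ (k + 1 + 1 + 2) * it (S.X i) (k + 1 + 1) (S.Pb i) := by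
    ext z
    by_cases hz : S.c1 / S.la i < ‖(z : P)‖
    · simp [S.supp_it i _ sPb z hz]
    have h5 : ‖(z : P)‖ * S.la i ≤ S.c1 := (le_div_iff₀ la0).1 (not_lt.1 hz)
    have e1 : |S.la i * ζ i z| ≤ C1 := by
      have := ez i z
      rw [ζ0, sub_zero] at this
      rw [abs_mul, abs_of_pos la0, hC1]
      linarith only [mul_le_mul_of_nonneg_left this la0.le, mul_le_mul_of_nonneg_left h5 hKz]
    have e2 : |u * z.1.2| ≤ 1 := by
      have := abs_snd_le z.1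
      rw [abs_mul, abs_of_pos u0]
      have e : u * (u * |z.1.2|) ≤ u * 1 := by
        have e0 : S.c1 ≤ u := by linarith
        rw [← mul_assoc, ← pow_two, uu]
        linarith only [mul_le_mul_of_nonneg_left this la0.le, h5, e0]
      exact le_of_mul_le_mul_left e u0
    simp only [hF0, hG0, mul_ap, comp_ap, C_ap, yy_ap, pow_ap, Ψ1 _ e1, χ1 _ e2, mul_pow]
    ring
  have M2 : I 2 (S.L i * (F0 * G0 * it (S.X i) (k + 1 + 1) (S.Pb i))) =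
      (-1) ^ (k + 1 + 1) * (-(cn * S.la i ^ 3) * I 2 (ζ i ^ 2 * S.hh i * S.Lb i)) := by
    rw [M1, S.I_it h4 i _ _ (sPb.mono c12), it_C_mul, ecn _ _ (ζX i),
      ← I_C_mul h4 (-(cn * S.la i ^ 3))]
    congr 2
    have e : C (-(cn * S.la i ^ 3)) = -(C cn * C (S.la i ^ (k + 1 + 1 + 2)) * C (S.al i)) := by
      rw [← map_mul, ← map_mul, ← map_neg]
      congr 2
      rw [mul_assoc, show k + 1 + 1 + 2 = k + 1 + 3 by ring, pow_add (S.la i) (k + 1) 3]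
      linear_combination (-cn * S.la i ^ 3) * al1
    have ePb : S.Pb i = -(S.hh i * S.A i * C (S.al i) * S.Lb i) := S.ePb i
    rw [e, ePb]
    linear_combination (-(C (S.la i ^ (k + 1 + 1 + 2)) * C cn * ζ i ^ 2 * S.hh i * C (S.al i) *
      S.Lb i)) * S.hLA i
  rw [mul_add, mul_add, I_add h4, mul_left_comm (F0 * G0) (C _), mul_left_comm (S.L i) (C _),
    I_C_mul h4, M2, hri] at hid
  have M3 : r ^ 3 * cn * (S.la i ^ 3 * I 2 (ζ i ^ 2 * S.hh i * S.Lb i)) ≤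
      4 * (δ * KΘ * S.la i + KL * K' / δ * u) := by
    have e1 := abs_le.1 E1
    have e2 := abs_le.1 E2
    have e3 := abs_le.1 E3
    have e4 := abs_le.1 E4
    rcases neg_one_pow_eq_or ℝ (k + 1 + 1) with h | h <;> rw [h] at hid <;>
      linarith only [hid, e1.1, e1.2, e2.1, e2.2, e3.1, e3.2, e4.1, e4.2]
  have M4 := em i hi.2 (by linarith)
  have r3 : 0 < r ^ 3 := by positivity
  have M5 : 4 * (δ * KΘ) ≤ r ^ 3 * cm / 2 := by
    rw [hδ, div_mul_eq_mul_div, mul_div_assoc', div_le_div_iff₀ (by positivity) (by norm_num)]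
    nlinarith only [mul_pos r3 hcm]
  have M6 : r ^ 3 * cm / 2 * u ^ 2 ≤ r ^ 3 * cn * |Km| + 4 * (KL * K' / δ) * u := by
    rw [uu]
    have e1 := mul_le_mul_of_nonneg_left M4 (show 0 ≤ r ^ 3 * cn by positivity)
    have e2 := mul_le_mul_of_nonneg_right M5 la0.le
    have e3 : r ^ 3 * (cm * S.la i) ≤ r ^ 3 * cn * (cm * S.la i) := by
      rw [mul_assoc]
      exact mul_le_mul_of_nonneg_left (le_mul_of_one_le_left (by positivity) hcn) r3.le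
    have e4 : r ^ 3 * cn * Km ≤ r ^ 3 * cn * |Km| := by gcongr; exact le_abs_self _
    linarith only [e1, e2, e3, e4, M3]
  have := final_ineq (by positivity) (by positivity) u1 M6
  have := le_abs_self ((r ^ 3 * cn * |Km| + 4 * (KL * K' / δ)) / (r ^ 3 * cm / 2))
  linarith

end Core
end P229
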