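import Vale.Agent.P229.Cons

open scoped ContDiff Topology
open Set MeasureTheory Metric

noncomputable section
namespace P229

lemma exists_glob {V : Set P} (hV : IsOpen V) (h0 : (0 : P) ∈ V) : ∃ δ, 0 < δ ∧
    closedBall (0 : P) δ ⊆ V ∧ ∀ f : P → ℝ, ContDiffOn ℝ ∞ f V → ∃ G : Sm,
      ∀ Z ∈ closedBall (0 : P) δ, ∀ v, G.dv v Z = fderiv ℝ f Z v := by
  obtain ⟨ε, hε, hb⟩ := Metric.isOpen_iff.1 hV 0 h0
  let χ : ContDiffBump (0 : P) := ⟨ε / 4, ε / 2, by positivity, by linarith⟩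
  refine ⟨ε / 8, by positivity, (closedBall_subset_ball (by linarith)).trans hb, fun f hf =>
    ⟨⟨fun Z => χ Z * f Z, contDiff_iff_contDiffAt.2 fun Z => ?_⟩, fun Z hZ v => ?_⟩⟩
  · by_cases hZ : Z ∈ V
    · exact χ.contDiff.contDiffAt.mul (hf.contDiffAt (hV.mem_nhds hZ))
    · have h1 : ε / 2 < ‖Z‖ := by
        by_contra h
        exact hZ (hb (by simp only [mem_ball, dist_zero_right]; linarith))
      refine (contDiffAt_const (c := 0)).congr_of_eventuallyEq ?_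
      filter_upwards [(isOpen_lt continuous_const continuous_norm).mem_nhds h1] with w hw
      rw [χ.zero_of_le_dist (by simpa [χ] using le_of_lt hw), zero_mul]
  · show fderiv ℝ (fun Z => χ Z * f Z) Z v = _
    rw [Filter.EventuallyEq.fderiv_eq (f := f)]
    have h1 : ‖Z‖ < ε / 4 := by
      have : ‖Z‖ ≤ ε / 8 := by simpa using hZ
      linarith
    filter_upwards [(isOpen_lt continuous_norm continuous_const).mem_nhds h1] with w hw
    rw [χ.one_of_mem_closedBall (by simpa [χ] using le_of_lt hw), one_mul]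

abbrev E2 := EuclideanSpace ℝ (Fin 2)
abbrev E3 := EuclideanSpace ℝ (Fin 3)

def emb : P →L[ℝ] E2 :=
  (ContinuousLinearMap.fst ℝ ℝ ℝ).smulRight (EuclideanSpace.single 0 1) +
    (ContinuousLinearMap.snd ℝ ℝ ℝ).smulRight (EuclideanSpace.single 1 1)

lemma emb0 (Z : P) : emb Z 0 = Z.1 := by simp [emb]
lemma emb1 (Z : P) : emb Z 1 = Z.2 := by simp [emb]
lemma emb_e0 : emb (1, 0) = EuclideanSpace.single 0 1 := by simp [emb]
lemma emb_e1 : emb (0, 1) = EuclideanSpace.single 1 1 := by simp [emb]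

def fac (x : E2) : ℝ := Real.exp (2 * (-x 0 ^ 4 / 12 + tau (x 0, x 1)))

lemma fac_smooth : ContDiff ℝ ∞ fac := by
  have h0 : ContDiff ℝ ∞ fun x : E2 => x 0 := (EuclideanSpace.proj (0 : Fin 2) : E2 →L[ℝ] ℝ).contDiff
  have h1 : ContDiff ℝ ∞ fun x : E2 => x 1 := (EuclideanSpace.proj (1 : Fin 2) : E2 →L[ℝ] ℝ).contDiff
  exact (contDiff_const.mul (((h0.pow 4).neg.div_const 12).add (tau.sm.comp (h0.prodMk h1)))).exp

theorem no_local {U : Set E2} (hU : IsOpen U) (h0 : (0 : E2) ∈ U) {F : E2 → E3}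
    (hF : ContDiffOn ℝ ∞ F U) (h : ∀ x ∈ U, ∀ i j : Fin 2,
      inner ℝ (fderiv ℝ F x (EuclideanSpace.single i 1)) (fderiv ℝ F x (EuclideanSpace.single j 1))
        = if i = j then fac x else 0) : False := by
  obtain ⟨δ, hδ, hV, hG⟩ := exists_glob (V := emb ⁻¹' U) (hU.preimage emb.continuous)
    (by simpa using h0)
  have key : ∀ a : Fin 3, ∃ G : Sm, ∀ Z ∈ closedBall (0 : P) δ, ∀ v,
      G.dv v Z = fderiv ℝ F (emb Z) (emb v) a := fun a => by
    let pr : E3 →L[ℝ] ℝ := EuclideanSpace.proj a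
    obtain ⟨G, e⟩ := hG (pr ∘ F ∘ emb)
      (pr.contDiff.comp_contDiffOn (hF.comp emb.contDiff.contDiffOn fun _ hz => hz))
    refine ⟨G, fun Z hZ v => ?_⟩
    have hd : DifferentiableAt ℝ F (emb Z) :=
      (hF.contDiffAt (hU.mem_nhds (hV hZ))).differentiableAt (by simp)
    rw [e Z hZ, (pr.hasFDerivAt.comp Z (hd.hasFDerivAt.comp Z emb.hasFDerivAt)).fderiv]
    rfl
  obtain ⟨F1, e1⟩ := key 0
  obtain ⟨F2, e2⟩ := key 1
  obtain ⟨F3, e3⟩ := key 2
  refine no_global (F1 := F1) (F2 := F2) (F3 := F3) hδ fun Z hZ => ?_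
  have a := h _ (hV hZ) 0 0
  have b := h _ (hV hZ) 1 1
  have c := h _ (hV hZ) 1 0
  simp only [PiLp.inner_apply, Fin.sum_univ_three, RCLike.inner_apply, conj_trivial, fac, emb0,
    emb1, if_true, one_ne_zero, if_false] at a b c
  simp only [Iso, D1, D2, e1 Z hZ, e2 Z hZ, e3 Z hZ, emb_e0, emb_e1]
  exact ⟨a, b, c⟩

end P229
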