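import Vale.Agent.P229.Step2

open scoped ContDiff Topology
open Set MeasureTheory Metric Filter

noncomputable section
namespace P229

variable {ι : Type*} {m : ℕ}

namespace Core
open Core0
variable (S : Core ι m)

lemma low_int {J : Set ι} {ρ : ℝ} {k e : ℕ} {g : ι → R} (hρ : ρ < 4) (h1 : 1 ≤ ρ)
    (hJ : ∀ i ∈ J, S.c1 ≤ S.la i) (hg : S.Low J ρ k e g) (hE : S.En J ρ k) :
    ∃ K, 0 ≤ K ∧ ∀ i ∈ J, I ρ (g i ^ 2) ≤ K * (1 + (S.al i * S.la i ^ (k + 1)) ^ 2 +
      (S.al i * S.la i ^ e) ^ 2 / S.la i ^ 2) := by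
  obtain ⟨K, hK, h⟩ := hg
  obtain ⟨KE, hKE, hE⟩ := hE
  refine ⟨K * (KE + 4 * S.c1 ^ 2), by positivity, fun i hi => ?_⟩
  have a1 : I ρ (g i ^ 2) ≤ I ρ (C K * (S.Sg k i + C ((S.al i * S.la i ^ e) ^ 2) * S.th i)) :=
    I_mono hρ fun z hz => by simpa using h i hi z hz
  rw [I_C_mul hρ, I_add hρ, I_C_mul hρ] at a1
  refine a1.trans ?_
  rw [mul_assoc]
  refine mul_le_mul_of_nonneg_left ?_ hK
  have a2 := hE i hi
  have a3 : (S.al i * S.la i ^ e) ^ 2 * I ρ (S.th i) ≤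
      4 * S.c1 ^ 2 * ((S.al i * S.la i ^ e) ^ 2 / S.la i ^ 2) := by
    calc _ ≤ (S.al i * S.la i ^ e) ^ 2 * (4 * S.c1 ^ 2 / S.la i ^ 2) := by
          gcongr; exact S.I_th hρ h1 i (hJ i hi)
      _ = _ := by ring
  have a4 : 0 ≤ (S.al i * S.la i ^ e) ^ 2 / S.la i ^ 2 := by positivity
  have a5 : 0 ≤ 1 + (S.al i * S.la i ^ (k + 1)) ^ 2 := by positivity
  nlinarith [mul_nonneg hKE a4, mul_nonneg (sq_nonneg S.c1) a5]

lemma sup_bound {J : Set ι} {ρ ρ' : ℝ} {k e : ℕ} {f : ι → R} (h0 : 0 < ρ) (hρ : ρ < ρ')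
    (h1 : 1 ≤ ρ') (h4 : ρ' < 4) (hJ : ∀ i ∈ J, S.c1 ≤ S.la i) (hE : S.En J ρ' k) (hk : k + 1 ≤ m)
    (he : e ≤ m) (l0 : S.Low J ρ' k e f) (l1 : S.Low J ρ' k e fun i => S.X i (f i))
    (l2 : S.Low J ρ' k e fun i => S.X i (S.X i (f i))) (l3 : S.Low J ρ' k e fun i => S.D i (f i))
    (l4 : S.Low J ρ' k e fun i => S.X i (S.D i (f i))) : Sys.Bnd J ρ f := by
  obtain ⟨p, pB, p0, p1, p2, p3⟩ := exists_cut ι h0 hρ
  have bL : Bd one' S.L := S.bL.bd
  have bnL : B 1 (fun i => S.nu i * S.L i) := (S.bn.le (by norm_num)).mul (S.bL.le (by norm_num))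
  have lx : S.Low J ρ' k e fun i => dx (f i) :=
    (Sys.Low.bmul (.of_bd bL) l1).congr fun i => S.dx_eq i _
  have ly : S.Low J ρ' k e fun i => dy (f i) :=
    (l3.add (Sys.Low.bmul (.of_bd bnL.bd) l1).neg).congr fun i => by
      rw [S.dy_eq i, sub_eq_add_neg]
  have lxy : S.Low J ρ' k e fun i => dx (dy (f i)) :=
    (Sys.Low.bmul (.of_bd bL) (l4.add ((Sys.Low.bmul (.of_bd bnL.bd) l2).add
      (Sys.Low.bmul (.of_bd (BX (S := S.toCore0) bnL (by norm_num)).bd) l1)).neg)).congr fun i => by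
      rw [S.dx_eq i, S.dy_eq i, map_sub, der_mul]; ring
  have lg : S.Low J ρ' k e fun i => dy (dx (p * f i)) :=
    ((((Sys.Low.bmul (.of_bd (pB 2).dx.dy.bd) l0).add
      (Sys.Low.bmul (.of_bd (pB 1).dx.bd) ly)).add (Sys.Low.bmul (.of_bd (pB 1).dy.bd) lx)).add
      (Sys.Low.bmul (.of_bd (pB 0).bd) lxy)).congr fun i => by
      simp only [der_mul, map_add, dxy_comm]; ring
  obtain ⟨K, hK, h⟩ := S.low_int h4 h1 hJ lg hE
  refine ⟨64 + K * 3, by positivity, fun i hi z hz => ?_⟩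
  have hs : Supp ρ' (p * f i) := Supp.mul_right (fun z hz => p3 z hz.le) _
  have a1 := sobolev h4 hs z
  rw [I_add h4, mul_ap, p2 z hz, one_mul] at a1
  have a2 := I_one_le (by linarith) h4
  have a3 := h i hi
  have a4 : (S.al i * S.la i ^ (k + 1)) ^ 2 ≤ 1 :=
    pow_le_one₀ (S.src_nonneg _ i) (S.src_le hk i)
  have a5 : (S.al i * S.la i ^ e) ^ 2 / S.la i ^ 2 ≤ 1 := by
    rw [div_le_one (pow_pos (S.la0 i) 2)]
    exact (pow_le_one₀ (S.src_nonneg _ i) (S.src_le he i)).trans (one_le_pow₀ (S.la1 i))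
  have : K * (1 + (S.al i * S.la i ^ (k + 1)) ^ 2 + (S.al i * S.la i ^ e) ^ 2 / S.la i ^ 2)
      ≤ K * 3 := mul_le_mul_of_nonneg_left (by linarith) hK
  linarith

def rad (k : ℕ) : ℝ := 2 + 1 / ((k : ℝ) + 1)

lemma two_lt_rad (k) : 2 < rad k := by unfold rad; have : 0 < 1 / ((k : ℝ) + 1) := by positivity
                                       linarith

lemma rad_anti {j k} (h : j ≤ k) : rad k ≤ rad j := by
  unfold rad; gcongr

lemma rad_lt (k) : rad (k + 1) < rad k := by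
  unfold rad; gcongr; linarith

lemma rad_le (k) : rad k ≤ 3 := (rad_anti k.zero_le).trans (by norm_num [rad])

lemma en_base (J : Set ι) {ρ} (h0 : 0 ≤ ρ) (hρ : ρ < 4) {k} (hk : k ≤ 11) : S.En J ρ k := by
  have H : S.Hyp J ρ k := fun j hj =>
    ⟨.of_bd (S.bd_a (by omega)), .of_bd (S.bd_n (by omega))⟩
  obtain ⟨K, hK, h⟩ := H.Sg le_rfl
  refine ⟨K * 64, by positivity, fun i hi => ?_⟩
  have a1 : I ρ (S.Sg k i) ≤ I ρ (C K * 1) :=
    I_mono hρ fun z hz => by simpa using (abs_le.1 (h i hi z hz)).2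
  rw [I_C_mul hρ] at a1
  have a2 := I_one_le h0 hρ
  have : K * I ρ 1 ≤ K * 64 := by gcongr
  nlinarith [mul_nonneg hK (sq_nonneg (S.al i * S.la i ^ (k + 1)))]

theorem all_en : ∀ᶠ r in 𝓝[>] (0 : ℝ), ∀ J : Set ι, (∀ i ∈ J, S.r i = r ∧ S.c1 ≤ S.la i) →
    (∀ k ≤ m, S.En J 2 k) ∧ S.Hyp J 2 (m - 4) := by
  have hm := S.hm
  have := (eventually_all_finset (Finset.range (m - 1))).2 fun k hk =>
    S.step k (by have := Finset.mem_range.1 hk; omega)
  filter_upwards [this] with r hr J hJ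
  have hJ' : ∀ i ∈ J, S.c1 ≤ S.la i := fun i hi => (hJ i hi).2
  have key : ∀ n, (n ≤ m → S.En J (rad n) n) ∧ (n + 2 ≤ m →
      Sys.Bnd J (rad (n + 1)) (S.a (n - 2)) ∧ Sys.Bnd J (rad (n + 1)) (S.n (n - 2))) := by
    intro n
    induction n using Nat.strong_induction_on with
    | _ n ih =>
      rcases le_or_gt n 11 with hn | hn
      · exact ⟨fun _ => S.en_base J (by linarith [two_lt_rad n]) (by linarith [rad_le n]) hn,
          fun _ => ⟨.of_bd (S.bd_a (by omega)), .of_bd (S.bd_n (by omega))⟩⟩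
      obtain ⟨k, rfl⟩ : ∃ k, n = k + 2 := ⟨n - 2, by omega⟩
      have hyp : ∀ N t, N < k → N + 3 ≤ t → N + 4 ≤ m → S.Hyp J (rad t) N := by
        intro N t h1 h2 h3 j hj
        have := (ih (j + 2) (by omega)).2 (by omega)
        exact ⟨this.1.mono (rad_anti (by omega)), this.2.mono (rad_anti (by omega))⟩
      have hE : k + 2 ≤ m → S.En J (rad (k + 2)) (k + 2) := fun hk =>
        hr k (Finset.mem_range.2 (by omega)) J hJ _ _ ((k + 5) / 2) (two_lt_rad _) (rad_lt _)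
          (rad_le _) (hyp _ _ (by omega) (by omega) (by omega)) (by omega) (by omega) (by omega)
          ((ih (k + 1) (by omega)).1 (by omega))
      refine ⟨hE, fun hk => ?_⟩
      have H := hyp ((k + 4) / 2) (k + 2) (by omega) (by omega) (by omega)
      have r0 : 0 < rad (k + 2 + 1) := by linarith [two_lt_rad (k + 2 + 1)]
      have r1 : 1 ≤ rad (k + 2) := by linarith [two_lt_rad (k + 2)]
      have r4 : rad (k + 2) < 4 := by linarith [rad_le (k + 2)]
      constructor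
      · exact S.sup_bound (e := k + 4) r0 (rad_lt _) r1 r4 hJ' (hE (by omega)) (by omega) hk
          (Sys.Low.ofa (by omega))
          ((Sys.Low.ofa (j := k + 1) (by omega)).congr fun i => S.X_a _ _)
          ((Sys.Low.ofa (j := k + 2) (by omega)).congr fun i => by
            rw [S.X_a, S.X_a]; rfl)
          ((Sys.Low.ofn (j := k + 1) (by omega)).congr fun i => S.D_a _ _)
          ((Sys.Low.ofn (j := k + 2) (by omega)).congr fun i => by
            rw [S.D_a, S.X_n]; rfl)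
      · exact S.sup_bound (e := k + 4) r0 (rad_lt _) r1 r4 hJ' (hE (by omega)) (by omega) hk
          (Sys.Low.ofn (by omega))
          ((Sys.Low.ofn (j := k + 1) (by omega)).congr fun i => S.X_n _ _)
          ((Sys.Low.ofn (j := k + 2) (by omega)).congr fun i => by
            rw [S.X_n, S.X_n]; rfl)
          (((Sys.T0 H (by omega) (k + 1) S.gPh (by omega) (by omega)).neg.mono (by omega)
            (by omega)).congr fun i => S.D_n _ _)
          (((Sys.T0 H (by omega) (k + 2) S.gPh (by omega) (by omega)).neg.mono (by omega)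
            (by omega)).congr fun i => by
              rw [S.D_n, map_neg, ← it_succ']; rfl)
  refine ⟨fun k hk => ?_, fun j hj => ?_⟩
  · obtain ⟨K, hK, h⟩ := (key k).1 hk
    exact ⟨K, hK, fun i hi => (I_mono_radius (by linarith [rad_le k]) (two_lt_rad k).le
      fun z _ => zero_le_one.trans (S.one_le_Sg _ i z)).trans (h i hi)⟩
  · have := (key (j + 2)).2 (by omega)
    exact ⟨this.1.mono (two_lt_rad _).le, this.2.mono (two_lt_rad _).le⟩

end Core
end P229
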