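import Vale.Agent.P229.Ring

open scoped ContDiff Topology
open Set MeasureTheory Metric

noncomputable section
namespace P229

/-- `f` vanishes outside the closed square of radius `ρ` -/
def Supp (ρ : ℝ) (f : R) : Prop := ∀ z : W, ρ < ‖(z : P)‖ → f z = 0

lemma Supp.mul_right {ρ : ℝ} {f : R} (h : Supp ρ f) (g : R) : Supp ρ (f * g) := by
  intro z hz; simp [h z hz]

lemma Supp.mul_left {ρ : ℝ} {f : R} (h : Supp ρ f) (g : R) : Supp ρ (g * f) := by
  intro z hz; simp [h z hz]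

lemma Supp.add {ρ : ℝ} {f g : R} (h : Supp ρ f) (h' : Supp ρ g) : Supp ρ (f + g) := by
  intro z hz; simp [h z hz, h' z hz]

lemma Supp.sub {ρ : ℝ} {f g : R} (h : Supp ρ f) (h' : Supp ρ g) : Supp ρ (f - g) := by
  intro z hz; simp [h z hz, h' z hz]

lemma Supp.neg {ρ : ℝ} {f : R} (h : Supp ρ f) : Supp ρ (-f) := by
  intro z hz; simp [h z hz]

lemma Supp.mono {ρ ρ' : ℝ} {f : R} (h : Supp ρ f) (h' : ρ ≤ ρ') : Supp ρ' f :=
  fun z hz => h z (lt_of_le_of_lt h' hz)

lemma Supp.pd {ρ : ℝ} {f : R} (h : Supp ρ f) (v : P) : Supp ρ (pd v f) := by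
  intro z hz
  exact pd_eq_zero_of_open v f (V := {w | ρ < ‖w‖}) (isOpen_lt continuous_const continuous_norm)
    h z hz

lemma Supp.ext_zero {ρ : ℝ} {f : R} (h : Supp ρ f) {w : P} (hw : ρ < ‖w‖) : ext f w = 0 := by
  by_cases hW : w ∈ W
  · rw [ext_of_mem _ hW]; exact h _ hw
  · exact ext_of_not_mem _ hW

lemma Supp.contDiff {ρ : ℝ} {f : R} (h : Supp ρ f) (hρ : ρ < 4) : ContDiff ℝ ∞ (ext f) := by
  rw [contDiff_iff_contDiffAt]
  intro w
  by_cases hW : w ∈ W
  · exact f.contDiffAt ⟨w, hW⟩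
  · have hw : ρ < ‖w‖ := lt_of_lt_of_le hρ (not_lt.1 (mt mem_W.2 hW))
    have : ext f =ᶠ[𝓝 w] fun _ => 0 := by
      filter_upwards [(isOpen_lt continuous_const continuous_norm).mem_nhds hw] with u hu
      exact h.ext_zero hu
    exact contDiffAt_const.congr_of_eventuallyEq this

lemma Supp.compact {ρ : ℝ} {f : R} (h : Supp ρ f) : HasCompactSupport (ext f) := by
  apply HasCompactSupport.intro (isCompact_closedBall (0 : P) ρ)
  intro w hw
  exact h.ext_zero (by simpa using hw)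

lemma Supp.ext_pd {ρ : ℝ} {f : R} (h : Supp ρ f) (hρ : ρ < 4) (v : P) (w : P) :
    ext (P229.pd v f) w = fderiv ℝ (ext f) w v := by
  by_cases hW : w ∈ W
  · rw [ext_of_mem _ hW]; rfl
  · have hw : ρ < ‖w‖ := lt_of_lt_of_le hρ (not_lt.1 (mt mem_W.2 hW))
    have : ext f =ᶠ[𝓝 w] fun _ => 0 := by
      filter_upwards [(isOpen_lt continuous_const continuous_norm).mem_nhds hw] with u hu
      exact h.ext_zero hu
    rw [ext_of_not_mem _ hW, this.fderiv_eq]
    simp

/-- integral over the closed square of radius `ρ` -/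
def I (ρ : ℝ) (f : R) : ℝ := ∫ z in closedBall (0 : P) ρ, ext f z

lemma ball_sub {ρ : ℝ} (hρ : ρ < 4) : closedBall (0 : P) ρ ⊆ W :=
  closedBall_subset_ball hρ

lemma integrableOn {ρ : ℝ} (hρ : ρ < 4) (f : R) :
    IntegrableOn (ext f) (closedBall (0 : P) ρ) :=
  (f.smooth.continuousOn.mono (ball_sub hρ)).integrableOn_compact (isCompact_closedBall _ _)

lemma I_congr {ρ : ℝ} (hρ : ρ < 4) {f : R} {F : P → ℝ}
    (h : ∀ z : W, ‖(z : P)‖ ≤ ρ → f z = F z) :
    I ρ f = ∫ z in closedBall (0 : P) ρ, F z := by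
  refine setIntegral_congr_fun measurableSet_closedBall fun w hw => ?_
  simp only [ext_of_mem _ (ball_sub hρ hw)]
  exact h _ (by simpa using hw)

lemma I_add {ρ : ℝ} (hρ : ρ < 4) (f g : R) : I ρ (f + g) = I ρ f + I ρ g := by
  rw [I_congr hρ (F := fun z => ext f z + ext g z) (by intro z _; simp)]
  exact integral_add (integrableOn hρ f) (integrableOn hρ g)

lemma I_C_mul {ρ : ℝ} (hρ : ρ < 4) (a : ℝ) (f : R) : I ρ (C a * f) = a * I ρ f := by
  rw [I_congr hρ (F := fun z => a * ext f z) (by intro z _; simp)]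
  exact integral_const_mul _ _

lemma I_neg {ρ : ℝ} (hρ : ρ < 4) (f : R) : I ρ (-f) = -I ρ f := by
  have := I_C_mul hρ (-1) f
  rw [show C (-1) * f = -f by ext z; simp] at this
  linarith

lemma I_sub {ρ : ℝ} (hρ : ρ < 4) (f g : R) : I ρ (f - g) = I ρ f - I ρ g := by
  rw [sub_eq_add_neg, I_add hρ, I_neg hρ]; ring

lemma I_mono {ρ : ℝ} (hρ : ρ < 4) {f g : R} (h : ∀ z : W, ‖(z : P)‖ ≤ ρ → f z ≤ g z) :
    I ρ f ≤ I ρ g := by
  refine setIntegral_mono_on (integrableOn hρ f) (integrableOn hρ g) measurableSet_closedBall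
    fun w hw => ?_
  simp only [ext_of_mem _ (ball_sub hρ hw)]
  exact h _ (by simpa using hw)

lemma I_zero (ρ : ℝ) : I ρ 0 = 0 := by
  have : ext (0 : R) = fun _ => 0 := by
    funext w; by_cases h : w ∈ W
    · rw [ext_of_mem _ h]; rfl
    · exact ext_of_not_mem _ h
  simp [I, this]

lemma I_nonneg {ρ : ℝ} (hρ : ρ < 4) {f : R} (h : ∀ z : W, ‖(z : P)‖ ≤ ρ → 0 ≤ f z) :
    0 ≤ I ρ f := by
  rw [← I_zero ρ]; exact I_mono hρ h

lemma I_mono_radius {ρ ρ' : ℝ} (hρ : ρ' < 4) (hle : ρ ≤ ρ') {f : R}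
    (h : ∀ z : W, ‖(z : P)‖ ≤ ρ' → 0 ≤ f z) : I ρ f ≤ I ρ' f := by
  refine setIntegral_mono_set (integrableOn hρ f) ?_
    (LE.le.eventuallyLE (closedBall_subset_closedBall hle))
  refine (ae_restrict_iff' measurableSet_closedBall).2 (Filter.Eventually.of_forall fun w hw => ?_)
  simp only [ext_of_mem _ (ball_sub hρ hw), Pi.zero_apply]
  exact h _ (by simpa using hw)

lemma I_eq_integral {ρ ρ' : ℝ} {f : R} (h : Supp ρ' f) (hle : ρ' ≤ ρ) :
    I ρ f = ∫ z, ext f z := by
  refine setIntegral_eq_integral_of_forall_compl_eq_zero fun w hw => ?_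
  exact h.ext_zero (lt_of_le_of_lt hle (by simpa using hw))

lemma I_supp {ρ ρ₁ ρ' : ℝ} {f : R} (h : Supp ρ' f) (hle : ρ' ≤ ρ) (hle₁ : ρ' ≤ ρ₁) :
    I ρ f = I ρ₁ f := by rw [I_eq_integral h hle, I_eq_integral h hle₁]

lemma I_pd {ρ : ℝ} (hρ : ρ < 4) {f : R} (h : Supp ρ f) (v : P) : I ρ (pd v f) = 0 := by
  rw [I_eq_integral (h.pd v) le_rfl]
  have hc := h.contDiff hρ
  have hi : Integrable (fun w => fderiv ℝ (ext f) w v) := by
    have := ((h.pd v).contDiff hρ).continuous.integrable_of_hasCompactSupport (μ := volume)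
      (h.pd v).compact
    refine this.congr (Filter.Eventually.of_forall fun w => h.ext_pd hρ v w)
  have := integral_mul_fderiv_eq_neg_fderiv_mul_of_integrable (μ := volume) (𝕜 := ℝ)
    (f := fun _ : P => (1 : ℝ)) (g := ext f) (v := v) (by simp) (by simpa using hi)
    (by simpa using hc.continuous.integrable_of_hasCompactSupport h.compact)
    (fun _ _ => differentiableAt_const _) (fun w _ => hc.differentiable (by simp) w)
  simp only [one_mul, fderiv_fun_const, Pi.zero_apply, zero_apply, zero_mul,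
    integral_zero, neg_zero] at this
  rw [← this]
  exact integral_congr_ae (Filter.Eventually.of_forall fun w => h.ext_pd hρ v w)

lemma vol_ball {t : ℝ} (ht : 0 ≤ t) : volume.real (closedBall (0 : P) t) = 4 * t ^ 2 := by
  have : closedBall (0 : P) t = closedBall (0 : ℝ) t ×ˢ closedBall (0 : ℝ) t := by
    rw [closedBall_prod_same]; rfl
  rw [this, Measure.volume_eq_prod, measureReal_prod_prod, Real.volume_real_closedBall ht]
  ring

lemma I_one {ρ : ℝ} (h0 : 0 ≤ ρ) (hρ : ρ < 4) : I ρ 1 = 4 * ρ ^ 2 := by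
  rw [I_congr hρ (F := fun _ => 1) (by intro z _; simp)]
  simp [vol_ball h0]

lemma I_one_le {ρ : ℝ} (h0 : 0 ≤ ρ) (hρ : ρ < 4) : I ρ 1 ≤ 64 := by
  rw [I_one h0 hρ]; nlinarith

/-- upper bound for a function supported in a small square -/
lemma I_le_small {ρ t K : ℝ} (hρ : ρ < 4) (ht : 0 ≤ t) (htρ : t ≤ ρ) {f : R} (hs : Supp t f)
    (h : ∀ z, f z ≤ K) : I ρ f ≤ K * (4 * t ^ 2) := by
  have ht4 : t < 4 := lt_of_le_of_lt htρ hρ
  rw [I_supp hs htρ le_rfl, ← I_one ht ht4, ← I_C_mul ht4]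
  exact I_mono ht4 fun z _ => by simpa using h z

lemma I_ge_small {ρ t : ℝ} (hρ : ρ < 4) (ht : 0 ≤ t) (htρ : t ≤ ρ) {f : R}
    (h0 : ∀ z, 0 ≤ f z) (h : ∀ z : W, ‖(z : P)‖ ≤ t → 1 ≤ f z) : 4 * t ^ 2 ≤ I ρ f := by
  have ht4 : t < 4 := lt_of_le_of_lt htρ hρ
  rw [← I_one ht ht4]
  exact (I_mono ht4 fun z hz => by simpa using h z hz).trans
    (I_mono_radius hρ htρ fun z _ => h0 z)

lemma abs_le_integral_deriv {h : ℝ → ℝ} (hc : ContDiff ℝ 1 h) (hs : HasCompactSupport h)
    (b : ℝ) : |h b| ≤ ∫ t, |deriv h t| := by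
  rw [← hs.integral_Iic_deriv_eq hc b]
  have hi : Integrable (fun t => |deriv h t|) :=
    ((hc.continuous_deriv le_rfl).integrable_of_hasCompactSupport hs.deriv).abs
  exact (abs_integral_le_integral_abs).trans
    (setIntegral_le_integral hi (Filter.Eventually.of_forall fun t => abs_nonneg _))

lemma ce_left (y : ℝ) : Topology.IsClosedEmbedding (fun s : ℝ => ((s, y) : P)) :=
  (Isometry.of_dist_eq fun a b => by simp [Prod.dist_eq]).isClosedEmbedding

lemma ce_right (s : ℝ) : Topology.IsClosedEmbedding (fun y : ℝ => ((s, y) : P)) :=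
  (Isometry.of_dist_eq fun a b => by simp [Prod.dist_eq]).isClosedEmbedding

lemma sobolev_aux {G G1 G2 : P → ℝ} (hG : ContDiff ℝ ∞ G) (hG1 : ContDiff ℝ ∞ G1)
    (hG2 : Continuous G2) (c : HasCompactSupport G) (c1 : HasCompactSupport G1)
    (c2 : HasCompactSupport G2) (e1 : ∀ w, G1 w = fderiv ℝ G w (1, 0))
    (e2 : ∀ w, G2 w = fderiv ℝ G1 w (0, 1)) (z : P) : |G z| ≤ ∫ w, |G2 w| := by
  have hi2 : Integrable (fun w => |G2 w|) (volume.prod volume) :=
    (hG2.integrable_of_hasCompactSupport c2).abs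
  have s1 : ∀ y, HasCompactSupport (fun s => G (s, y)) := fun y =>
    c.comp_isClosedEmbedding (ce_left y)
  have s2 : ∀ s, HasCompactSupport (fun t => G1 (s, t)) := fun s =>
    c1.comp_isClosedEmbedding (ce_right s)
  have d1 : ∀ y s, deriv (fun s => G (s, y)) s = G1 (s, y) := by
    intro y s
    have h1 : HasDerivAt (fun s : ℝ => ((s, y) : P)) (1, 0) s :=
      (hasDerivAt_id s).prodMk (hasDerivAt_const s y)
    have := ((hG.differentiable (by simp) (s, y)).hasFDerivAt.comp_hasDerivAt s h1).deriv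
    rw [e1]; exact this
  have d2 : ∀ s t, deriv (fun t => G1 (s, t)) t = G2 (s, t) := by
    intro s t
    have h1 : HasDerivAt (fun t : ℝ => ((s, t) : P)) (0, 1) t :=
      (hasDerivAt_const t s).prodMk (hasDerivAt_id t)
    have := ((hG1.differentiable (by simp) (s, t)).hasFDerivAt.comp_hasDerivAt t h1).deriv
    rw [e2]; exact this
  have a1 := abs_le_integral_deriv (h := fun s => G (s, z.2))
    ((hG.of_le (by simp)).comp (contDiff_id.prodMk contDiff_const)) (s1 z.2) z.1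
  have a2 : ∀ s, |G1 (s, z.2)| ≤ ∫ t, |G2 (s, t)| := by
    intro s
    have := abs_le_integral_deriv (h := fun t => G1 (s, t))
      ((hG1.of_le (by simp)).comp (contDiff_const.prodMk contDiff_id)) (s2 s) z.2
    simpa only [d2] using this
  simp only [d1] at a1
  rw [Measure.volume_eq_prod, integral_prod _ hi2]
  refine a1.trans (integral_mono ?_ hi2.integral_prod_left a2)
  have : HasCompactSupport (fun s => G1 (s, z.2)) :=
    c1.comp_isClosedEmbedding (ce_left z.2)
  exact ((hG1.continuous.comp (continuous_id.prodMk continuous_const)).integrable_of_hasCompactSupport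
    this).abs

/-- Sobolev embedding -/
lemma sobolev {ρ : ℝ} (hρ : ρ < 4) {f : R} (h : Supp ρ f) (z : W) :
    |f z| ≤ I ρ (1 + dy (dx f) ^ 2) := by
  have h1 : Supp ρ (dx f) := h.pd _
  have h2 : Supp ρ (dy (dx f)) := h1.pd _
  have := sobolev_aux (h.contDiff hρ) (h1.contDiff hρ) (h2.contDiff hρ).continuous h.compact
    h1.compact h2.compact (h.ext_pd hρ _) (h1.ext_pd hρ _) z
  rw [ext_coe] at this
  refine this.trans ?_
  rw [← setIntegral_eq_integral_of_forall_compl_eq_zero (s := closedBall (0 : P) ρ)]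
  · refine setIntegral_mono_on (integrableOn hρ _).abs (integrableOn hρ _)
      measurableSet_closedBall fun w hw => ?_
    simp only [ext_of_mem _ (ball_sub hρ hw), add_ap, one_ap, pow_ap]
    have := abs_nonneg (dy (dx f) ⟨w, ball_sub hρ hw⟩)
    nlinarith [sq_abs (dy (dx f) ⟨w, ball_sub hρ hw⟩),
      sq_nonneg (|dy (dx f) ⟨w, ball_sub hρ hw⟩| - 1)]
  · intro w hw
    rw [h2.ext_zero (by simpa using hw), abs_zero]

end P229
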