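import Vale.Agent.P229.Dat2
import Vale.Agent.P229.Darb

open scoped ContDiff Topology
open Set MeasureTheory Metric

noncomputable section
namespace P229

/-- smooth functions on the plane -/
structure Sm where
  fn : P → ℝ
  sm : ContDiff ℝ ∞ fn

instance : CoeFun Sm (fun _ => P → ℝ) := ⟨Sm.fn⟩

def Sm.dv (v : P) (G : Sm) : Sm :=
  ⟨fun z => fderiv ℝ G z v, (G.sm.fderiv_right (m := ∞) (by simp)).clm_apply contDiff_const⟩

def D1 (G : Sm) : Sm := G.dv (1, 0)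
def D2 (G : Sm) : Sm := G.dv (0, 1)

lemma Sm.diffAt (G : Sm) (z : P) : DifferentiableAt ℝ G z := G.sm.differentiable (by simp) z

lemma D12 (G : Sm) (z : P) : D1 (D2 G) z = D2 (D1 G) z := by
  have hs := (G.sm.contDiffAt (x := z)).isSymmSndFDerivAt (by simp; norm_cast)
  have hd : DifferentiableAt ℝ (fderiv ℝ G) z :=
    ((G.sm.contDiffAt (x := z)).fderiv_right (m := 1) (by norm_cast)).differentiableAt (by simp)
  have key : ∀ v w : P, (G.dv w).dv v z = fderiv ℝ (fderiv ℝ G) z v w := by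
    intro v w
    show fderiv ℝ (fun y => fderiv ℝ G y w) z v = _
    rw [fderiv_clm_apply hd (differentiableAt_const w)]
    simp
  rw [D1, D2, D1, D2, key, key, hs.eq]

/-- bounds for all coordinate derivatives up to a given order -/
def Wb (S : Set P) (φ : P → ℝ) : ℕ → Sm → Prop
  | 0, G => ∀ Z ∈ S, |G Z| ≤ φ Z
  | d + 1, G => (∀ Z ∈ S, |G Z| ≤ φ Z) ∧ Wb S φ d (D1 G) ∧ Wb S φ d (D2 G)

lemma Wb.bd {S φ d G} (h : Wb S φ d G) : ∀ Z ∈ S, |G Z| ≤ φ Z := by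
  cases d
  · exact h
  · exact h.1

lemma Wb.pred {S φ d G} (h : Wb S φ (d + 1) G) : Wb S φ d G := by
  induction d generalizing G with
  | zero => exact h.1
  | succ d ih => exact ⟨h.1, ih h.2.1, ih h.2.2⟩

lemma Wb.glue {S S1 S2 : Set P} {φ φ1 φ2 : P → ℝ} {d G} (h1 : Wb S1 φ1 d G) (h2 : Wb S2 φ2 d G)
    (h : ∀ Z ∈ S, (Z ∈ S1 ∧ φ1 Z ≤ φ Z) ∨ (Z ∈ S2 ∧ φ2 Z ≤ φ Z)) : Wb S φ d G := by
  have key : ∀ {G : Sm}, (∀ Z ∈ S1, |G Z| ≤ φ1 Z) → (∀ Z ∈ S2, |G Z| ≤ φ2 Z) →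
      ∀ Z ∈ S, |G Z| ≤ φ Z := fun h1 h2 Z hZ =>
    (h Z hZ).elim (fun h => (h1 Z h.1).trans h.2) fun h => (h2 Z h.1).trans h.2
  induction d generalizing G with
  | zero => exact key h1 h2
  | succ d ih => exact ⟨key h1.1 h2.1, ih h1.2.1 h2.2.1, ih h1.2.2 h2.2.2⟩

lemma Wb.mono {S S1 : Set P} {φ φ1 : P → ℝ} {d G} (h1 : Wb S1 φ1 d G)
    (h : ∀ Z ∈ S, Z ∈ S1 ∧ φ1 Z ≤ φ Z) : Wb S φ d G := h1.glue h1 fun Z hZ => Or.inl (h Z hZ)

lemma exists_Wb {S : Set P} (hS : IsCompact S) (d : ℕ) (G : Sm) :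
    ∃ M, 0 ≤ M ∧ Wb S (fun _ => M) d G := by
  have key : ∀ G : Sm, ∃ M, 0 ≤ M ∧ ∀ Z ∈ S, |G Z| ≤ M := fun G => by
    obtain ⟨M, hM⟩ := hS.exists_bound_of_continuousOn G.sm.continuous.continuousOn
    exact ⟨max M 0, le_max_right _ _, fun Z hZ => (hM Z hZ).trans (le_max_left _ _)⟩
  induction d generalizing G with
  | zero => exact key G
  | succ d ih =>
    obtain ⟨M, hM, h⟩ := key G
    obtain ⟨M1, hM1, h1⟩ := ih (D1 G)
    obtain ⟨M2, hM2, h2⟩ := ih (D2 G)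
    exact ⟨M + M1 + M2, by positivity, fun Z hZ => (h Z hZ).trans (by linarith),
      h1.mono fun Z hZ => ⟨hZ, by linarith⟩, h2.mono fun Z hZ => ⟨hZ, by linarith⟩⟩

lemma Wb_zero {S : Set P} (hS : IsOpen S) (d : ℕ) {G : Sm} (h : ∀ Z ∈ S, G Z = 0) :
    Wb S (fun _ => 0) d G := by
  have key : ∀ v, ∀ {G : Sm}, (∀ Z ∈ S, G Z = 0) → ∀ Z ∈ S, G.dv v Z = 0 := by
    intro v G h Z hZ
    have : (G : P → ℝ) =ᶠ[𝓝 Z] fun _ => 0 := by
      filter_upwards [hS.mem_nhds hZ] with w hw using h w hw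
    show fderiv ℝ G Z v = 0
    rw [this.fderiv_eq]; simp
  induction d generalizing G with
  | zero => exact fun Z hZ => by simp [h Z hZ]
  | succ d ih => exact ⟨fun Z hZ => by simp [h Z hZ], ih (key _ h), ih (key _ h)⟩

/-- affine charts -/
structure Af where
  cen : P
  k : ℝ
  b : ℝ
  c : ℝ
  s : ℝ

namespace Af
variable (a : Af)

def lin : P →L[ℝ] P :=
  (a.k • (a.c • ContinuousLinearMap.fst ℝ ℝ ℝ - a.s • ContinuousLinearMap.snd ℝ ℝ ℝ)).prod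
    ((a.k * a.b) • (a.s • ContinuousLinearMap.fst ℝ ℝ ℝ + a.c • ContinuousLinearMap.snd ℝ ℝ ℝ))

lemma lin_ap (z : P) :
    a.lin z = (a.k * (a.c * z.1 - a.s * z.2), a.k * a.b * (a.s * z.1 + a.c * z.2)) := by
  simp [lin, mul_add]

def map (z : P) : P := a.cen + a.lin z

lemma map_smooth : ContDiff ℝ ∞ a.map := contDiff_const.add a.lin.contDiff

def lift (G : Sm) : R := P229.mk (fun z => G (a.map z)) (G.sm.comp a.map_smooth).contDiffOn

@[simp] lemma lift_ap (G : Sm) (z : W) : a.lift G z = G (a.map z) := rfl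

lemma map_o : a.map (o : W) = a.cen := by simp [map, o_val]

lemma pd_lift (v : P) (G : Sm) (z : W) : pd v (a.lift G) z =
    (a.lin v).1 * D1 G (a.map z) + (a.lin v).2 * D2 G (a.map z) := by
  rw [lift, pd_mk]
  have h1 : HasFDerivAt a.map a.lin (z : P) := a.lin.hasFDerivAt.const_add _
  have h2 := ((G.diffAt (a.map z)).hasFDerivAt.comp (z : P) h1).fderiv
  have : (fun z => G (a.map z)) = G ∘ a.map := rfl
  rw [this, h2, ContinuousLinearMap.comp_apply]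
  have : a.lin v = (a.lin v).1 • ((1, 0) : P) + (a.lin v).2 • ((0, 1) : P) := by ext <;> simp
  conv_lhs => rw [this]
  rw [map_add, map_smul, map_smul]
  rfl

lemma dx_lift (G : Sm) : dx (a.lift G) =
    C a.c * (C a.k * a.lift (D1 G)) + C (a.b * a.s) * (C a.k * a.lift (D2 G)) := by
  ext z; rw [dx, pd_lift]; simp [lin_ap]; ring

lemma dy_lift (G : Sm) : dy (a.lift G) =
    C (-a.s) * (C a.k * a.lift (D1 G)) + C (a.b * a.c) * (C a.k * a.lift (D2 G)) := by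
  ext z; rw [dy, pd_lift]; simp [lin_ap]; ring

lemma e1_lift (h : a.c ^ 2 + a.s ^ 2 = 1) (G : Sm) :
    e1 a.c a.s (a.lift G) = C a.k * a.lift (D1 G) := by
  rw [e1, cvf_ap, dx_lift, dy_lift]
  ext z; simp
  linear_combination a.k * D1 G (a.map z) * h

lemma e2_lift (hb : a.b ≠ 0) (h : a.c ^ 2 + a.s ^ 2 = 1) (G : Sm) :
    e2 a.b a.c a.s (a.lift G) = C a.k * a.lift (D2 G) := by
  rw [e2, cvf_ap, dx_lift, dy_lift]
  ext z; simp
  field_simp
  linear_combination a.k * a.b * D2 G (a.map z) * h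

lemma norm_lin_le (hk : 0 ≤ a.k) (hb : 1 ≤ a.b) (h : a.c ^ 2 + a.s ^ 2 = 1) (z : P) :
    ‖a.lin z‖ ≤ 2 * a.b * a.k * ‖z‖ := by
  have hc : |a.c| ≤ 1 := abs_le_one_iff_mul_self_le_one.2 (by nlinarith)
  have hs : |a.s| ≤ 1 := abs_le_one_iff_mul_self_le_one.2 (by nlinarith)
  have h1 := abs_fst_le z
  have h2 := abs_snd_le z
  have n0 := norm_nonneg z
  have k1 : ∀ {u v x y : ℝ}, |u| ≤ 1 → |v| ≤ 1 → |x| ≤ ‖z‖ → |y| ≤ ‖z‖ →
      |u * x + v * y| ≤ 2 * ‖z‖ := fun {u v x y} hu hv hx hy => by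
    calc _ ≤ |u * x| + |v * y| := abs_add_le _ _
      _ ≤ 1 * ‖z‖ + 1 * ‖z‖ := by rw [abs_mul, abs_mul]; gcongr
      _ = _ := by ring
  rw [lin_ap]
  refine norm_le_of _ ?_ ?_
  · have := k1 hc (by rwa [abs_neg] : |-a.s| ≤ 1) h1 h2
    rw [abs_mul, abs_of_nonneg hk, show a.c * z.1 - a.s * z.2 = a.c * z.1 + -a.s * z.2 by ring]
    calc _ ≤ a.k * (2 * ‖z‖) := by gcongr
      _ = 2 * 1 * a.k * ‖z‖ := by ring
      _ ≤ _ := by gcongr
  · have := k1 hs hc h1 h2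
    rw [abs_mul, abs_of_nonneg (by positivity)]
    calc _ ≤ a.k * a.b * (2 * ‖z‖) := by gcongr
      _ = _ := by ring

lemma le_norm_lin (hk : 0 ≤ a.k) (hb : 1 ≤ a.b) (h : a.c ^ 2 + a.s ^ 2 = 1) (z : P) :
    a.k * ‖z‖ ≤ 2 * ‖a.lin z‖ := by
  have h1 := abs_fst_le (a.lin z)
  have h2 := abs_snd_le (a.lin z)
  have n0 := norm_nonneg (a.lin z)
  set t := ‖a.lin z‖
  rw [lin_ap] at h1 h2
  simp only at h1 h2
  have h3 : |a.k * (a.s * z.1 + a.c * z.2)| ≤ t := by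
    refine le_trans ?_ h2
    rw [mul_assoc, mul_left_comm, abs_mul a.b]
    exact le_mul_of_one_le_left (abs_nonneg _) (hb.trans (le_abs_self _))
  have e1 := sq_le_sq' (abs_le.1 h1).1 (abs_le.1 h1).2
  have e2 := sq_le_sq' (abs_le.1 h3).1 (abs_le.1 h3).2
  have e3 : (a.k * z.1) ^ 2 + (a.k * z.2) ^ 2 ≤ 2 * t ^ 2 := by
    have : (a.k * (a.c * z.1 - a.s * z.2)) ^ 2 + (a.k * (a.s * z.1 + a.c * z.2)) ^ 2 =
        (a.k * z.1) ^ 2 + (a.k * z.2) ^ 2 := by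
      linear_combination ((a.k * z.1) ^ 2 + (a.k * z.2) ^ 2) * h
    linarith
  have : ‖a.k • z‖ ≤ 2 * t := norm_le_of _
    (abs_le_of_sq_le_sq' (by simp only [Prod.smul_fst, smul_eq_mul]; nlinarith [sq_nonneg (a.k * z.2)])
      (by positivity) |> abs_le.2)
    (abs_le_of_sq_le_sq' (by simp only [Prod.smul_snd, smul_eq_mul]; nlinarith [sq_nonneg (a.k * z.1)])
      (by positivity) |> abs_le.2)
  rwa [norm_smul, Real.norm_of_nonneg hk] at this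

end Af

variable {ι : Type*}

lemma T_lift {wt : ℕ → ι → W → ℝ} {a : ι → Af} (hb : Bc fun i => (a i).b)
    (hc : Bc fun i => (a i).c) (hs : Bc fun i => (a i).s) (hk : ∀ i, 0 ≤ (a i).k)
    {S : ι → Set P} {φ : ι → P → ℝ} (hS : ∀ i (z : W), (a i).map z ∈ S i) {K : ℝ} (hK : 0 ≤ K)
    {d s} {ρ : ι → ℝ} {G : ι → Sm} (hG : ∀ i, Wb (S i) (φ i) d (G i)) (hρ : ∀ i, 0 ≤ ρ i)
    (hw : ∀ j i (z : W), ρ i * (a i).k ^ j * φ i ((a i).map z) ≤ K * wt (s + j) i z) :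
    T wt d s (fun i => C (ρ i) * (a i).lift (G i)) := by
  have key : ∀ {s} {ρ : ι → ℝ} {G : ι → Sm}, (∀ i, ∀ Z ∈ S i, |G i Z| ≤ φ i Z) → (∀ i, 0 ≤ ρ i) →
      (∀ j i (z : W), ρ i * (a i).k ^ j * φ i ((a i).map z) ≤ K * wt (s + j) i z) →
      Bd (wt s) (fun i => C (ρ i) * (a i).lift (G i)) := fun {s ρ G} hG hρ hw =>
    ⟨K, hK, fun i z => by
      have := hw 0 i z
      rw [pow_zero, mul_one, add_zero] at this
      rw [mul_ap, C_ap, Af.lift_ap, abs_mul, abs_of_nonneg (hρ i)]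
      exact (mul_le_mul_of_nonneg_left (hG i _ (hS i z)) (hρ i)).trans this⟩
  induction d generalizing s ρ G with
  | zero => exact key hG hρ hw
  | succ d ih =>
    have hw' : ∀ j i (z : W), ρ i * (a i).k * (a i).k ^ j * φ i ((a i).map z) ≤
        K * wt (s + 1 + j) i z := fun j i z => by
      have := hw (1 + j) i z
      rwa [pow_add, pow_one, ← mul_assoc, ← add_assoc] at this
    have h1 := ih (fun i => (hG i).2.1) (fun i => mul_nonneg (hρ i) (hk i)) hw'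
    have h2 := ih (fun i => (hG i).2.2) (fun i => mul_nonneg (hρ i) (hk i)) hw'
    refine ⟨key (fun i => (hG i).1) hρ hw,
      ((h1.cmul hc).add (h2.cmul (hb.mul hs))).congr fun i => ?_,
      ((h1.cmul hs.neg).add (h2.cmul (hb.mul hc))).congr fun i => ?_⟩
    · rw [der_mul, der_C, Af.dx_lift, map_mul C (ρ i)]; ring
    · rw [der_mul, der_C, Af.dy_lift, map_mul C (ρ i)]; ring

lemma cvf_comm (u v u' v' : ℝ) (f : R) : cvf u v (cvf u' v' f) = cvf u' v' (cvf u v f) := by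
  simp only [cvf_ap, map_add, der_mul, der_C, dxy_comm]; ring

lemma cvf_comp (u v : ℝ) (g hg f) :
    cvf u v (comp g hg f) = comp (deriv g) (cd_deriv hg) f * cvf u v f := by
  rw [cvf_ap, cvf_ap, dx, dy, pd_comp, pd_comp]; ring

end P229
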