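import Vale.Agent.P229.Amb

open scoped ContDiff Topology
open Set MeasureTheory Metric

noncomputable section
namespace P229

lemma second (d d' : Derivation ℝ R R) {f g k S V : R} (h : f * g - k * k = S * V)
    (hf : f o = 0) (hg : g o = 0) (hk : k o = 0) (hS : S o = 0) (h1 : d S o = 0)
    (h2 : d' S o = 0) :
    d f o * d' g o + d' f o * d g o - 2 * (d k o * d' k o) = d (d' S) o * V o := by
  have := congrArg (fun f : R => d (d' f) o) h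
  simp only [map_sub, map_add, der_mul, add_ap, sub_ap, mul_ap, hf, hg, hk, hS, h1, h2] at this
  linear_combination this

def Flat (G : Sm) : Prop := ∀ Z : P, Z.2 < 0 → G Z = 0

lemma Flat.dv {G : Sm} (h : Flat G) (v : P) : Flat (G.dv v) := by
  intro Z hZ
  have : (G : P → ℝ) =ᶠ[𝓝 Z] fun _ => 0 := by
    filter_upwards [(isOpen_lt continuous_snd continuous_const).mem_nhds hZ] with w hw using h w hw
  show fderiv ℝ G Z v = 0
  rw [this.fderiv_eq]; simp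

lemma Flat.zero {G : Sm} (h : Flat G) : G 0 = 0 := by
  have hc : Continuous fun t : ℝ => G (0, t) := G.sm.continuous.comp (by fun_prop)
  have h1 : Filter.Tendsto (fun t : ℝ => G (0, t)) (𝓝[<] 0) (𝓝 (G (0, 0))) :=
    (hc.tendsto 0).mono_left nhdsWithin_le_nhds
  have h2 : Filter.Tendsto (fun t : ℝ => G (0, t)) (𝓝[<] 0) (𝓝 0) :=
    tendsto_const_nhds.congr' (eventually_nhdsWithin_of_forall fun t ht => (h (0, t) ht).symm)
  exact tendsto_nhds_unique h1 h2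

def comb (n1 n2 n3 : ℝ) (F1 F2 F3 : Sm) : Sm :=
  ⟨fun Z => n1 * F1 Z + n2 * F2 Z + n3 * F3 Z,
    ((contDiff_const.mul F1.sm).add (contDiff_const.mul F2.sm)).add (contDiff_const.mul F3.sm)⟩

lemma comb_ap (n1 n2 n3 F1 F2 F3 Z) :
    comb n1 n2 n3 F1 F2 F3 Z = n1 * F1 Z + n2 * F2 Z + n3 * F3 Z := rfl

lemma dv_comb (n1 n2 n3 F1 F2 F3 v) :
    (comb n1 n2 n3 F1 F2 F3).dv v = comb n1 n2 n3 (F1.dv v) (F2.dv v) (F3.dv v) := by
  simp only [Sm.dv, comb]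
  congr 1
  funext Z
  have := ((((F1.diffAt Z).hasFDerivAt.const_mul n1).add
    ((F2.diffAt Z).hasFDerivAt.const_mul n2)).add ((F3.diffAt Z).hasFDerivAt.const_mul n3)).fderiv
  erw [this]
  simp

/-- the map `F` is conformal with factor `exp (2 σ)` at `Z` -/
def Iso (F1 F2 F3 : Sm) (σ : ℝ) (Z : P) : Prop :=
  D1 F1 Z * D1 F1 Z + D1 F2 Z * D1 F2 Z + D1 F3 Z * D1 F3 Z = Real.exp (2 * σ) ∧
  D2 F1 Z * D2 F1 Z + D2 F2 Z * D2 F2 Z + D2 F3 Z * D2 F3 Z = Real.exp (2 * σ) ∧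
  D1 F1 Z * D2 F1 Z + D1 F2 Z * D2 F2 Z + D1 F3 Z * D2 F3 Z = 0

theorem origin {F1 F2 F3 τ : Sm} {n1 n2 n3 δ : ℝ} (hδ : 0 < δ) (hτ : Flat τ)
    (hn : n1 ^ 2 + n2 ^ 2 + n3 ^ 2 = 1)
    (hF : ∀ Z ∈ closedBall (0 : P) δ, Iso F1 F2 F3 (-Z.1 ^ 4 / 12 + τ Z) Z)
    (h1 : D1 (comb n1 n2 n3 F1 F2 F3) 0 = 0) (h2 : D2 (comb n1 n2 n3 F1 F2 F3) 0 = 0)
    (h11 : D1 (D1 (comb n1 n2 n3 F1 F2 F3)) 0 = 0)
    (h22 : D2 (D2 (comb n1 n2 n3 F1 F2 F3)) 0 = 0) : False := by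
  obtain ⟨U, hU⟩ : ∃ U, U = comb n1 n2 n3 F1 F2 F3 := ⟨_, rfl⟩
  rw [← hU] at h1 h2 h11 h22
  obtain ⟨k, hk⟩ : ∃ k, k = δ / 8 := ⟨_, rfl⟩
  have k0 : 0 < k := by rw [hk]; positivity
  let a : Af := ⟨0, k, 1, 1, 0⟩
  have cs : a.c ^ 2 + a.s ^ 2 = 1 := by simp [a]
  have mem : ∀ z : W, a.map z ∈ closedBall (0 : P) δ := fun z => by
    have h := a.norm_lin_le k0.le le_rfl cs z
    have h2 := (W.norm_lt z).le
    rw [mem_closedBall, dist_zero_right, Af.map, show a.cen = 0 from rfl, zero_add]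
    refine h.trans ?_
    show 2 * 1 * k * ‖(z : P)‖ ≤ _
    calc _ ≤ 2 * 1 * k * 4 := by gcongr
      _ = _ := by rw [hk]; ring
  have rr : C k⁻¹ * C k = 1 := by rw [← map_mul, inv_mul_cancel₀ k0.ne', map_one]
  obtain ⟨d1, hd1⟩ : ∃ d : Derivation ℝ R R, ∀ f, d f = C k⁻¹ * e1 1 0 f :=
    ⟨C k⁻¹ • e1 1 0, fun _ => rfl⟩
  obtain ⟨d2, hd2⟩ : ∃ d : Derivation ℝ R R, ∀ f, d f = C k⁻¹ * e2 1 1 0 f :=
    ⟨C k⁻¹ • e2 1 1 0, fun _ => rfl⟩
  have l1 : ∀ G, d1 (a.lift G) = a.lift (D1 G) := fun G => by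
    have : e1 1 0 (a.lift G) = C k * a.lift (D1 G) := a.e1_lift cs G
    rw [hd1, this, ← mul_assoc, rr, one_mul]
  have l2 : ∀ G, d2 (a.lift G) = a.lift (D2 G) := fun G => by
    have : e2 1 1 0 (a.lift G) = C k * a.lift (D2 G) := a.e2_lift one_ne_zero cs G
    rw [hd2, this, ← mul_assoc, rr, one_mul]
  have hc : ∀ f, d1 (d2 f) = d2 (d1 f) := fun f => by
    simp only [hd1, hd2, der_mul, der_C, e1, e2]
    rw [cvf_comm]; ring
  obtain ⟨X, hX⟩ : ∃ X : R, X = C k * xx := ⟨_, rfl⟩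
  have X1 : d1 X = 1 := by
    rw [hd1, hX, der_mul, der_C, e1, cvf_ap]; simp [rr]
  have X2 : d2 X = 0 := by
    rw [hd2, hX, der_mul, der_C, e2, cvf_ap]; simp
  have X0 : X o = 0 := by simp [hX, o_val]
  obtain ⟨σ, hσ⟩ : ∃ σ : R, σ = -(C (1 / 12) * (X * X * X * X)) + a.lift τ := ⟨_, rfl⟩
  obtain ⟨E, hE⟩ : ∃ E : R, E = comp Real.exp Real.contDiff_exp (2 * σ) := ⟨_, rfl⟩
  have Ez : ∀ z : W, Real.exp (2 * (-(a.map z).1 ^ 4 / 12 + τ (a.map z))) = E z := fun z => by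
    have : (a.map z).1 = k * z.1.1 := by simp [Af.map, Af.lin_ap, a]
    rw [this]
    simp only [hE, hσ, hX, comp_ap, mul_ap, add_ap, neg_ap, C_ap, xx_ap, Af.lift_ap, ofNat_ap]
    congr 1; ring
  have key := darboux d1 d2 hc (F1 := a.lift F1) (F2 := a.lift F2) (F3 := a.lift F3) (E := E)
    (s1 := d1 σ) (s2 := d2 σ) (u := a.lift U) hn
    (fun z => by rw [hE, comp_ap]; exact (Real.exp_pos _).ne')
    (by ext z; simp only [l1, add_ap, mul_ap, Af.lift_ap]; rw [(hF _ (mem z)).1, Ez])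
    (by ext z; simp only [l2, add_ap, mul_ap, Af.lift_ap]; rw [(hF _ (mem z)).2.1, Ez])
    (by ext z; simp only [l1, l2, add_ap, mul_ap, Af.lift_ap]; rw [(hF _ (mem z)).2.2]; rfl)
    (by rw [hd1, hd1, hE, e1, cvf_comp, comp_deriv_exp, der_mul, der_ofNat]; ring)
    (by rw [hd2, hd2, hE, e2, cvf_comp, comp_deriv_exp, der_mul, der_ofNat]; ring)
    (by ext z; simp [hU, comb_ap])
  have lap : -(d1 (d1 σ) + d2 (d2 σ)) = X * X - a.lift (D1 (D1 τ)) - a.lift (D2 (D2 τ)) := by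
    have : C (1 / 12) * 12 = 1 := by ext z; simp
    simp only [hσ, map_add, map_neg, der_mul, der_C, X1, X2, l1, l2, Derivation.map_one_eq_zero,
      map_zero, mul_zero, add_zero, mul_one]
    linear_combination X * X * this
  rw [← neg_mul, lap, sq] at key
  obtain ⟨u, hu⟩ : ∃ u, u = a.lift U := ⟨_, rfl⟩
  have ao : a.map (o : W) = 0 := a.map_o
  have u1 : d1 u o = 0 := by rw [hu, l1, Af.lift_ap, ao, h1]
  have u2 : d2 u o = 0 := by rw [hu, l2, Af.lift_ap, ao, h2]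
  have u11 : d1 (d1 u) o = 0 := by rw [hu, l1, l1, Af.lift_ap, ao, h11]
  have u22 : d2 (d2 u) o = 0 := by rw [hu, l2, l2, Af.lift_ap, ao, h22]
  rw [← hu] at key
  have t0 : ∀ {G : Sm}, Flat G → a.lift G o = 0 := fun h => by rw [Af.lift_ap, ao, h.zero]
  have f1 : ∀ {G : Sm}, Flat G → Flat (D1 G) := fun h => h.dv _
  have f2 : ∀ {G : Sm}, Flat G → Flat (D2 G) := fun h => h.dv _
  have p := f1 (f1 hτ)
  have q := f2 (f2 hτ)
  have S0 : (X * X - a.lift (D1 (D1 τ)) - a.lift (D2 (D2 τ))) o = 0 := by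
    simp only [sub_ap, mul_ap, X0, t0 p, t0 q]; ring
  have S1 : d1 (X * X - a.lift (D1 (D1 τ)) - a.lift (D2 (D2 τ))) o = 0 := by
    simp only [map_sub, der_mul, l1, add_ap, sub_ap, mul_ap, X0, t0 (f1 p), t0 (f1 q)]; ring
  have S2 : d2 (X * X - a.lift (D1 (D1 τ)) - a.lift (D2 (D2 τ))) o = 0 := by
    simp only [map_sub, der_mul, l2, add_ap, sub_ap, mul_ap, X0, t0 (f2 p), t0 (f2 q)]; ring
  have u12 : d2 (d1 u) o = 0 := by
    have := congrArg (fun f : R => f o) key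
    simp only [sub_ap, mul_ap, add_ap, S0, u1, u2, u11, u22, hc, X0, t0 p, t0 q] at this
    apply mul_self_eq_zero.1
    linear_combination -this
  have g1 : (d1 (d1 u) - (d1 σ * d1 u - d2 σ * d2 u)) o = 0 := by simp [u1, u2, u11]
  have g2 : (d2 (d2 u) + (d1 σ * d1 u - d2 σ * d2 u)) o = 0 := by simp [u1, u2, u22]
  have g3 : (d1 (d2 u) - (d2 σ * d1 u + d1 σ * d2 u)) o = 0 := by simp [u1, u2, u12, hc]
  have e11 := second d1 d1 key g1 g2 g3 S0 S1 S1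
  have e12 := second d1 d2 key g1 g2 g3 S0 S1 S2
  have e22 := second d2 d2 key g1 g2 g3 S0 S2 S2
  have E0 : 0 < E o := by rw [hE, comp_ap]; exact Real.exp_pos _
  simp only [map_sub, map_add, der_mul, l1, l2, X1, X2, hc, add_ap, sub_ap, mul_ap, pow_ap, u1, u2,
    u11, u12, u22, X0, t0 (f1 (f1 p)), t0 (f1 (f1 q)), t0 (f1 (f2 p)), t0 (f1 (f2 q)),
    t0 (f2 (f2 p)), t0 (f2 (f2 q)), t0 (f2 (f1 p)), t0 (f2 (f1 q)), Derivation.map_one_eq_zero,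
    map_zero, mul_zero, add_zero, mul_one, zero_mul, sub_zero, one_ap, zero_ap] at e11 e12 e22
  obtain ⟨A, hA⟩ : ∃ A, A = d1 (d1 (d1 u)) o := ⟨_, rfl⟩
  obtain ⟨B, hB⟩ : ∃ A, A = d2 (d1 (d1 u)) o := ⟨_, rfl⟩
  obtain ⟨Cc, hC⟩ : ∃ A, A = d2 (d2 (d1 u)) o := ⟨_, rfl⟩
  obtain ⟨D, hD⟩ : ∃ A, A = d2 (d2 (d2 u)) o := ⟨_, rfl⟩
  rw [← hA, ← hB, ← hC] at e11
  rw [← hA, ← hB, ← hC, ← hD] at e12
  rw [← hB, ← hC, ← hD] at e22
  have D0 : D = 0 := by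
    have : D * E o = 0 := by linear_combination -D / 2 * e11 + Cc * e12 - B / 2 * e22
    exact (mul_eq_zero.1 this).resolve_right E0.ne'
  have C0 : Cc = 0 := by
    apply mul_self_eq_zero.1
    rw [D0] at e22
    linear_combination -e22 / 2
  rw [C0] at e11
  nlinarith [sq_nonneg B]

lemma eigen (A B C' : ℝ) : ∃ c s : ℝ, c ^ 2 + s ^ 2 = 1 ∧
    -(c * s) * A + (c ^ 2 - s ^ 2) * B + c * s * C' = 0 ∧
    A ≤ c ^ 2 * A + 2 * c * s * B + s ^ 2 * C' ∧ C' ≤ c ^ 2 * A + 2 * c * s * B + s ^ 2 * C' := by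
  let w : ℂ := ⟨(A - C') / 2, B⟩
  have h1 : ‖w‖ * Real.cos w.arg = (A - C') / 2 := Complex.norm_mul_cos_arg w
  have h2 : ‖w‖ * Real.sin w.arg = B := Complex.norm_mul_sin_arg w
  have h3 : |(A - C') / 2| ≤ ‖w‖ := Complex.abs_re_le_norm w
  obtain ⟨t, ht⟩ : ∃ t, w.arg = 2 * t := ⟨w.arg / 2, by ring⟩
  rw [ht, Real.cos_two_mul'] at h1
  rw [ht, Real.sin_two_mul] at h2
  have h4 := Real.cos_sq_add_sin_sq t
  have h5 : Real.cos t ^ 2 * A + 2 * Real.cos t * Real.sin t * B + Real.sin t ^ 2 * C' =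
      (A + C') / 2 + ‖w‖ := by
    linear_combination -(Real.cos t ^ 2 - Real.sin t ^ 2) * h1 - 2 * Real.cos t * Real.sin t * h2
      + ((A + C') / 2 + ‖w‖ * (Real.cos t ^ 2 + Real.sin t ^ 2 + 1)) * h4
  refine ⟨Real.cos t, Real.sin t, h4, ?_, ?_, ?_⟩
  · linear_combination 2 * Real.cos t * Real.sin t * h1 - (Real.cos t ^ 2 - Real.sin t ^ 2) * h2
  · rw [h5]; linarith [(abs_le.1 h3).2]
  · rw [h5]; linarith [(abs_le.1 h3).1]

end P229
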