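import Mathlib

open scoped ContDiff Topology
open Set MeasureTheory Metric

noncomputable section
namespace P229

abbrev P := ℝ × ℝ

def W : Set P := Metric.ball 0 4

lemma isOpen_W : IsOpen W := Metric.isOpen_ball

lemma mem_W {z : P} : z ∈ W ↔ ‖z‖ < 4 := by simp [W]

open Classical in
def ext (f : W → ℝ) : P → ℝ := fun z => if h : z ∈ W then f ⟨z, h⟩ else 0

lemma ext_of_mem (f : W → ℝ) {z : P} (h : z ∈ W) : ext f z = f ⟨z, h⟩ := by simp [ext, h]

lemma ext_of_not_mem (f : W → ℝ) {z : P} (h : z ∉ W) : ext f z = 0 := by simp [ext, h]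

@[simp] lemma ext_coe (f : W → ℝ) (z : W) : ext f z = f z := by simp [ext, z.2]

def Rs : Subalgebra ℝ (W → ℝ) where
  carrier := {f | ContDiffOn ℝ ∞ (ext f) W}
  mul_mem' := by
    intro f g hf hg
    refine (ContDiffOn.mul hf hg).congr ?_
    intro z hz
    simp [ext_of_mem _ hz]
  add_mem' := by
    intro f g hf hg
    refine (ContDiffOn.add hf hg).congr ?_
    intro z hz
    simp [ext_of_mem _ hz]
  algebraMap_mem' := by
    intro a
    refine (contDiffOn_const (c := a)).congr ?_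
    intro z hz
    simp [ext_of_mem _ hz]

def R : Type := Rs

instance : CommRing R := inferInstanceAs (CommRing Rs)
instance : Algebra ℝ R := inferInstanceAs (Algebra ℝ Rs)

def R.fn (f : R) : W → ℝ := Subtype.val f

instance : CoeFun R (fun _ => W → ℝ) := ⟨R.fn⟩

@[ext] lemma R.ext' {f g : R} (h : ∀ z, f z = g z) : f = g := Subtype.ext (funext h)

lemma R.smooth (f : R) : ContDiffOn ℝ ∞ (ext f) W := Subtype.prop f

/-- evaluation as a ring homomorphism -/
def ev (z : W) : R →+* ℝ where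
  toFun f := f z
  map_one' := rfl
  map_mul' _ _ := rfl
  map_zero' := rfl
  map_add' _ _ := rfl

def C : ℝ →+* R := algebraMap ℝ R

@[simp] lemma add_ap (f g : R) (z : W) : (f + g) z = f z + g z := rfl
@[simp] lemma mul_ap (f g : R) (z : W) : (f * g) z = f z * g z := rfl
@[simp] lemma sub_ap (f g : R) (z : W) : (f - g) z = f z - g z := map_sub (ev z) f g
@[simp] lemma neg_ap (f : R) (z : W) : (-f) z = -f z := map_neg (ev z) f
@[simp] lemma one_ap (z : W) : (1 : R) z = 1 := rfl
@[simp] lemma zero_ap (z : W) : (0 : R) z = 0 := rfl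
@[simp] lemma pow_ap (f : R) (n : ℕ) (z : W) : (f ^ n) z = f z ^ n := map_pow (ev z) f n
@[simp] lemma C_ap (a : ℝ) (z : W) : (C a) z = a := rfl
@[simp] lemma natCast_ap (n : ℕ) (z : W) : (n : R) z = n := map_natCast (ev z) n
@[simp] lemma ofNat_ap (n : ℕ) [n.AtLeastTwo] (z : W) :
    (no_index (OfNat.ofNat n) : R) z = OfNat.ofNat n := map_ofNat (ev z) n
@[simp] lemma smul_ap (a : ℝ) (f : R) (z : W) : (a • f) z = a * f z := rfl
lemma sum_ap {ι : Type*} (s : Finset ι) (f : ι → R) (z : W) :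
    (∑ i ∈ s, f i) z = ∑ i ∈ s, f i z := map_sum (ev z) f s

def mk (F : P → ℝ) (h : ContDiffOn ℝ ∞ F W) : R :=
  ⟨fun z => F z, h.congr fun z hz => by simp [ext_of_mem _ hz]⟩

@[simp] lemma mk_ap (F : P → ℝ) (h) (z : W) : mk F h z = F z := rfl

lemma R.contDiffAt (f : R) (z : W) : ContDiffAt ℝ ∞ (ext f) z :=
  f.smooth.contDiffAt (isOpen_W.mem_nhds z.2)

lemma R.diffAt (f : R) (z : W) : DifferentiableAt ℝ (ext f) z :=
  (f.contDiffAt z).differentiableAt (by simp)

lemma fderiv_ext_congr (f : R) {F : P → ℝ} (h : ∀ z : W, f z = F z) (z : W) :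
    fderiv ℝ (ext f) z = fderiv ℝ F z := by
  apply Filter.EventuallyEq.fderiv_eq
  filter_upwards [isOpen_W.mem_nhds z.2] with w hw
  rw [ext_of_mem _ hw, h]

def pdFun (v : P) (f : R) : R :=
  mk (fun z => fderiv ℝ (ext f) z v)
    ((f.smooth.fderiv_of_isOpen isOpen_W (m := ∞) (by simp)).clm_apply contDiffOn_const)

lemma pdFun_ap (v : P) (f : R) (z : W) : pdFun v f z = fderiv ℝ (ext f) z v := rfl

lemma pdFun_of (v : P) (f : R) {F : P → ℝ} (h : ∀ z : W, f z = F z) (z : W) :
    pdFun v f z = fderiv ℝ F z v := by rw [pdFun_ap, fderiv_ext_congr f h]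

def pd (v : P) : Derivation ℝ R R :=
  Derivation.mk'
    { toFun := pdFun v
      map_add' := by
        intro f g
        ext z
        rw [pdFun_of v (f + g) (F := fun w => ext f w + ext g w) (by intro w; simp),
          fderiv_fun_add (f.diffAt z) (g.diffAt z)]
        simp [pdFun_ap]
      map_smul' := by
        intro a f
        ext z
        rw [pdFun_of v (a • f) (F := fun w => a * ext f w) (by intro w; simp),
          fderiv_const_mul (f.diffAt z)]
        simp [pdFun_ap] }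
    (by
      intro f g
      ext z
      show pdFun v (f * g) z = (f * pdFun v g + g * pdFun v f) z
      rw [pdFun_of v (f * g) (F := fun w => ext f w * ext g w) (by intro w; simp),
        fderiv_fun_mul (f.diffAt z) (g.diffAt z)]
      simp [pdFun_ap])

lemma pd_ap (v : P) (f : R) (z : W) : pd v f z = fderiv ℝ (ext f) z v := rfl

lemma pd_of (v : P) (f : R) {F : P → ℝ} (h : ∀ z : W, f z = F z) (z : W) :
    pd v f z = fderiv ℝ F z v := pdFun_of v f h z

lemma pd_mk (v : P) (F : P → ℝ) (h) (z : W) : pd v (mk F h) z = fderiv ℝ F z v :=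
  pd_of v _ (fun _ => rfl) z

def dx : Derivation ℝ R R := pd (1, 0)
def dy : Derivation ℝ R R := pd (0, 1)

@[simp] lemma der_C (D : Derivation ℝ R R) (a : ℝ) : D (C a) = 0 := D.map_algebraMap a

@[simp] lemma der_ofNat (D : Derivation ℝ R R) (n : ℕ) [n.AtLeastTwo] :
    D (no_index (OfNat.ofNat n) : R) = 0 := D.map_natCast n

lemma der_mul (D : Derivation ℝ R R) (f g : R) : D (f * g) = f * D g + g * D f := D.leibniz f g

lemma pd_comm (v w : P) (f : R) : pd v (pd w f) = pd w (pd v f) := by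
  ext z
  have hs := (f.contDiffAt z).isSymmSndFDerivAt (by simp; norm_cast)
  have hd : DifferentiableAt ℝ (fderiv ℝ (ext f)) z :=
    ((f.contDiffAt z).fderiv_right (m := 1) (by norm_cast)).differentiableAt
      (by simp)
  have key : ∀ v w : P, pd v (pd w f) z = fderiv ℝ (fderiv ℝ (ext f)) z v w := by
    intro v w
    rw [pd_of v (pd w f) (F := fun y => fderiv ℝ (ext f) y w) (fun _ => rfl)]
    rw [fderiv_clm_apply hd (differentiableAt_const w)]
    simp
  rw [key, key, hs.eq]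

lemma dxy_comm (f : R) : dx (dy f) = dy (dx f) := pd_comm _ _ f

lemma pd_eq (v : P) (f : R) (z : W) : pd v f z = v.1 * dx f z + v.2 * dy f z := by
  have : v = v.1 • ((1, 0) : P) + v.2 • ((0, 1) : P) := by ext <;> simp
  rw [pd_ap]
  conv_lhs => rw [this]
  rw [map_add, map_smul, map_smul]
  rfl

/-- coordinates -/
def xx : R := mk (fun z => z.1) contDiff_fst.contDiffOn
def yy : R := mk (fun z => z.2) contDiff_snd.contDiffOn

@[simp] lemma xx_ap (z : W) : xx z = z.1.1 := rfl
@[simp] lemma yy_ap (z : W) : yy z = z.1.2 := rfl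

@[simp] lemma dx_xx : dx xx = 1 := by
  ext z; rw [dx, xx, pd_mk, fderiv_fst]; simp
@[simp] lemma dy_xx : dy xx = 0 := by
  ext z; rw [dy, xx, pd_mk, fderiv_fst]; simp
@[simp] lemma dx_yy : dx yy = 0 := by
  ext z; rw [dx, yy, pd_mk, fderiv_snd]; simp
@[simp] lemma dy_yy : dy yy = 1 := by
  ext z; rw [dy, yy, pd_mk, fderiv_snd]; simp

/-- composition with a smooth function of one variable -/
def comp (g : ℝ → ℝ) (hg : ContDiff ℝ ∞ g) (f : R) : R :=
  mk (fun z => g (ext f z)) (hg.comp_contDiffOn f.smooth)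

@[simp] lemma comp_ap (g : ℝ → ℝ) (hg) (f : R) (z : W) : comp g hg f z = g (f z) := by
  simp [comp]

lemma cd_deriv {g : ℝ → ℝ} (hg : ContDiff ℝ ∞ g) : ContDiff ℝ ∞ (deriv g) :=
  (contDiff_infty_iff_deriv.1 hg).2

lemma pd_comp (v : P) (g : ℝ → ℝ) (hg) (f : R) :
    pd v (comp g hg f) = comp (deriv g) (cd_deriv hg) f * pd v f := by
  ext z
  rw [comp, pd_mk]
  have h1 : HasDerivAt g (deriv g (ext f z)) (ext f z) :=
    (hg.differentiable (by simp) _).hasDerivAt
  have h2 := (h1.comp_hasFDerivAt (z : P) (f.diffAt z).hasFDerivAt).fderiv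
  have : (fun z => g (ext f z)) = g ∘ ext f := rfl
  rw [this, h2]
  simp [pd_ap]

/-- inverse of a nowhere vanishing function -/
def inv (f : R) (h : ∀ z, f z ≠ 0) : R :=
  mk (fun z => (ext f z)⁻¹) (f.smooth.inv fun z hz => by rw [ext_of_mem _ hz]; exact h _)

@[simp] lemma inv_ap (f : R) (h) (z : W) : inv f h z = (f z)⁻¹ := by simp [inv]

lemma mul_inv' (f : R) (h) : f * inv f h = 1 := by
  ext z; simp [mul_inv_cancel₀ (h z)]

def o : W := ⟨0, by simp [W]⟩

lemma norm_le_of (z : P) {t : ℝ} (h1 : |z.1| ≤ t) (h2 : |z.2| ≤ t) : ‖z‖ ≤ t := by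
  rw [Prod.norm_def]; exact max_le h1 h2

lemma abs_fst_le (z : P) : |z.1| ≤ ‖z‖ := norm_fst_le z
lemma abs_snd_le (z : P) : |z.2| ≤ ‖z‖ := norm_snd_le z
lemma W.norm_lt (z : W) : ‖(z : P)‖ < 4 := mem_W.1 z.2

/-- mean value inequality -/
lemma mean_value (f : R) {K : ℝ} (h1 : ∀ z, |dx f z| ≤ K) (h2 : ∀ z, |dy f z| ≤ K) (z : W) :
    |f z - f o| ≤ 2 * K * ‖(z : P)‖ := by
  have hK : 0 ≤ K := (abs_nonneg _).trans (h1 o)
  have := (convex_ball (0 : P) 4).norm_image_sub_le_of_norm_fderiv_le (𝕜 := ℝ) (f := ext f)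
    (C := 2 * K) (fun w hw => f.diffAt ⟨w, hw⟩) (fun w hw => ?_) o.2 z.2
  · simpa [o, ext_of_mem _ (show (0 : P) ∈ W from o.2)] using this
  · refine ContinuousLinearMap.opNorm_le_bound _ (by positivity) fun v => ?_
    have e := pd_eq v f ⟨w, hw⟩
    rw [pd_ap] at e
    rw [Real.norm_eq_abs]
    erw [e]
    have a1 := abs_fst_le v
    have a2 := abs_snd_le v
    calc _ ≤ |v.1 * dx f ⟨w, hw⟩| + |v.2 * dy f ⟨w, hw⟩| := abs_add_le _ _
      _ ≤ ‖v‖ * K + ‖v‖ * K := by
        rw [abs_mul, abs_mul]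
        gcongr
        · exact h1 _
        · exact h2 _
      _ = _ := by ring

/-- locally vanishing functions have vanishing derivative -/
lemma pd_eq_zero_of_open (v : P) (f : R) {V : Set P} (hV : IsOpen V)
    (h : ∀ z : W, (z : P) ∈ V → f z = 0) (z : W) (hz : (z : P) ∈ V) : pd v f z = 0 := by
  rw [pd_ap]
  have : ext f =ᶠ[𝓝 (z : P)] fun _ => 0 := by
    filter_upwards [isOpen_W.mem_nhds z.2, hV.mem_nhds hz] with w hw hw'
    rw [ext_of_mem _ hw, h _ hw']
  rw [this.fderiv_eq]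
  simp

lemma R.continuous (f : R) : Continuous (fun z : W => f z) := by
  have := (f.smooth.continuousOn).domRestrict
  refine this.congr fun z => by simp

end P229
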