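import Vale.Agent.P229.Energy

open scoped ContDiff Topology
open Set MeasureTheory Metric Filter

noncomputable section
namespace P229

variable {ι : Type*} {m : ℕ}

namespace Core
open Core0
variable (S : Core ι m)

lemma ell_single (i) {ρ ε K Kr KL : ℝ} (hρ : ρ < 4) (hε : 0 < ε) (hKr : 0 ≤ Kr)
    {p w v1 v2 κ c b b' q Sg : R} (hp : Supp ρ p) (p0 : ∀ z, 0 ≤ p z) (p1 : ∀ z, p z ≤ 1)
    (h1 : S.X i w = v1) (h2 : S.D i w = v2)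
    (heq : S.D i v2 + κ * S.X i v1 + c * S.X i v2 = -(b * v1 + b' * v2 + q))
    (hL : ∀ z, S.L i z ≤ KL)
    (hell : ∀ z, p z ≠ 0 → 2 * ε * (v1 z ^ 2 + v2 z ^ 2) ≤
      v2 z ^ 2 + κ z * v1 z ^ 2 + c z * v1 z * v2 z)
    (hM1 : ∀ z, |(p * b - 2 * S.X i p * κ - p * S.X i κ) z| ≤ K)
    (hM2 : ∀ z, |(p * b' - 2 * S.D i p - 2 * S.X i p * c - p * S.X i c) z| ≤ K)
    (hw : ∀ z, w z ^ 2 ≤ Sg z)
    (hq : ∀ z : W, ‖(z : P)‖ ≤ ρ → p z ≠ 0 → q z ^ 2 ≤ Kr * Sg z) :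
    S.c0 * ε * I ρ (p * p * (v1 ^ 2 + v2 ^ 2)) ≤ KL * ((K ^ 2 / ε + 1 + Kr) * I ρ Sg) := by
  have hid := S.ell_id i hρ (η := p * p) (hp.mul_right _) h1 h2 heq
  rw [← I_C_mul hρ (K ^ 2 / ε + 1 + Kr)]
  have Sg0 : ∀ z, 0 ≤ Sg z := fun z => (sq_nonneg _).trans (hw z)
  refine int_ineq hρ S.hc0.le hε.le hid (S.Lpos i) hL (fun z _ => ?_) (fun z _ => ?_)
    fun z hz => ?_
  · simp only [mul_ap, add_ap, pow_ap]; have := p0 z; positivity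
  · simp only [mul_ap, C_ap]; have := Sg0 z; positivity
  set M1 := p * b - 2 * S.X i p * κ - p * S.X i κ with eM1
  set M2 := p * b' - 2 * S.D i p - 2 * S.X i p * c - p * S.X i c with eM2
  have e : p * p * (v2 ^ 2 + κ * v1 ^ 2 + c * v1 * v2) +
      w * (S.D i (p * p) * v2 + S.X i (p * p * κ) * v1 + S.X i (p * p * c) * v2) -
      p * p * w * (b * v1 + b' * v2 + q) =
      p * p * (v2 ^ 2 + κ * v1 ^ 2 + c * v1 * v2) - p * w * (M1 * v1 + M2 * v2) - p * p * w * q := by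
    simp only [der_mul, eM1, eM2]; ring
  rw [e]
  have m1 : M1 z ^ 2 ≤ K ^ 2 := sq_le_sq' (abs_le.1 (hM1 z)).1 (abs_le.1 (hM1 z)).2
  have m2 : M2 z ^ 2 ≤ K ^ 2 := sq_le_sq' (abs_le.1 (hM2 z)).1 (abs_le.1 (hM2 z)).2
  simp only [mul_ap, add_ap, sub_ap, pow_ap, C_ap]
  have hw' := hw z
  have S0 := Sg0 z
  by_cases hp0 : p z = 0
  · simp only [hp0]
    have : 0 ≤ (K ^ 2 / ε + 1 + Kr) * Sg z := by positivity
    linarith
  have t1 := mul_le_mul_of_nonneg_left (hell z hp0) (mul_self_nonneg (p z))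
  have t2 := amgm hε (p z * v1 z) (w z * M1 z)
  have t3 := amgm hε (p z * v2 z) (w z * M2 z)
  have t4 : (w z * M1 z) ^ 2 / ε ≤ K ^ 2 / ε * Sg z := by
    rw [mul_pow, div_mul_eq_mul_div, mul_comm (K ^ 2)]; gcongr
  have t5 : (w z * M2 z) ^ 2 / ε ≤ K ^ 2 / ε * Sg z := by
    rw [mul_pow, div_mul_eq_mul_div, mul_comm (K ^ 2)]; gcongr
  have t6 := hq z hz hp0
  have t7 : p z * p z ≤ 1 := mul_le_one₀ (p1 z) (p0 z) (p1 z)
  have t8 : p z * p z * (w z * q z) ≤ Sg z + Kr * Sg z := by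
    have : p z * p z * (w z ^ 2 + q z ^ 2) ≤ 1 * (w z ^ 2 + q z ^ 2) := by gcongr
    nlinarith [mul_nonneg (mul_self_nonneg (p z)) (sq_nonneg (w z - q z)), sq_nonneg (w z),
      sq_nonneg (q z)]
  have t9 : 0 ≤ ε * (p z * p z * (v1 z ^ 2 + v2 z ^ 2)) :=
    mul_nonneg hε.le (mul_nonneg (mul_self_nonneg _) (by positivity))
  nlinarith

lemma main_single (i) {ρ ε K KL : ℝ} (hρ : ρ < 4) (hε : 0 < ε) (hK : 0 ≤ K)
    {p η v1 v2 κ c b b' q Y : R} (hp : Supp ρ p) (p0 : ∀ z, 0 ≤ p z) (p1 : ∀ z, p z ≤ 1)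
    (η0 : ∀ z, 0 ≤ η z) (h12 : S.D i v1 = S.X i v2)
    (heq : S.D i v2 + κ * S.X i v1 + c * S.X i v2 = -(b * v1 + b' * v2 + q))
    (hL : ∀ z, S.L i z ≤ KL)
    (hP : ∀ z, (κ + 2 * S.xi i * S.X i κ - yy * S.D i κ - 4 * S.xi i * b + 2 * S.xi i * S.D i c) z
        * v1 z ^ 2 + (-1 + yy * S.X i c - 2 * yy * b') z * v2 z ^ 2 +
        (2 * yy * S.X i κ - 4 * S.xi i * b' - 2 * yy * b) z * v1 z * v2 z ≤
        -(2 * ε) * (v1 z ^ 2 + v2 z ^ 2))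
    (hH1 : ∀ z, |(2 * S.X i p * S.xi i * κ + 2 * S.D i p * S.xi i * c - S.D i p * yy * κ) z|
      ≤ K * η z)
    (hH2 : ∀ z, |(-2 * S.X i p * S.xi i + S.D i p * yy + S.X i p * yy * c) z| ≤ K * η z)
    (hH3 : ∀ z, |(4 * S.D i p * S.xi i + 2 * S.X i p * yy * κ) z| ≤ K * η z)
    (hq : ∀ z : W, ‖(z : P)‖ ≤ ρ → (4 * S.xi i z ^ 2 + z.1.2 ^ 2) * q z ^ 2 ≤ Y z) :
    S.c0 * ε * I ρ (p * (v1 ^ 2 + v2 ^ 2)) ≤
      KL * (2 * K * I ρ (η * (v1 ^ 2 + v2 ^ 2)) + ε⁻¹ * I ρ Y) := by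
  have hid := S.energy_id i hρ (B := -2 * p * S.xi i) (G := -p * yy)
    ((hp.mul_left _).mul_right _) (hp.neg.mul_right _) h12 heq
  have hid' := (I_neg hρ _).trans (neg_eq_zero.2 hid)
  rw [← mul_neg] at hid'
  rw [← I_C_mul hρ (2 * K), ← I_C_mul hρ ε⁻¹, ← I_add hρ]
  have Y0 : ∀ z : W, ‖(z : P)‖ ≤ ρ → 0 ≤ Y z := fun z hz => le_trans (by positivity) (hq z hz)
  refine int_ineq hρ S.hc0.le hε.le hid' (S.Lpos i) hL (fun z _ => ?_) (fun z hz => ?_)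
    fun z hz => ?_
  · simp only [mul_ap, add_ap, pow_ap]; have := p0 z; positivity
  · simp only [mul_ap, add_ap, pow_ap, C_ap]; have := η0 z; have := Y0 z hz; positivity
  set P1 := κ + 2 * S.xi i * S.X i κ - yy * S.D i κ - 4 * S.xi i * b + 2 * S.xi i * S.D i c
    with eP1
  set P2 := -1 + yy * S.X i c - 2 * yy * b' with eP2
  set P3 := 2 * yy * S.X i κ - 4 * S.xi i * b' - 2 * yy * b with eP3
  set H1 := 2 * S.X i p * S.xi i * κ + 2 * S.D i p * S.xi i * c - S.D i p * yy * κ with eH1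
  set H2 := -2 * S.X i p * S.xi i + S.D i p * yy + S.X i p * yy * c with eH2
  set H3 := 4 * S.D i p * S.xi i + 2 * S.X i p * yy * κ with eH3
  have e : (-S.X i (-2 * p * S.xi i * κ) - S.D i (-2 * p * S.xi i * c) + S.D i (-p * yy * κ))
      * v1 ^ 2 + (S.X i (-2 * p * S.xi i) - S.D i (-p * yy) - S.X i (-p * yy * c)) * v2 ^ 2
      - 2 * (S.D i (-2 * p * S.xi i) + S.X i (-p * yy * κ)) * v1 * v2 +
      2 * (-2 * p * S.xi i * v1 + -p * yy * v2) * (b * v1 + b' * v2 + q) =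
      p * (P1 * v1 ^ 2 + P2 * v2 ^ 2 + P3 * v1 * v2) + (H1 * v1 ^ 2 + H2 * v2 ^ 2 + H3 * v1 * v2)
        - 2 * p * (2 * S.xi i * v1 + yy * v2) * q := by
    simp only [der_mul, map_neg, der_ofNat, S.X_xi, S.D_xi, S.X_yy, S.D_yy, eP1, eP2, eP3, eH1,
      eH2, eH3]
    ring
  rw [e]
  have t1 := mul_le_mul_of_nonneg_left (hP z) (p0 z)
  have t2 := hquad (v1 z) (v2 z) (hH1 z) (hH2 z) (hH3 z)
  have t3 := mul_le_mul_of_nonneg_left (amgm hε (v1 z) (-(2 * S.xi i z * q z))) (p0 z)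
  have t4 := mul_le_mul_of_nonneg_left (amgm hε (v2 z) (-(z.1.2 * q z))) (p0 z)
  have t5 : p z * ((-(2 * S.xi i z * q z)) ^ 2 / ε) + p z * ((-(z.1.2 * q z)) ^ 2 / ε)
      ≤ ε⁻¹ * Y z := by
    calc _ = p z * (ε⁻¹ * ((4 * S.xi i z ^ 2 + z.1.2 ^ 2) * q z ^ 2)) := by field_simp; ring
      _ ≤ 1 * (ε⁻¹ * Y z) := by
        gcongr
        · exact p1 z
        · exact hq z hz
      _ = _ := one_mul _
  simp only [mul_ap, add_ap, sub_ap, pow_ap, C_ap, neg_ap, ofNat_ap, yy_ap]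
  nlinarith

end Core
end P229
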