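import Vale.Agent.P229.Step

open scoped ContDiff Topology
open Set MeasureTheory Metric Filter

noncomputable section
namespace P229

variable {ι : Type*} {m : ℕ}

lemma le_eta {h K η : ℝ} (h1 : |h| ≤ K) (h0 : 0 ≤ η) (hK : 0 ≤ K) (h2 : h ≠ 0 → η = 1) :
    |h| ≤ K * η := by
  by_cases h3 : h = 0
  · rw [h3, abs_zero]; positivity
  · rw [h2 h3, mul_one]; exact h1

lemma one_le_SS (z : W) (hz : 3 / 2 ≤ ‖(z : P)‖) : 1 ≤ SS z := by
  simp only [SS, sub_ap, add_ap, pow_ap, xx_ap, yy_ap, one_ap]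
  rw [Prod.norm_def] at hz
  rcases le_max_iff.1 hz with h | h <;> rw [Real.norm_eq_abs] at h
  · nlinarith [sq_abs z.1.1, sq_nonneg z.1.2]
  · nlinarith [sq_abs z.1.2, sq_nonneg z.1.1]

namespace Core
open Core0
variable (S : Core ι m)

lemma bd_e5 : Bd one' (fun i => C (S.r i)⁻¹ * (S.xi i * S.A i - xx)) := by
  obtain ⟨K, hK, h⟩ := S.sm1
  refine ⟨K * 4, by positivity, fun i z => ?_⟩
  have := S.r0 i
  simp only [mul_ap, C_ap, sub_ap, xx_ap, one', mul_one, abs_mul, abs_inv, abs_of_pos this]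
  rw [inv_mul_le_iff₀ this]
  refine (h i z).trans ?_
  have := (W.norm_lt z).le
  calc K * S.r i * ‖(z : P)‖ ≤ K * S.r i * 4 := by gcongr
    _ = _ := by ring

set_option maxHeartbeats 2000000 in
theorem step (k : ℕ) (hk : k + 2 ≤ m) : ∀ᶠ r in 𝓝[>] (0 : ℝ), ∀ J : Set ι,
    (∀ i ∈ J, S.r i = r ∧ S.c1 ≤ S.la i) → ∀ (ρ1 ρ2 : ℝ) (N : ℕ), 2 < ρ1 → ρ1 < ρ2 → ρ2 ≤ 3 →
    S.Hyp J ρ2 N → N ≤ m → 1 ≤ N → k + 5 ≤ 2 * N + 1 → S.En J ρ2 (k + 1) → S.En J ρ1 (k + 2) := by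
  obtain ⟨k1, c1, b1, b2, bk1, bc1, bXk, bDk, bXc, bDc, bb1, bb2, hlow⟩ := S.eqn k
  have be5 := S.bd_e5
  have bnu := S.sm2
  have bxi := S.bxi.bd
  have bA := S.bA.bd
  have bx : Bd one' (fun _ : ι => xx) := (B.xx (d := 0)).bd
  have by' : Bd one' (fun _ : ι => yy) := (B.yy (d := 0)).bd
  have bt0 := S.bt0.bd
  have br := S.br.bd
  have bk : Bd one' (fun _ : ι => ((k + 2 : ℕ) : R)) := bd_nat _
  have b2' : Bd one' (fun _ : ι => (2 : R)) := bd_ofNat 2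
  have b4 : Bd one' (fun _ : ι => (4 : R)) := bd_ofNat 4
  have b8 : Bd one' (fun _ : ι => (8 : R)) := bd_ofNat 8
  have b12 : Bd one' (fun _ : ι => (12 : R)) := bd_ofNat 12
  have bE1 : Bd one' (fun i => -(C (S.t0 i) * ((8 * ((k + 2 : ℕ) : R) + 12) * xx *
      (C (S.r i)⁻¹ * (S.xi i * S.A i - xx)) + 2 * xx * yy * (C (S.r i)⁻¹ * S.nu i))) + k1 i +
      2 * S.xi i * S.X i (k1 i) - yy * S.D i (k1 i) - 4 * S.xi i * b1 i +
      2 * S.xi i * S.D i (c1 i)) := by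
    repeat' first | assumption | apply Bd.add | apply Bd.sub | apply Bd.neg | apply Bd.mul1
  have bE2 : Bd one' (fun i => yy * S.X i (c1 i) - 2 * yy * b2 i) := by
    repeat' first | assumption | apply Bd.add | apply Bd.sub | apply Bd.neg | apply Bd.mul1
  have bE3 : Bd one' (fun i => C (S.t0 i) * (4 * xx * yy * S.A i -
      4 * (((k + 2 : ℕ) : R) + 2) * xx * yy * S.A i) + C (S.r i) * (2 * yy * S.X i (k1 i) -
      4 * S.xi i * b2 i - 2 * yy * b1 i)) := by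
    repeat' first | assumption | apply Bd.add | apply Bd.sub | apply Bd.neg | apply Bd.mul1
  obtain ⟨K1, hK1, e1⟩ := bE1.get
  obtain ⟨K2, hK2, e2⟩ := bE2.get
  obtain ⟨K3, hK3, e3⟩ := bE3.get
  obtain ⟨K4, hK4, e4⟩ := bk1.neg.get
  obtain ⟨K5, hK5, e5⟩ := (br.mul1 bc1).neg.get
  obtain ⟨KL, hKL, eL⟩ := S.L_le
  obtain ⟨Kx, hKx, ex⟩ := S.xi_le
  have hc0 := S.hc0
  have hc1 := S.hc1
  set K := K1 + K2 + K3 + K4 + K5 with hKdef
  filter_upwards [ev_small K (half_pos hc0), ev_small K (show (0 : ℝ) < 1 / 2 by norm_num),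
    ev_small (K ^ 2) (show 0 < S.c0 / 4 by positivity), ev_small S.c0 zero_lt_one,
    self_mem_nhdsWithin] with r a1 a2 a3 a4 hr
  intro J hJ ρ1 ρ2 N hρ1 hρ12 hρ2 H hN hN1 hkN hEn
  have hr : 0 < r := hr
  have hρ4 : ρ2 < 4 := by linarith
  obtain ⟨p, pB, p0, p1, p2, p3⟩ := exists_cut ι (a := ρ1) (b := (ρ1 + ρ2) / 2) (by linarith)
    (by linarith)
  obtain ⟨po, poB, po0, po1, po2, po3⟩ := exists_cut ι (a := (ρ1 + ρ2) / 2) (b := ρ2)
    (by linarith) (by linarith)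
  obtain ⟨pi, piB, pi0, pi1, pi2, pi3⟩ := exists_cut ι (a := 3 / 2) (b := 2) (by norm_num)
    (by norm_num)
  obtain ⟨e, he⟩ : ∃ e : R, e = po * (1 - pi) := ⟨_, rfl⟩
  have eB : B 1 (fun _ : ι => e) := ((poB 1).mul (B.one.sub (piB 1))).congr fun _ => he
  have e0 : ∀ z, 0 ≤ e z := fun z => by
    rw [he]; simpa using mul_nonneg (po0 z) (sub_nonneg.2 (pi1 z))
  have e1' : ∀ z, e z ≤ 1 := fun z => by
    rw [he]; simpa using mul_le_one₀ (po1 z) (sub_nonneg.2 (pi1 z)) (by linarith [pi0 z])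
  have esupp : Supp ρ2 e := fun z hz => by rw [he]; simp [po3 z hz.le]
  have psupp : Supp ((ρ1 + ρ2) / 2) p := fun z hz => p3 z hz.le
  have ene : ∀ z, e z ≠ 0 → 3 / 2 < ‖(z : P)‖ := fun z hz => by
    by_contra h
    exact hz (by rw [he]; simp [pi2 z (not_lt.1 h)])
  have eone : ∀ i z, S.X i p z ≠ 0 ∨ S.D i p z ≠ 0 → (e * e) z = 1 := by
    intro i z hz
    have h1 : ρ1 ≤ ‖(z : P)‖ := by
      by_contra h
      have q1 : dx p z = 0 := pd_eq_zero_of_one p2 _ z (not_le.1 h)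
      have q2 : dy p z = 0 := pd_eq_zero_of_one p2 _ z (not_le.1 h)
      simp [S.hX, S.hD, q1, q2] at hz
    have h2 : ‖(z : P)‖ ≤ (ρ1 + ρ2) / 2 := by
      by_contra h
      simp [S.suppX i psupp z (not_le.1 h), S.suppD i psupp z (not_le.1 h)] at hz
    rw [he]; simp [po2 z h2, pi3 z (by linarith)]
  obtain ⟨κ, hκ⟩ : ∃ κ : ι → R, ∀ i, κ i = C (S.r i ^ 2 * S.t0 i) * SS + C (S.r i ^ 3) * k1 i :=
    ⟨_, fun _ => rfl⟩
  obtain ⟨c, hc⟩ : ∃ c : ι → R, ∀ i, c i = C (S.r i ^ 3) * c1 i := ⟨_, fun _ => rfl⟩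
  obtain ⟨b, hb⟩ : ∃ b : ι → R, ∀ i, b i = C (S.r i ^ 2 * S.t0 i) *
    (2 * (((k + 2 : ℕ) : R) + 2) * xx * S.A i) + C (S.r i ^ 3) * b1 i := ⟨_, fun _ => rfl⟩
  obtain ⟨b', hb'⟩ : ∃ b' : ι → R, ∀ i, b' i = C (S.r i ^ 3) * b2 i := ⟨_, fun _ => rfl⟩
  obtain ⟨q, hq⟩ : ∃ q : ι → R, ∀ i, q i = -(S.D i (S.n (k + 2) i) + κ i * S.a (k + 3) i +
    c i * S.n (k + 3) i + b i * S.a (k + 2) i + b' i * S.n (k + 2) i) := ⟨_, fun _ => rfl⟩
  obtain ⟨Kq, hKq, eq⟩ : S.Low J ρ2 (k + 1) (k + 5) q :=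
    (hlow J ρ2 N H hN hN1 (by omega) hkN).congr fun i => by rw [hq, hκ, hc, hb, hb']
  have heq : ∀ i, S.D i (S.n (k + 2) i) + κ i * S.X i (S.a (k + 2) i) +
      c i * S.X i (S.n (k + 2) i) = -(b i * S.a (k + 2) i + b' i * S.n (k + 2) i + q i) := by
    intro i; rw [hq, S.X_a, S.X_n]; ring
  have bθ := ((S.br.pow 2).mul S.bt0).bd
  have br3 := (S.br.pow 3).bd
  have bSS : Bd one' (fun _ : ι => SS) := Sys.bd_to_one (S.gSS (d := 0) (s := 0) (by omega)).bd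
    (by omega)
  have hXκ : ∀ i, S.X i (κ i) = C (S.r i ^ 2 * S.t0 i) * (2 * xx * S.A i) +
      C (S.r i ^ 3) * S.X i (k1 i) := fun i => by
    rw [hκ]; simp only [map_add, der_mul, der_C, S.X_SS]; ring
  have hDκ : ∀ i, S.D i (κ i) = C (S.r i ^ 2 * S.t0 i) * (2 * xx * S.nu i + 2 * yy) +
      C (S.r i ^ 3) * S.D i (k1 i) := fun i => by
    rw [hκ]; simp only [map_add, der_mul, der_C, S.D_SS]; ring
  have hXc : ∀ i, S.X i (c i) = C (S.r i ^ 3) * S.X i (c1 i) := fun i => by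
    rw [hc]; simp only [der_mul, der_C]; ring
  have hDc : ∀ i, S.D i (c i) = C (S.r i ^ 3) * S.D i (c1 i) := fun i => by
    rw [hc]; simp only [der_mul, der_C]; ring
  have bκ : Bd one' κ := ((bθ.mul1 bSS).add (br3.mul1 bk1)).congr hκ
  have bc : Bd one' c := (br3.mul1 bc1).congr hc
  have bb : Bd one' b := by
    refine Bd.congr ?_ hb
    repeat' first | assumption | apply Bd.add | apply Bd.mul1
  have bb' : Bd one' b' := (br3.mul1 bb2).congr hb'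
  have bXκ : Bd one' (fun i => S.X i (κ i)) := by
    refine Bd.congr ?_ hXκ
    repeat' first | assumption | apply Bd.add | apply Bd.mul1
  have bXc' : Bd one' (fun i => S.X i (c i)) := (br3.mul1 bXc).congr hXc
  have bXp := (BX (S := S.toCore0) (pB 1) (by norm_num)).bd
  have bDp := (BD (S := S.toCore0) (pB 1) (by norm_num)).bd
  have bXe := (BX (S := S.toCore0) eB (by norm_num)).bd
  have bDe := (BD (S := S.toCore0) eB (by norm_num)).bd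
  have be := eB.bd
  have bH1 : Bd one' (fun i => 2 * S.X i p * S.xi i * κ i + 2 * S.D i p * S.xi i * c i -
      S.D i p * yy * κ i) := by
    repeat' first | assumption | apply Bd.add | apply Bd.sub | apply Bd.neg | apply Bd.mul1
  have bH2 : Bd one' (fun i => -2 * S.X i p * S.xi i + S.D i p * yy + S.X i p * yy * c i) := by
    repeat' first | assumption | apply Bd.add | apply Bd.sub | apply Bd.mul1 | apply Bd.neg
  have bH3 : Bd one' (fun i => 4 * S.D i p * S.xi i + 2 * S.X i p * yy * κ i) := by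
    repeat' first | assumption | apply Bd.add | apply Bd.sub | apply Bd.neg | apply Bd.mul1
  have bM1 : Bd one' (fun i => e * b i - 2 * S.X i e * κ i - e * S.X i (κ i)) := by
    repeat' first | assumption | apply Bd.add | apply Bd.sub | apply Bd.neg | apply Bd.mul1
  have bM2 : Bd one' (fun i => e * b' i - 2 * S.D i e - 2 * S.X i e * c i - e * S.X i (c i)) := by
    repeat' first | assumption | apply Bd.add | apply Bd.sub | apply Bd.neg | apply Bd.mul1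
  obtain ⟨H1, hH1, f1⟩ := bH1.get
  obtain ⟨H2, hH2, f2⟩ := bH2.get
  obtain ⟨H3, hH3, f3⟩ := bH3.get
  obtain ⟨M1, hM1, g1⟩ := bM1.get
  obtain ⟨M2, hM2, g2⟩ := bM2.get
  obtain ⟨KE, hKE, hE⟩ := hEn
  obtain ⟨ε, hε⟩ : ∃ ε, ε = r ^ 2 * S.c0 / 8 := ⟨_, rfl⟩
  have ε0 : 0 < ε := by rw [hε]; positivity
  obtain ⟨Ky, hKy⟩ : ∃ Ky, Ky = (4 * Kx ^ 2 + 1) * Kq := ⟨_, rfl⟩
  have Ky0 : 0 ≤ Ky := by rw [hKy]; positivity
  refine ⟨KE + (S.c0 * ε)⁻¹ * (KL * (2 * (H1 + H2 + H3) * ((S.c0 * ε)⁻¹ * (KL *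
    (((M1 + M2) ^ 2 / ε + 1 + Kq) * KE))) + ε⁻¹ * (Ky * 16 * KE + Ky * S.c1 ^ 2 * (4 * S.c1 ^ 2)))),
    by positivity, fun i hi => ?_⟩
  obtain ⟨hri, hla⟩ := hJ i hi
  have la0 := S.la0 i
  have hr1 : r ≤ 1 := hri ▸ S.r1 i
  have hee : ∀ z, 0 ≤ (e * e) z := fun z => by simpa using mul_self_nonneg (e z)
  have A1 := S.ell_single i (ε := ε) (K := M1 + M2) (Kr := Kq) (Sg := S.Sg (k + 1) i) hρ4 ε0 hKq
    esupp e0 e1' (S.X_a (k + 1) i) (S.D_a (k + 1) i) (heq i) (eL i) (fun z hz => ?_)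
    (fun z => (g1 i z).trans (by linarith)) (fun z => (g2 i z).trans (by linarith))
    (fun z => ?_) (fun z hz hz' => ?_)
  rotate_left
  · have := quad (S.a (k + 2) i z) (S.n (k + 2) i z) hr hr1 hc0 (S.ht0 i)
      (one_le_SS z (ene z hz).le) (K := K) (E2 := 0) ((e4 i z).trans (by linarith))
      (by rw [abs_zero]; positivity) ((e5 i z).trans (by linarith)) a1 a2 a3 a4
    rw [hκ, hc, hε]
    simp only [mul_ap, add_ap, C_ap, neg_ap, hri] at this ⊢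
    nlinarith
  · have := S.sq_le_Sg (le_refl (k + 1)) i z
    nlinarith [sq_nonneg (S.n (k + 1) i z)]
  · have := eq i hi z hz
    rwa [S.sth i z (lt_of_le_of_lt ((div_le_one la0).2 hla) (by linarith [ene z hz'])),
      mul_zero, add_zero] at this
  have A2 := S.main_single i (ε := ε) (K := H1 + H2 + H3) (η := e * e)
    (Y := C (Ky * 16) * S.Sg (k + 1) i +
      C (Ky * S.c1 ^ 2 * (S.al i * S.la i ^ (k + 4)) ^ 2) * S.th i) hρ4 ε0 (by positivity)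
    (psupp.mono (by linarith)) p0 p1 hee ((S.D_a (k + 2) i).trans (S.X_n (k + 2) i).symm) (heq i)
    (eL i) (fun z => ?_)
    (fun z => le_eta ((f1 i z).trans (by linarith)) (hee z) (by positivity) fun h => eone i z ?_)
    (fun z => le_eta ((f2 i z).trans (by linarith)) (hee z) (by positivity) fun h => eone i z ?_)
    (fun z => le_eta ((f3 i z).trans (by linarith)) (hee z) (by positivity) fun h => eone i z ?_)
    (fun z hz => ?_)
  rotate_left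
  · have := quad (S.a (k + 2) i z) (S.n (k + 2) i z) hr hr1 hc0 (S.ht0 i)
      (s := 1 + z.1.2 ^ 2 + (8 * (k + 2) + 11) * z.1.1 ^ 2)
      (by have : 0 ≤ (8 * ((k : ℝ) + 2) + 11) * z.1.1 ^ 2 := by positivity
          nlinarith [sq_nonneg z.1.2]) (K := K) ((e1 i z).trans (by linarith))
      ((e2 i z).trans (by linarith)) ((e3 i z).trans (by linarith)) a1 a2 a3 a4
    refine le_of_eq_of_le ?_ (this.trans_eq (by rw [hε]; ring))
    simp only [hXκ, hDκ, hXc, hDc]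
    simp only [hκ, hb, hb', SS, mul_ap, add_ap, sub_ap, neg_ap, C_ap, ofNat_ap, natCast_ap,
      pow_ap, xx_ap, yy_ap, one_ap, hri]
    push_cast
    field_simp
    ring
  · by_contra h'
    push Not at h'
    simp [h'.1, h'.2] at h
  · by_contra h'
    push Not at h'
    simp [h'.1, h'.2] at h
  · by_contra h'
    push Not at h'
    simp [h'.1, h'.2] at h
  · have h1 := eq i hi z hz
    have h2 : 4 * S.xi i z ^ 2 + z.1.2 ^ 2 ≤ (4 * Kx ^ 2 + 1) * ‖(z : P)‖ ^ 2 := by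
      have := sq_le_sq' (abs_le.1 (ex i z)).1 (abs_le.1 (ex i z)).2
      have := sq_le_sq' (abs_le.1 (abs_snd_le z.1)).1 (abs_le.1 (abs_snd_le z.1)).2
      nlinarith
    have h3 : ‖(z : P)‖ ^ 2 ≤ 16 := by nlinarith [W.norm_lt z, norm_nonneg (z : P)]
    have h4 : ‖(z : P)‖ ^ 2 * ((S.al i * S.la i ^ (k + 5)) ^ 2 * S.th i z) ≤
        S.c1 ^ 2 * (S.al i * S.la i ^ (k + 4)) ^ 2 * S.th i z := by
      by_cases h : S.c1 / S.la i < ‖(z : P)‖
      · simp [S.sth i z h]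
      · have h5 : ‖(z : P)‖ * S.la i ≤ S.c1 := (le_div_iff₀ la0).1 (not_lt.1 h)
        have h6 : (‖(z : P)‖ * S.la i) ^ 2 ≤ S.c1 ^ 2 := by gcongr
        have := S.th0 i z
        calc _ = (‖(z : P)‖ * S.la i) ^ 2 * (S.al i * S.la i ^ (k + 4)) ^ 2 * S.th i z := by ring
          _ ≤ _ := by gcongr
    have S0 := S.one_le_Sg (k + 1) i z
    simp only [add_ap, mul_ap, C_ap]
    calc _ ≤ ((4 * Kx ^ 2 + 1) * ‖(z : P)‖ ^ 2) * (Kq * (S.Sg (k + 1) i z +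
          (S.al i * S.la i ^ (k + 5)) ^ 2 * S.th i z)) := by gcongr
      _ = Ky * (‖(z : P)‖ ^ 2 * S.Sg (k + 1) i z + ‖(z : P)‖ ^ 2 *
          ((S.al i * S.la i ^ (k + 5)) ^ 2 * S.th i z)) := by rw [hKy]; ring
      _ ≤ Ky * (16 * S.Sg (k + 1) i z +
          S.c1 ^ 2 * (S.al i * S.la i ^ (k + 4)) ^ 2 * S.th i z) := by gcongr
      _ = _ := by ring
  have E1 := hE i hi
  have hth := S.I_th hρ4 (by linarith) i hla
  obtain ⟨Wt, hWt⟩ : ∃ Wt, Wt = 1 + (S.al i * S.la i ^ (k + 2 + 1)) ^ 2 := ⟨_, rfl⟩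
  rw [← hWt]
  have E2 : I ρ2 (S.Sg (k + 1) i) ≤ KE * Wt := by
    refine E1.trans ?_
    have := S.src_mono (show k + 1 + 1 ≤ k + 2 + 1 by omega) i
    have := S.src_nonneg (k + 1 + 1) i
    rw [hWt]; gcongr
  have E3 : (S.al i * S.la i ^ (k + 4)) ^ 2 * I ρ2 (S.th i) ≤ 4 * S.c1 ^ 2 * Wt := by
    calc _ ≤ (S.al i * S.la i ^ (k + 4)) ^ 2 * (4 * S.c1 ^ 2 / S.la i ^ 2) := by gcongr
      _ = 4 * S.c1 ^ 2 * (S.al i * S.la i ^ (k + 2 + 1)) ^ 2 := by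
        field_simp; ring
      _ ≤ _ := by rw [hWt]; gcongr; linarith
  have cε : 0 < S.c0 * ε := by positivity
  rw [I_add hρ4, I_C_mul hρ4, I_C_mul hρ4] at A2
  have A1' : I ρ2 (e * e * (S.a (k + 2) i ^ 2 + S.n (k + 2) i ^ 2)) ≤ (S.c0 * ε)⁻¹ * (KL *
      (((M1 + M2) ^ 2 / ε + 1 + Kq) * KE)) * Wt := by
    refine le_of_le_of_eq (b := (S.c0 * ε)⁻¹ * (KL *
      (((M1 + M2) ^ 2 / ε + 1 + Kq) * (KE * Wt)))) ?_ (by ring)
    rw [le_inv_mul_iff₀ cε]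
    refine A1.trans ?_
    gcongr
  have A2' : I ρ2 (p * (S.a (k + 2) i ^ 2 + S.n (k + 2) i ^ 2)) ≤ (S.c0 * ε)⁻¹ * (KL *
      (2 * (H1 + H2 + H3) * ((S.c0 * ε)⁻¹ * (KL * (((M1 + M2) ^ 2 / ε + 1 + Kq) * KE))) +
      ε⁻¹ * (Ky * 16 * KE + Ky * S.c1 ^ 2 * (4 * S.c1 ^ 2)))) * Wt := by
    refine le_of_le_of_eq (b := (S.c0 * ε)⁻¹ * (KL *
      (2 * (H1 + H2 + H3) * ((S.c0 * ε)⁻¹ * (KL * (((M1 + M2) ^ 2 / ε + 1 + Kq) * KE)) * Wt) +
      ε⁻¹ * (Ky * 16 * (KE * Wt) + Ky * S.c1 ^ 2 * (4 * S.c1 ^ 2 * Wt))))) ?_ (by ring)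
    rw [le_inv_mul_iff₀ cε]
    refine A2.trans ?_
    rw [mul_assoc (Ky * S.c1 ^ 2)]
    gcongr
  have A3 : I ρ1 (S.a (k + 2) i ^ 2 + S.n (k + 2) i ^ 2) ≤
      I ρ2 (p * (S.a (k + 2) i ^ 2 + S.n (k + 2) i ^ 2)) := by
    refine (I_mono (by linarith) fun z hz => ?_).trans (I_mono_radius hρ4 hρ12.le fun z _ => ?_)
    · simp [p2 z hz]
    · simp only [mul_ap, add_ap, pow_ap]; have := p0 z; positivity
  have A4 : I ρ1 (S.Sg (k + 1) i) ≤ I ρ2 (S.Sg (k + 1) i) :=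
    I_mono_radius hρ4 hρ12.le fun z _ => zero_le_one.trans (S.one_le_Sg _ i z)
  rw [S.Sg_succ, I_add (by linarith), add_mul]
  linarith

end Core
end P229
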