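import Vale.Agent.P229.Classes

open scoped ContDiff Topology
open Set MeasureTheory Metric

noncomputable section
namespace P229

/-- weights and the two vector fields -/
structure Sys (ι : Type*) (m : ℕ) where
  al : ι → ℝ
  la : ι → ℝ
  th : ι → R
  X : ι → Derivation ℝ R R
  D : ι → Derivation ℝ R R
  A : ι → R
  nu : ι → R
  al0 : ∀ i, 0 ≤ al i
  la1 : ∀ i, 1 ≤ la i
  th0 : ∀ i z, 0 ≤ th i z
  th1 : ∀ i z, th i z ≤ 1
  alm : ∀ i, al i * la i ^ m ≤ 1

variable {ι : Type*} {m : ℕ}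

namespace Sys
variable (S : Sys ι m)

def Om (s : ℕ) (i : ι) (z : W) : ℝ := 1 + S.al i * S.la i ^ s * S.th i z

lemma src_nonneg (s i) : 0 ≤ S.al i * S.la i ^ s :=
  mul_nonneg (S.al0 i) (pow_nonneg (zero_le_one.trans (S.la1 i)) _)

lemma src_mono {s s'} (h : s ≤ s') (i) : S.al i * S.la i ^ s ≤ S.al i * S.la i ^ s' :=
  mul_le_mul_of_nonneg_left (pow_le_pow_right₀ (S.la1 i) h) (S.al0 i)

lemma src_le {s} (h : s ≤ m) (i) : S.al i * S.la i ^ s ≤ 1 := (S.src_mono h i).trans (S.alm i)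

lemma one_le_Om (s i z) : 1 ≤ S.Om s i z :=
  le_add_of_nonneg_right (mul_nonneg (S.src_nonneg s i) (S.th0 i z))

lemma Om_mono {s s'} (h : s ≤ s') (i z) : S.Om s i z ≤ S.Om s' i z := by
  unfold Om
  have := mul_le_mul_of_nonneg_right (S.src_mono h i) (S.th0 i z)
  linarith

lemma Om_le {s} (h : s ≤ m) (i z) : S.Om s i z ≤ 2 := by
  unfold Om
  have := mul_le_mul (S.src_le h i) (S.th1 i z) (S.th0 i z) zero_le_one
  linarith

variable {S}

lemma bd_mono {s s'} {f : ι → R} (hf : Bd (S.Om s) f) (h : s ≤ s') : Bd (S.Om s') f :=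
  hf.mono zero_le_one fun i z => by simpa using S.Om_mono h i z

lemma bd_of_one {s} {f : ι → R} (hf : Bd one' f) : Bd (S.Om s) f :=
  hf.mono zero_le_one fun i z => by simpa [one'] using S.one_le_Om s i z

lemma bd_to_one {s} {f : ι → R} (hf : Bd (S.Om s) f) (h : s ≤ m) : Bd one' f :=
  hf.mono (c := 2) (by norm_num) fun i z => by simpa [one'] using S.Om_le h i z

lemma bd_mul {s s' t} {f g : ι → R} (hf : Bd (S.Om s) f) (hg : Bd (S.Om s') g)
    (h : s + s' ≤ 2 * m + 1) (h1 : s ≤ t) (h2 : s' ≤ t) : Bd (S.Om t) (fun i => f i * g i) := by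
  rcases le_or_gt s m with hs | hs
  · exact (bd_to_one hf hs).one_mul (bd_mono hg h2)
  · exact ((bd_to_one hg (by omega)).one_mul (bd_mono hf h1)).congr fun i => mul_comm _ _

variable (S)

def a (j : ℕ) (i : ι) : R := it (S.X i) j (S.A i)
def n (j : ℕ) (i : ι) : R := it (S.X i) j (S.nu i)

def Dec (f fA fn f0 : ι → R) : Prop :=
  ∀ i, S.X i (f i) = fA i * S.a 1 i + fn i * S.n 1 i + f0 i

def G0 (s : ℕ) (f : ι → R) : Prop := Bd (S.Om s) f ∧ Bd (S.Om (s + 1)) (fun i => S.D i (f i))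

/-- functions of the jet of order zero -/
def G : ℕ → ℕ → (ι → R) → Prop
  | 0, s, f => S.G0 s f
  | d + 1, s, f => S.G0 s f ∧ ∃ fA fn f0, S.Dec f fA fn f0 ∧ G d s fA ∧ G d s fn ∧ G d (s + 1) f0

variable {S}

lemma G.g0 {d s} {f : ι → R} (h : S.G d s f) : S.G0 s f := by
  cases d
  · exact h
  · exact h.1

lemma G.bd {d s} {f : ι → R} (h : S.G d s f) : Bd (S.Om s) f := h.g0.1
lemma G.bdD {d s} {f : ι → R} (h : S.G d s f) : Bd (S.Om (s + 1)) (fun i => S.D i (f i)) := h.g0.2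

lemma G.congr {d s} {f g : ι → R} (hf : S.G d s f) (h : ∀ i, g i = f i) : S.G d s g := by
  rwa [show g = f from funext h]

lemma G.pred {d s} {f : ι → R} (h : S.G (d + 1) s f) : S.G d s f := by
  induction d generalizing s f with
  | zero => exact h.1
  | succ d ih =>
    obtain ⟨h0, fA, fn, f0, hd, h1, h2, h3⟩ := h
    exact ⟨h0, fA, fn, f0, hd, ih h1, ih h2, ih h3⟩

lemma G.le {d d' s} {f : ι → R} (h : S.G d s f) (hd : d' ≤ d) : S.G d' s f := by
  induction hd with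
  | refl => exact h
  | step _ ih => exact ih h.pred

lemma G.up {d s s'} {f : ι → R} (h : S.G d s f) (hs : s ≤ s') : S.G d s' f := by
  induction d generalizing s s' f with
  | zero => exact ⟨bd_mono h.1 hs, bd_mono h.2 (by omega)⟩
  | succ d ih =>
    obtain ⟨h0, fA, fn, f0, hd, h1, h2, h3⟩ := h
    exact ⟨⟨bd_mono h0.1 hs, bd_mono h0.2 (by omega)⟩, fA, fn, f0, hd, ih h1 hs, ih h2 hs,
      ih h3 (by omega)⟩

lemma G0.add {s} {f g : ι → R} (hf : S.G0 s f) (hg : S.G0 s g) : S.G0 s (fun i => f i + g i) :=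
  ⟨hf.1.add hg.1, (hf.2.add hg.2).congr fun _ => map_add _ _ _⟩

lemma G.add {d s} {f g : ι → R} (hf : S.G d s f) (hg : S.G d s g) :
    S.G d s (fun i => f i + g i) := by
  induction d generalizing s f g with
  | zero => exact G0.add hf hg
  | succ d ih =>
    obtain ⟨h0, fA, fn, f0, hd, h1, h2, h3⟩ := hf
    obtain ⟨k0, gA, gn, g0, kd, k1, k2, k3⟩ := hg
    refine ⟨h0.add k0, _, _, _, fun i => ?_, ih h1 k1, ih h2 k2, ih h3 k3⟩
    rw [map_add, hd, kd]; ring

lemma G0.mul {s s' t} {f g : ι → R} (hf : S.G0 s f) (hg : S.G0 s' g) (h : s + s' ≤ 2 * m)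
    (h1 : s ≤ t) (h2 : s' ≤ t) : S.G0 t (fun i => f i * g i) :=
  ⟨bd_mul hf.1 hg.1 (by omega) h1 h2,
    ((bd_mul hf.1 hg.2 (by omega) (by omega) (by omega)).add
      (bd_mul hg.1 hf.2 (by omega) (by omega) (by omega))).congr fun _ => der_mul _ _ _⟩

lemma G.mul {d s s' t} {f g : ι → R} (hf : S.G d s f) (hg : S.G d s' g)
    (h : s + s' + d ≤ 2 * m) (h1 : s ≤ t) (h2 : s' ≤ t) : S.G d t (fun i => f i * g i) := by
  induction d generalizing s s' t f g with
  | zero => exact G0.mul hf hg h h1 h2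
  | succ d ih =>
    have hf' := hf.pred
    have hg' := hg.pred
    obtain ⟨h0, fA, fn, f0, hd, e1, e2, e3⟩ := hf
    obtain ⟨k0, gA, gn, g0, kd, k1, k2, k3⟩ := hg
    refine ⟨h0.mul k0 (by omega) h1 h2, _, _, _, fun i => ?_,
      (ih e1 hg' (by omega) h1 h2).add (ih hf' k1 (by omega) h1 h2),
      (ih e2 hg' (by omega) h1 h2).add (ih hf' k2 (by omega) h1 h2),
      (ih e3 hg' (by omega) (by omega) (by omega)).add
        (ih hf' k3 (by omega) (by omega) (by omega))⟩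
    rw [der_mul, hd, kd]; ring

lemma G.zero {d s} : S.G d s (fun _ => 0) := by
  induction d generalizing s with
  | zero => exact ⟨bd_zero, bd_zero.congr fun _ => map_zero _⟩
  | succ d ih =>
    exact ⟨⟨bd_zero, bd_zero.congr fun _ => map_zero _⟩, _, _, _, fun i => by simp, ih, ih, ih⟩

lemma G.of_X {d s} {f g : ι → R} (h0 : S.G0 s f) (hX : ∀ i, S.X i (f i) = g i)
    (hg : S.G d (s + 1) g) : S.G (d + 1) s f :=
  ⟨h0, _, _, _, fun i => by rw [hX]; simp, G.zero, G.zero, hg⟩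

lemma G.const {d s} {c : ι → ℝ} (hc : Bc c) : S.G d s (fun i => C (c i)) := by
  have h0 : S.G0 s (fun i => C (c i)) := ⟨bd_of_one hc.bd, bd_zero.congr fun _ => der_C _ _⟩
  cases d with
  | zero => exact h0
  | succ d => exact G.of_X h0 (fun _ => der_C _ _) G.zero

lemma G.one {d s} : S.G d s (fun _ => 1) := (G.const (Bc.const 1)).congr fun _ => by simp

lemma G.cmul {d s} {c : ι → ℝ} {f : ι → R} (hc : Bc c) (hf : S.G d s f) :
    S.G d s (fun i => C (c i) * f i) := by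
  induction d generalizing s f with
  | zero => exact ⟨hc.bd.one_mul hf.1, (hc.bd.one_mul hf.2).congr fun i => by rw [der_mul]; simp⟩
  | succ d ih =>
    obtain ⟨h0, fA, fn, f0, hd, h1, h2, h3⟩ := hf
    refine ⟨⟨hc.bd.one_mul h0.1, (hc.bd.one_mul h0.2).congr fun i => by rw [der_mul]; simp⟩,
      _, _, _, fun i => ?_, ih h1, ih h2, ih h3⟩
    rw [der_mul, hd]; simp only [der_C]; ring

lemma G.neg {d s} {f : ι → R} (hf : S.G d s f) : S.G d s (fun i => -f i) :=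
  (hf.cmul (Bc.const (-1))).congr fun i => by ext z; simp

lemma G.sub {d s} {f g : ι → R} (hf : S.G d s f) (hg : S.G d s g) :
    S.G d s (fun i => f i - g i) := (hf.add hg.neg).congr fun _ => sub_eq_add_neg _ _

lemma G.gA {d s} (h0 : S.G0 s S.A) : S.G d s S.A := by
  cases d with
  | zero => exact h0
  | succ d => exact ⟨h0, _, _, _, fun i => by simp [a, it_one], G.one, G.zero, G.zero⟩

lemma G.gn {d s} (h0 : S.G0 s S.nu) : S.G d s S.nu := by
  cases d with
  | zero => exact h0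
  | succ d => exact ⟨h0, _, _, _, fun i => by simp [n, it_one], G.zero, G.one, G.zero⟩

lemma G.chain {N s} {f g h : ι → R} (h0 : S.G0 s f)
    (hX : ∀ i, S.X i (f i) = h i * S.X i (g i)) (hh : ∀ d ≤ N, S.G d s f → S.G d s h)
    (hg : S.G N s g) (hs : 2 * s + N ≤ 2 * m) : S.G N s f := by
  induction N with
  | zero => exact h0
  | succ d ih =>
    have hf := ih (fun d' hd' => hh d' (by omega)) hg.pred (by omega)
    have hh' := hh d (by omega) hf
    obtain ⟨k0, gA, gn, g0, kd, k1, k2, k3⟩ := hg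
    refine ⟨h0, _, _, _, fun i => ?_, hh'.mul k1 (by omega) le_rfl le_rfl,
      hh'.mul k2 (by omega) le_rfl le_rfl, hh'.mul k3 (by omega) (by omega) le_rfl⟩
    rw [hX, kd]; ring

lemma G.bdX {d s} {f : ι → R} (h : S.G (d + 1) s f) (ha : Bd one' (S.a 1))
    (hn : Bd one' (S.n 1)) : Bd (S.Om (s + 1)) (fun i => S.X i (f i)) := by
  obtain ⟨_, fA, fn, f0, hd, h1, h2, h3⟩ := h
  exact (((ha.one_mul (bd_mono h1.bd s.le_succ)).add
    (hn.one_mul (bd_mono h2.bd s.le_succ))).add h3.bd).congr fun i => by rw [hd]; ring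

/-! tame estimates on a square, for a subfamily -/

variable (S)

def Sg (k : ℕ) (i : ι) : R := 1 + ∑ j ∈ Finset.range (k + 1), (S.a j i ^ 2 + S.n j i ^ 2)

lemma Sg_ap (k i z) :
    S.Sg k i z = 1 + ∑ j ∈ Finset.range (k + 1), (S.a j i z ^ 2 + S.n j i z ^ 2) := by
  simp [Sg, sum_ap]

lemma one_le_Sg (k i z) : 1 ≤ S.Sg k i z := by
  rw [Sg_ap]; exact le_add_of_nonneg_right (by positivity)

lemma Sg_mono {k k'} (h : k ≤ k') (i z) : S.Sg k i z ≤ S.Sg k' i z := by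
  rw [Sg_ap, Sg_ap]
  gcongr

lemma sq_le_Sg {j k} (h : j ≤ k) (i z) : S.a j i z ^ 2 + S.n j i z ^ 2 ≤ S.Sg k i z := by
  rw [Sg_ap]
  have := Finset.single_le_sum (f := fun j => S.a j i z ^ 2 + S.n j i z ^ 2)
    (s := Finset.range (k + 1)) (fun j _ => by positivity) (Finset.mem_range.2 (Nat.lt_succ_of_le h))
  linarith

lemma Sg_succ (k i) : S.Sg (k + 1) i = S.Sg k i + (S.a (k + 1) i ^ 2 + S.n (k + 1) i ^ 2) := by
  rw [Sg, Finset.sum_range_succ, Sg]; ring

def Bnd (J : Set ι) (ρ : ℝ) (f : ι → R) : Prop :=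
  ∃ K, 0 ≤ K ∧ ∀ i ∈ J, ∀ z : W, ‖(z : P)‖ ≤ ρ → |f i z| ≤ K

def Low (J : Set ι) (ρ : ℝ) (k e : ℕ) (f : ι → R) : Prop :=
  ∃ K, 0 ≤ K ∧ ∀ i ∈ J, ∀ z : W, ‖(z : P)‖ ≤ ρ →
    f i z ^ 2 ≤ K * (S.Sg k i z + (S.al i * S.la i ^ e) ^ 2 * S.th i z)

def Hyp (J : Set ι) (ρ : ℝ) (N : ℕ) : Prop := ∀ j ≤ N, Bnd J ρ (S.a j) ∧ Bnd J ρ (S.n j)

lemma maj_nonneg (k e i z) : 0 ≤ S.Sg k i z + (S.al i * S.la i ^ e) ^ 2 * S.th i z :=
  add_nonneg (zero_le_one.trans (S.one_le_Sg k i z)) (mul_nonneg (sq_nonneg _) (S.th0 i z))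

variable {S} {J : Set ι} {ρ : ℝ}

lemma Bnd.mono {ρ'} {f : ι → R} (h : Bnd J ρ f) (hρ : ρ' ≤ ρ) : Bnd J ρ' f := by
  obtain ⟨K, hK, h⟩ := h
  exact ⟨K, hK, fun i hi z hz => h i hi z (hz.trans hρ)⟩

lemma Bnd.of_bd {f : ι → R} (h : Bd one' f) : Bnd J ρ f := by
  obtain ⟨K, hK, h⟩ := h
  exact ⟨K, hK, fun i _ z _ => by simpa [one'] using h i z⟩

lemma Low.congr {k e} {f g : ι → R} (hf : S.Low J ρ k e f) (h : ∀ i, g i = f i) :
    S.Low J ρ k e g := by rwa [show g = f from funext h]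

lemma Low.mono {k e k' e'} {f : ι → R} (h : S.Low J ρ k e f) (hk : k ≤ k') (he : e ≤ e') :
    S.Low J ρ k' e' f := by
  obtain ⟨K, hK, h⟩ := h
  refine ⟨K, hK, fun i hi z hz => (h i hi z hz).trans ?_⟩
  have := S.Sg_mono hk i z
  have := S.src_mono he i
  have := S.src_nonneg e i
  have := S.th0 i z
  gcongr

lemma Low.add {k e} {f g : ι → R} (hf : S.Low J ρ k e f) (hg : S.Low J ρ k e g) :
    S.Low J ρ k e (fun i => f i + g i) := by
  obtain ⟨K, hK, h⟩ := hf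
  obtain ⟨K', hK', h'⟩ := hg
  refine ⟨2 * K + 2 * K', by positivity, fun i hi z hz => ?_⟩
  have := h i hi z hz; have := h' i hi z hz
  simp only [add_ap]
  nlinarith [sq_nonneg (f i z - g i z)]

lemma Low.bmul {k e} {f g : ι → R} (hf : Bnd J ρ f) (hg : S.Low J ρ k e g) :
    S.Low J ρ k e (fun i => f i * g i) := by
  obtain ⟨K, hK, h⟩ := hf
  obtain ⟨K', hK', h'⟩ := hg
  refine ⟨K ^ 2 * K', by positivity, fun i hi z hz => ?_⟩
  have h1 : f i z ^ 2 ≤ K ^ 2 := by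
    rw [← sq_abs]; exact pow_le_pow_left₀ (abs_nonneg _) (h i hi z hz) 2
  rw [mul_ap, mul_pow, mul_assoc]
  exact mul_le_mul h1 (h' i hi z hz) (sq_nonneg _) (sq_nonneg _)

lemma Low.mulb {k e} {f g : ι → R} (hg : S.Low J ρ k e g) (hf : Bnd J ρ f) :
    S.Low J ρ k e (fun i => g i * f i) := (Low.bmul hf hg).congr fun _ => mul_comm _ _

lemma Low.neg {k e} {f : ι → R} (hf : S.Low J ρ k e f) : S.Low J ρ k e (fun i => -f i) := by
  obtain ⟨K, hK, h⟩ := hf
  exact ⟨K, hK, fun i hi z hz => by simpa using h i hi z hz⟩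

lemma Low.zero {k e} : S.Low J ρ k e (fun _ => 0) := ⟨0, le_rfl, fun i _ z _ => by simp⟩

lemma Low.sum {k e} {β : Type*} (s : Finset β) {f : β → ι → R}
    (hf : ∀ b ∈ s, S.Low J ρ k e (f b)) : S.Low J ρ k e (fun i => ∑ b ∈ s, f b i) := by
  classical
  induction s using Finset.induction_on with
  | empty => exact Low.zero.congr fun _ => by simp
  | insert b s hb ih =>
    exact ((hf b (by simp)).add (ih fun b' hb' => hf b' (by simp [hb']))).congr
      fun _ => by rw [Finset.sum_insert hb]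

lemma bnd_nat (c : ℕ) : Bnd J ρ (fun _ : ι => (c : R)) :=
  ⟨c, c.cast_nonneg, fun i _ z _ => by simp⟩

lemma Low.ofa {j k e} (h : j ≤ k) : S.Low J ρ k e (S.a j) := by
  refine ⟨1, zero_le_one, fun i _ z _ => ?_⟩
  have := S.sq_le_Sg h i z
  have := mul_nonneg (sq_nonneg (S.al i * S.la i ^ e)) (S.th0 i z)
  nlinarith [sq_nonneg (S.n j i z)]

lemma Low.ofn {j k e} (h : j ≤ k) : S.Low J ρ k e (S.n j) := by
  refine ⟨1, zero_le_one, fun i _ z _ => ?_⟩
  have := S.sq_le_Sg h i z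
  have := mul_nonneg (sq_nonneg (S.al i * S.la i ^ e)) (S.th0 i z)
  nlinarith [sq_nonneg (S.a j i z)]

lemma Low.of_bd {k s} {f : ι → R} (h : Bd (S.Om s) f) : S.Low J ρ k s f := by
  obtain ⟨K, hK, h⟩ := h
  refine ⟨2 * K ^ 2, by positivity, fun i _ z _ => ?_⟩
  have h1 : f i z ^ 2 ≤ (K * S.Om s i z) ^ 2 := by
    rw [← sq_abs]; exact pow_le_pow_left₀ (abs_nonneg _) (h i z) 2
  refine h1.trans ?_
  rw [mul_pow, mul_comm 2, mul_assoc]
  refine mul_le_mul_of_nonneg_left ?_ (sq_nonneg _)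
  have := S.one_le_Sg k i z
  have h0 := S.th0 i z
  have h1 := S.th1 i z
  unfold Om
  have : (S.al i * S.la i ^ s) ^ 2 * S.th i z ^ 2 ≤ (S.al i * S.la i ^ s) ^ 2 * S.th i z :=
    mul_le_mul_of_nonneg_left (by nlinarith) (sq_nonneg _)
  nlinarith [sq_nonneg (1 - S.al i * S.la i ^ s * S.th i z)]

lemma Hyp.Sg {N k} (H : S.Hyp J ρ N) (hk : k ≤ N) : Bnd J ρ (S.Sg k) := by
  induction k with
  | zero =>
    obtain ⟨⟨K, hK, h⟩, ⟨K', hK', h'⟩⟩ := H 0 hk
    refine ⟨1 + K ^ 2 + K' ^ 2, by positivity, fun i hi z hz => ?_⟩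
    rw [abs_of_nonneg (zero_le_one.trans (S.one_le_Sg _ i z)), Sg_ap, Finset.sum_range_one]
    have := sq_le_sq' (abs_le.1 (h i hi z hz)).1 (abs_le.1 (h i hi z hz)).2
    have := sq_le_sq' (abs_le.1 (h' i hi z hz)).1 (abs_le.1 (h' i hi z hz)).2
    linarith
  | succ k ih =>
    obtain ⟨K0, hK0, h0⟩ := ih (by omega)
    obtain ⟨⟨K, hK, h⟩, ⟨K', hK', h'⟩⟩ := H (k + 1) hk
    refine ⟨K0 + K ^ 2 + K' ^ 2, by positivity, fun i hi z hz => ?_⟩
    rw [abs_of_nonneg (zero_le_one.trans (S.one_le_Sg _ i z)), Sg_succ]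
    have := sq_le_sq' (abs_le.1 (h i hi z hz)).1 (abs_le.1 (h i hi z hz)).2
    have := sq_le_sq' (abs_le.1 (h' i hi z hz)).1 (abs_le.1 (h' i hi z hz)).2
    have := (abs_le.1 (h0 i hi z hz)).2
    simp only [add_ap, pow_ap]
    linarith

lemma Low.bnd {N k e} {f : ι → R} (h : S.Low J ρ k e f) (H : S.Hyp J ρ N) (hk : k ≤ N)
    (he : e ≤ m) : Bnd J ρ f := by
  obtain ⟨K, hK, h⟩ := h
  obtain ⟨K0, hK0, h0⟩ := H.Sg hk
  refine ⟨1 + K * (K0 + 1), by positivity, fun i hi z hz => ?_⟩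
  have h1 := h i hi z hz
  have h2 := (abs_le.1 (h0 i hi z hz)).2
  have h3 : (S.al i * S.la i ^ e) ^ 2 * S.th i z ≤ 1 :=
    mul_le_one₀ (pow_le_one₀ (S.src_nonneg e i) (S.src_le he i)) (S.th0 i z) (S.th1 i z)
  have h4 : K * (S.Sg k i z + (S.al i * S.la i ^ e) ^ 2 * S.th i z) ≤ K * (K0 + 1) := by
    gcongr
  nlinarith [sq_abs (f i z), sq_nonneg (|f i z| - 1), abs_nonneg (f i z)]

lemma it_a (i j k) : it (S.X i) j (S.a k i) = S.a (j + k) i := by
  simp [a, it, Function.iterate_add_apply]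

lemma it_n (i j k) : it (S.X i) j (S.n k i) = S.n (j + k) i := by
  simp [n, it, Function.iterate_add_apply]

/-- one term of the Leibniz formula -/
lemma low_term {N s i j k e} {f : ι → R} (H : S.Hyp J ρ N) (hN : N ≤ m)
    (hf : S.Low J ρ i (s + i) (fun u => it (S.X u) i (f u))) (hs : s + i + j ≤ 2 * N + 1)
    (hi : i ≤ k) (hj : j ≤ k) (he : s + i ≤ e) :
    S.Low J ρ k e (fun u => it (S.X u) i (f u) * S.a j u) ∧
      S.Low J ρ k e (fun u => it (S.X u) i (f u) * S.n j u) := by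
  rcases le_or_gt (s + i) N with h | h
  · have := hf.bnd H (by omega) (by omega)
    exact ⟨Low.bmul this (Low.ofa hj), Low.bmul this (Low.ofn hj)⟩
  · exact ⟨(hf.mono hi he).mulb (H j (by omega)).1, (hf.mono hi he).mulb (H j (by omega)).2⟩

lemma it_dec {f fA fn f0 : ι → R} (hd : S.Dec f fA fn f0) (k i) :
    it (S.X i) (k + 1) (f i) =
      (∑ j ∈ Finset.range (k + 1), (k.choose j : R) * (it (S.X i) j (fA i) * S.a (k - j + 1) i))
      + (∑ j ∈ Finset.range (k + 1), (k.choose j : R) * (it (S.X i) j (fn i) * S.n (k - j + 1) i))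
      + it (S.X i) k (f0 i) := by
  rw [it_succ, hd, it_add, it_add, it_mul, it_mul]
  simp only [it_a, it_n]

theorem T0 {N} (H : S.Hyp J ρ N) (hN : N ≤ m) (k : ℕ) : ∀ {d s} {f : ι → R}, S.G d s f → k ≤ d →
    s + k ≤ 2 * N + 1 → S.Low J ρ k (s + k) (fun i => it (S.X i) k (f i)) := by
  induction k using Nat.strong_induction_on with
  | _ k ih =>
    intro d s f hf hk hs
    cases k with
    | zero => exact Low.of_bd hf.bd
    | succ k =>
      obtain ⟨d, rfl⟩ : ∃ d', d = d' + 1 := ⟨d - 1, by omega⟩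
      obtain ⟨_, fA, fn, f0, hd, h1, h2, h3⟩ := hf
      refine Low.congr (Low.add (Low.add (Low.sum _ fun j hj => ?_) (Low.sum _ fun j hj => ?_))
        ?_) (it_dec hd k)
      · have hj' : j ≤ k := Nat.lt_succ_iff.1 (Finset.mem_range.1 hj)
        exact Low.bmul (bnd_nat _) (low_term H hN (ih j (by omega) h1 (by omega) (by omega))
          (by omega) (by omega) (by omega) (by omega)).1
      · have hj' : j ≤ k := Nat.lt_succ_iff.1 (Finset.mem_range.1 hj)
        exact Low.bmul (bnd_nat _) (low_term H hN (ih j (by omega) h2 (by omega) (by omega))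
          (by omega) (by omega) (by omega) (by omega)).2
      · exact (ih k (by omega) h3 (by omega) (by omega)).mono (by omega) (by omega)

theorem T1 {N d s k} {f fA fn f0 : ι → R} (H : S.Hyp J ρ N) (hN : N ≤ m)
    (hd : S.Dec f fA fn f0) (h1 : S.G d s fA) (h2 : S.G d s fn) (h3 : S.G d (s + 1) f0)
    (hk : k ≤ d) (hs : s + k + 1 ≤ 2 * N + 1) :
    S.Low J ρ k (s + k + 1)
      (fun i => it (S.X i) (k + 1) (f i) - fA i * S.a (k + 1) i - fn i * S.n (k + 1) i) := by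
  refine Low.congr (f := fun i =>
    (∑ j ∈ Finset.range k, (k.choose (j + 1) : R) *
      (it (S.X i) (j + 1) (fA i) * S.a (k - (j + 1) + 1) i))
      + (∑ j ∈ Finset.range k, (k.choose (j + 1) : R) *
      (it (S.X i) (j + 1) (fn i) * S.n (k - (j + 1) + 1) i))
      + it (S.X i) k (f0 i))
    (Low.add (Low.add (Low.sum _ fun j hj => ?_) (Low.sum _ fun j hj => ?_)) ?_) fun i => ?_
  · have hj' : j < k := Finset.mem_range.1 hj
    exact Low.bmul (bnd_nat _) (low_term H hN (T0 H hN _ h1 (by omega) (by omega))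
      (by omega) (by omega) (by omega) (by omega)).1
  · have hj' : j < k := Finset.mem_range.1 hj
    exact Low.bmul (bnd_nat _) (low_term H hN (T0 H hN _ h2 (by omega) (by omega))
      (by omega) (by omega) (by omega) (by omega)).2
  · exact (T0 H hN k h3 (by omega) (by omega)).mono (by omega) (by omega)
  · rw [it_dec hd, Finset.sum_range_succ', Finset.sum_range_succ' _ k]
    simp only [Nat.choose_zero_right, Nat.cast_one, it_zero, Nat.sub_zero]
    ring

theorem T2 {N d s k} {f fA fn f0 fAA fAn fA0 fnA fnn fn0 f0A f0n f00 : ι → R}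
    (H : S.Hyp J ρ N) (hN : N ≤ m) (hN1 : 1 ≤ N)
    (hd : S.Dec f fA fn f0) (h1 : S.G (d + 1) s fA) (h2 : S.G (d + 1) s fn)
    (hA : S.Dec fA fAA fAn fA0) (a1 : S.G d s fAA) (a2 : S.G d s fAn) (a3 : S.G d (s + 1) fA0)
    (hn : S.Dec fn fnA fnn fn0) (n1 : S.G d s fnA) (n2 : S.G d s fnn) (n3 : S.G d (s + 1) fn0)
    (h0 : S.Dec f0 f0A f0n f00) (o1 : S.G d (s + 1) f0A) (o2 : S.G d (s + 1) f0n)
    (o3 : S.G d (s + 1 + 1) f00)
    (hk : k + 1 ≤ d) (hs : s + k + 3 ≤ 2 * N + 1) :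
    S.Low J ρ (k + 1) (s + k + 3)
      (fun i => it (S.X i) (k + 3) (f i) - fA i * S.a (k + 3) i - fn i * S.n (k + 3) i
        - (((k + 2 : ℕ) : R) * S.X i (fA i) + fAA i * S.a 1 i + fnA i * S.n 1 i + f0A i)
            * S.a (k + 2) i
        - (((k + 2 : ℕ) : R) * S.X i (fn i) + fAn i * S.a 1 i + fnn i * S.n 1 i + f0n i)
            * S.n (k + 2) i) := by
  have e1 := ((T1 (k := k + 1) H hN hA a1 a2 a3 hk (by omega)).mono le_rfl
    (show s + (k + 1) + 1 ≤ s + k + 3 by omega)).mulb (H 1 hN1).1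
  have e2 := ((T1 (k := k + 1) H hN hn n1 n2 n3 hk (by omega)).mono le_rfl
    (show s + (k + 1) + 1 ≤ s + k + 3 by omega)).mulb (H 1 hN1).2
  have e3 := (T1 (k := k + 1) H hN h0 o1 o2 o3 hk (by omega)).mono le_rfl
    (show s + 1 + (k + 1) + 1 ≤ s + k + 3 by omega)
  have e4 : S.Low J ρ (k + 1) (s + k + 3) (fun i => ∑ j ∈ Finset.range k,
      ((k + 2).choose (j + 1 + 1) : R) *
        (it (S.X i) (j + 1 + 1) (fA i) * S.a (k + 2 - (j + 1 + 1) + 1) i)) := by
    refine Low.sum _ fun j hj => ?_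
    have hj' : j < k := Finset.mem_range.1 hj
    exact Low.bmul (bnd_nat _) (low_term H hN (T0 H hN _ h1 (by omega) (by omega))
      (by omega) (by omega) (by omega) (by omega)).1
  have e5 : S.Low J ρ (k + 1) (s + k + 3) (fun i => ∑ j ∈ Finset.range k,
      ((k + 2).choose (j + 1 + 1) : R) *
        (it (S.X i) (j + 1 + 1) (fn i) * S.n (k + 2 - (j + 1 + 1) + 1) i)) := by
    refine Low.sum _ fun j hj => ?_
    have hj' : j < k := Finset.mem_range.1 hj
    exact Low.bmul (bnd_nat _) (low_term H hN (T0 H hN _ h2 (by omega) (by omega))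
      (by omega) (by omega) (by omega) (by omega)).2
  refine ((((e1.add e2).add e3).add e4).add e5).congr fun i => ?_
  rw [show k + 3 = (k + 2) + 1 from rfl, it_dec hd, Finset.sum_range_succ,
    Finset.sum_range_succ _ (k + 2), Finset.sum_range_succ', Finset.sum_range_succ' _ k,
    Finset.sum_range_succ' _ (k + 1), Finset.sum_range_succ' _ k]
  simp only [Nat.choose_zero_right, Nat.cast_one, it_zero, Nat.sub_zero, Nat.choose_self,
    Nat.sub_self, zero_add, Nat.choose_one_right, it_one, show k + 2 - 1 + 1 = k + 2 from rfl,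
    show k + 1 + 1 = k + 2 from rfl]
  ring

end Sys
end P229
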