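import Vale.Agent.P229.Induct

open scoped ContDiff Topology
open Set MeasureTheory Metric Filter

noncomputable section
namespace P229

variable {ι : Type*} {m : ℕ}

lemma it_pow (n : ℕ) : ∃ c : ℝ, 1 ≤ c ∧ ∀ (X : Derivation ℝ R R) (ζ : R), X ζ = 1 →
    it X n (ζ ^ (n + 2)) = C c * ζ ^ 2 := by
  induction n with
  | zero => exact ⟨1, le_rfl, fun X ζ _ => by simp⟩
  | succ n ih =>
    obtain ⟨c, hc, h⟩ := ih
    refine ⟨(n + 3) * c, by nlinarith [n.cast_nonneg (α := ℝ)], fun X ζ hζ => ?_⟩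
    have : X (ζ ^ (n + 1 + 2)) = C (n + 3) * ζ ^ (n + 2) := by
      rw [Derivation.leibniz_pow, hζ]; ext z; simp; left; ring
    rw [it_succ, this, it_C_mul, h X ζ hζ, map_mul, mul_assoc]

lemma deriv_zero_out {g : ℝ → ℝ} {a : ℝ} (h : ∀ t, a < |t| → g t = 0) (t : ℝ) (ht : a < |t|) :
    deriv g t = 0 := by
  have : g =ᶠ[𝓝 t] fun _ => 0 := by
    filter_upwards [(isOpen_lt continuous_const continuous_abs).mem_nhds ht] with u hu
    exact h u hu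
  rw [this.deriv_eq]; simp

lemma bdd_out {g : ℝ → ℝ} {a : ℝ} (hg : Continuous g) (h : ∀ t, a < |t| → g t = 0) :
    ∃ K, 0 ≤ K ∧ ∀ t, |g t| ≤ K := by
  obtain ⟨K, hK⟩ := (isCompact_Icc (a := -a) (b := a)).exists_bound_of_continuousOn
    hg.continuousOn
  refine ⟨max K 0, le_max_right _ _, fun t => ?_⟩
  by_cases ht : a < |t|
  · simp [h t ht]
  · exact (hK t (abs_le.1 (not_lt.1 ht))).trans (le_max_left _ _)

lemma exists_test (n : ℕ) {a : ℝ} (ha : 0 < a) : ∃ g : ℝ → ℝ, ContDiff ℝ ∞ g ∧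
    (∀ t, |t| ≤ a → g t = t ^ n) ∧ (∀ t, 2 * a < |t| → g t = 0 ∧ deriv g t = 0 ∧
      deriv (deriv g) t = 0) ∧
    ∃ K, 0 ≤ K ∧ ∀ t, |g t| ≤ K ∧ |deriv g t| ≤ K ∧ |deriv (deriv g) t| ≤ K := by
  obtain ⟨f, hf, -, -, h2, h3⟩ := exists_cut1 ha (show a < 2 * a by linarith)
  have hg : ContDiff ℝ ∞ (fun t => f t * t ^ n) := hf.mul (contDiff_id.pow n)
  have z0 : ∀ t, 2 * a < |t| → (fun t => f t * t ^ n) t = 0 := fun t ht => by simp [h3 t ht.le]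
  have z1 := deriv_zero_out z0
  have z2 := deriv_zero_out z1
  obtain ⟨K0, k0, e0⟩ := bdd_out hg.continuous z0
  obtain ⟨K1, k1, e1⟩ := bdd_out (cd_deriv hg).continuous z1
  obtain ⟨K2, k2, e2⟩ := bdd_out (cd_deriv (cd_deriv hg)).continuous z2
  exact ⟨_, hg, fun t ht => by simp [h2 t ht], fun t ht => ⟨z0 t ht, z1 t ht, z2 t ht⟩,
    K0 + K1 + K2, by positivity, fun t => ⟨(e0 t).trans (by linarith), (e1 t).trans (by linarith),
      (e2 t).trans (by linarith)⟩⟩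

lemma I_cvf {ρ} (hρ : ρ < 4) (u v : ℝ) {f : R} (h : Supp ρ f) : I ρ (cvf u v f) = 0 := by
  rw [cvf_ap, I_add hρ, I_C_mul hρ, I_C_mul hρ, dx, dy, I_pd hρ h, I_pd hρ h]; simp

lemma Supp.cvf {ρ} (u v : ℝ) {f : R} (h : Supp ρ f) : Supp ρ (cvf u v f) := by
  rw [cvf_ap]; exact ((h.pd _).mul_left _).add ((h.pd _).mul_left _)

lemma I_green {ρ} (hρ : ρ < 4) (u v : ℝ) (g : R) {f : R} (h : Supp ρ f) :
    I ρ (g * cvf u v (cvf u v f)) = I ρ (cvf u v (cvf u v g) * f) := by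
  have := I_cvf hρ u v (f := g * cvf u v f - cvf u v g * f)
    (((h.cvf u v).mul_left _).sub (h.mul_left _))
  rw [← sub_eq_zero, ← I_sub hρ, ← this]
  congr 1
  simp only [map_sub, der_mul]; ring

lemma B.cvf {d} {u v : ι → ℝ} {f : ι → R} (h : B (d + 1) f) (hu : Bc u) (hv : Bc v) :
    B d (fun i => cvf (u i) (v i) (f i)) := (h.dx.cmul hu).add (h.dy.cmul hv)

def lor (f : R) : R := comp (deriv Real.arctan) (cd_deriv Real.contDiff_arctan) f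

lemma lor_ap (f : R) (z) : lor f z = 1 / (1 + f z ^ 2) := by simp [lor, Real.deriv_arctan]

lemma abs_arctan_le (t : ℝ) : |Real.arctan t| ≤ 2 := by
  have := Real.arctan_lt_pi_div_two t
  have := Real.neg_pi_div_two_lt_arctan t
  have := Real.pi_le_four
  rw [abs_le]; constructor <;> linarith

namespace Core
open Core0
variable (S : Core ι m)

lemma supp_it {ρ} (i n) {f : R} (h : Supp ρ f) : Supp ρ (it (S.X i) n f) := by
  induction n with
  | zero => exact h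
  | succ n ih => rw [it_succ']; exact S.suppX i ih

lemma I_it {ρ} (hρ : ρ < 4) (i n) (g : R) {f : R} (h : Supp ρ f) :
    I ρ (S.L i * (g * it (S.X i) n f)) = (-1) ^ n * I ρ (S.L i * (it (S.X i) n g * f)) := by
  induction n generalizing g with
  | zero => simp
  | succ n ih =>
    have := S.J_X hρ i ((S.supp_it i n h).mul_left g)
    rw [der_mul, mul_add, I_add hρ, mul_comm (it _ _ _), ih, ← it_succ, ← it_succ'] at this
    rw [pow_succ]; linarith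

lemma theta_int : ∃ (p : R) (K : ℝ), 0 ≤ K ∧ (∀ z, 0 ≤ p z) ∧ (∀ z, p z ≤ 1) ∧
    (∀ z : W, ‖(z : P)‖ ≤ 1 → p z = 1) ∧ ∀ i (ζ : R) (l u : ℝ), S.X i ζ = 1 → 0 < l → 0 < u →
      I 2 (S.L i * (p * lor (C l * ζ) * lor (C u * yy))) ≤ K / (l * u) := by
  obtain ⟨p, pB, p0, p1, p2, p3⟩ := exists_cut ι (a := 1) (b := 3 / 2) (by norm_num) (by norm_num)
  obtain ⟨q, qB, q0, q1, q2, q3⟩ := exists_cut ι (a := 3 / 2) (b := 2) (by norm_num) (by norm_num)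
  have ps : Supp (3 / 2) p := fun z hz => p3 z hz.le
  have qs : Supp 2 q := fun z hz => q3 z hz.le
  obtain ⟨K1, hK1, e1⟩ := (BX (S := S.toCore0) (pB 1) (by norm_num)).bd.get
  obtain ⟨K2, hK2, e2⟩ := (S.bL.bd.mul1 (BD (S := S.toCore0) (qB 1) (by norm_num)).bd).get
  refine ⟨p, K1 * 2 * (K2 * 2 * 64), by positivity, p0, p1, p2, fun i ζ l u hζ hl hu => ?_⟩
  have h4 : (2 : ℝ) < 4 := by norm_num
  have L0 : ∀ z, 0 ≤ S.L i z := fun z => S.hc0.le.trans (S.Lpos i z)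
  have a1 := S.J_X h4 i (f := p * comp _ Real.contDiff_arctan (C l * ζ) * lor (C u * yy))
    (((ps.mono (by norm_num)).mul_right _).mul_right _)
  have a2 := S.J_D h4 i (f := q * comp _ Real.contDiff_arctan (C u * yy)) (qs.mul_right _)
  have b1 : S.L i * S.X i (p * comp _ Real.contDiff_arctan (C l * ζ) * lor (C u * yy)) =
      C l * (S.L i * (p * lor (C l * ζ) * lor (C u * yy))) +
      S.L i * (S.X i p * comp _ Real.contDiff_arctan (C l * ζ) * lor (C u * yy)) := by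
    simp only [lor, der_mul, S.X_comp, hζ, S.X_yy, der_C]; ring
  have b2 : S.L i * S.D i (q * comp _ Real.contDiff_arctan (C u * yy)) =
      C u * (S.L i * (q * lor (C u * yy))) +
      S.L i * S.D i q * comp _ Real.contDiff_arctan (C u * yy) := by
    simp only [lor, der_mul, S.D_comp, S.D_yy, der_C]; ring
  rw [b1, I_add h4, I_C_mul h4] at a1
  rw [b2, I_add h4, I_C_mul h4] at a2
  have c1 : -I 2 (S.L i * (S.X i p * comp _ Real.contDiff_arctan (C l * ζ) * lor (C u * yy))) ≤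
      K1 * 2 * I 2 (S.L i * (q * lor (C u * yy))) := by
    rw [← I_neg h4, ← I_C_mul h4]
    refine I_mono h4 fun z _ => ?_
    have hl0 : 0 ≤ lor (C u * yy) z := by rw [lor_ap]; positivity
    have : |S.X i p z * Real.arctan (l * ζ z)| ≤ K1 * 2 * q z := by
      by_cases hz : 3 / 2 < ‖(z : P)‖
      · rw [S.suppX i ps z hz]; simpa using mul_nonneg (by positivity) (q0 z)
      · rw [q2 z (not_lt.1 hz), mul_one, abs_mul]
        exact mul_le_mul (e1 i z) (abs_arctan_le _) (abs_nonneg _) hK1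
    have := mul_le_mul_of_nonneg_right (abs_le.1 this).1 (mul_nonneg (L0 z) hl0)
    simp only [mul_ap, neg_ap, C_ap, comp_ap]
    nlinarith
  have c2 : -I 2 (S.L i * S.D i q * comp _ Real.contDiff_arctan (C u * yy)) ≤ K2 * 2 * 64 := by
    have : -I 2 (S.L i * S.D i q * comp _ Real.contDiff_arctan (C u * yy)) ≤ K2 * 2 * I 2 1 := by
      rw [← I_neg h4, ← I_C_mul h4]
      refine I_mono h4 fun z _ => ?_
      have : |(S.L i * S.D i q) z * Real.arctan (u * z.1.2)| ≤ K2 * 2 := by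
        rw [abs_mul]; exact mul_le_mul (e2 i z) (abs_arctan_le _) (abs_nonneg _) hK2
      simpa using neg_le.1 (abs_le.1 this).1
    exact this.trans (by gcongr; exact I_one_le (by norm_num) h4)
  rw [le_div_iff₀ (by positivity)]
  have d1 : u * I 2 (S.L i * (q * lor (C u * yy))) ≤ K2 * 2 * 64 := by linarith
  have d2 : l * I 2 (S.L i * (p * lor (C l * ζ) * lor (C u * yy))) ≤
    K1 * 2 * I 2 (S.L i * (q * lor (C u * yy))) := by linarith
  calc _ = u * (l * I 2 (S.L i * (p * lor (C l * ζ) * lor (C u * yy)))) := by ring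
    _ ≤ u * (K1 * 2 * I 2 (S.L i * (q * lor (C u * yy)))) := by gcongr
    _ = K1 * 2 * (u * I 2 (S.L i * (q * lor (C u * yy)))) := by ring
    _ ≤ _ := by gcongr

lemma err (i) {φ v Θ : R} {κ K K' KL δ l u : ℝ} (hδ : 0 < δ) (hl : 0 < l) (hu : 0 < u)
    (hL : ∀ z, S.L i z ≤ KL) (t0 : ∀ z, 0 ≤ Θ z) (t1 : ∀ z, Θ z ≤ 1)
    (hφ : ∀ z, |φ z| ≤ κ * Θ z) (hΘ : I 2 (S.L i * Θ) ≤ K / (l * u))
    (hv : κ ^ 2 * I 2 (v ^ 2) ≤ K' * (l * u) ^ 2) :
    |I 2 (S.L i * (φ * v))| ≤ δ * K * l + KL * K' / δ * u := by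
  have h4 : (2 : ℝ) < 4 := by norm_num
  have L0 : ∀ z, 0 ≤ S.L i z := fun z => S.hc0.le.trans (S.Lpos i z)
  have KL0 : 0 ≤ KL := (L0 o).trans (hL o)
  have t : 0 < δ * l ^ 2 * u := by positivity
  have key : ∀ z, |S.L i z * (φ z * v z)| ≤ (C (δ * l ^ 2 * u) * (S.L i * Θ) +
      C (KL * κ ^ 2 / (δ * l ^ 2 * u)) * v ^ 2) z := by
    intro z
    simp only [add_ap, mul_ap, C_ap, pow_ap]
    rw [abs_mul, abs_of_nonneg (L0 z), abs_mul]
    have e1 := amgm t (Θ z) (κ * |v z|)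
    have e2 : |φ z| * |v z| ≤ Θ z * (κ * |v z|) := by
      nlinarith [mul_le_mul_of_nonneg_right (hφ z) (abs_nonneg (v z))]
    have e3 : Θ z ^ 2 ≤ Θ z := by nlinarith [t0 z, t1 z]
    have e4 : δ * l ^ 2 * u * Θ z ^ 2 ≤ δ * l ^ 2 * u * Θ z := by gcongr
    have e5 : 0 ≤ |φ z| * |v z| := by positivity
    have e6 : |φ z| * |v z| ≤ δ * l ^ 2 * u * Θ z + (κ * |v z|) ^ 2 / (δ * l ^ 2 * u) := by
      linarith
    have e7 : S.L i z * ((κ * |v z|) ^ 2 / (δ * l ^ 2 * u)) ≤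
        KL * κ ^ 2 / (δ * l ^ 2 * u) * v z ^ 2 := by
      calc _ ≤ KL * ((κ * |v z|) ^ 2 / (δ * l ^ 2 * u)) := by gcongr; exact hL z
        _ = _ := by rw [mul_pow, sq_abs]; ring
    nlinarith [mul_le_mul_of_nonneg_left e6 (L0 z)]
  have fin : I 2 (C (δ * l ^ 2 * u) * (S.L i * Θ) + C (KL * κ ^ 2 / (δ * l ^ 2 * u)) * v ^ 2) ≤
      δ * K * l + KL * K' / δ * u := by
    rw [I_add h4, I_C_mul h4, I_C_mul h4]
    have a1 : δ * l ^ 2 * u * I 2 (S.L i * Θ) ≤ δ * K * l := by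
      calc _ ≤ δ * l ^ 2 * u * (K / (l * u)) := by gcongr
        _ = _ := by field_simp
    have a2 : KL * κ ^ 2 / (δ * l ^ 2 * u) * I 2 (v ^ 2) ≤ KL * K' / δ * u := by
      calc _ = KL / (δ * l ^ 2 * u) * (κ ^ 2 * I 2 (v ^ 2)) := by ring
        _ ≤ KL / (δ * l ^ 2 * u) * (K' * (l * u) ^ 2) := by gcongr
        _ = _ := by field_simp
    linarith
  refine le_trans (abs_le.2 ⟨?_, ?_⟩) fin
  · rw [← I_neg h4]
    exact I_mono h4 fun z _ => by simpa using (abs_le.1 (key z)).1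
  · exact I_mono h4 fun z _ => by simpa using (abs_le.1 (key z)).2

def Lb (i : ι) : R := cvf (S.u1 i) (S.v1 i) (cvf (S.u1 i) (S.v1 i) (S.be i)) +
  cvf (S.u2 i) (S.v2 i) (cvf (S.u2 i) (S.v2 i) (S.be i))

lemma supp_Lb (i) : Supp (S.c1 / S.la i) (S.Lb i) :=
  (((S.sbe i).cvf _ _).cvf _ _).add (((S.sbe i).cvf _ _).cvf _ _)

lemma main_lower {ζ : ι → R} (hB : B 2 ζ) (hx : ∀ i, dx (ζ i) = S.L i) (h0 : ∀ i, ζ i o = 0) :
    ∃ c K : ℝ, 0 < c ∧ ∀ i, S.c1 ≤ S.la i → S.c0 ≤ S.la i →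
      c * S.la i - K ≤ S.la i ^ 3 * I 2 (ζ i ^ 2 * S.hh i * S.Lb i) := by
  have hm := S.hm
  have h4 : (2 : ℝ) < 4 := by norm_num
  have hc0 := S.hc0
  have hc1 := S.hc1
  obtain ⟨Kz, hKz, ez⟩ := S.lip (BX (S := S.toCore0) (hB.le one_le_two) (by norm_num)).bd
    (BD (S := S.toCore0) (hB.le one_le_two) (by norm_num)).bd
  obtain ⟨Kh, hKh, eh⟩ := S.lip (Sys.bd_to_one (S.ghh.bdX (S.bd_a (by norm_num))
    (S.bd_n (by norm_num))) (by omega)) (Sys.bd_to_one S.ghh.bdD (by omega))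
  obtain ⟨Kb, hKb, eb⟩ := S.bLb
  obtain ⟨K0, hK0, e0⟩ := (Sys.bd_to_one S.ghh.bd (by omega)).get
  obtain ⟨K2, hK2, e2⟩ := (((hB.cvf S.bu1 S.bv1).cvf S.bu1 S.bv1).add
    ((hB.cvf S.bu2 S.bv2).cvf S.bu2 S.bv2)).bd.get
  refine ⟨S.c0 * (2 * S.c0 ^ 3 * (4 * S.c0 ^ 2)),
    (K0 * (2 * Kz * K2 * S.c1) + Kz ^ 2 * Kh * Kb * S.c1 ^ 3) * (4 * S.c1 ^ 2), by positivity,
    fun i hi hi0 => ?_⟩
  have la0 := S.la0 i
  have t1 : S.c1 / S.la i ≤ 2 := ((div_le_one la0).2 hi).trans one_le_two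
  have t0 : 0 ≤ S.c1 / S.la i := by positivity
  obtain ⟨Q, hQ⟩ : ∃ Q : R, Q = cvf (S.u1 i) (S.v1 i) (ζ i) ^ 2 + cvf (S.u2 i) (S.v2 i) (ζ i) ^ 2 :=
    ⟨_, rfl⟩
  obtain ⟨Y, hY⟩ : ∃ Y : R, Y = cvf (S.u1 i) (S.v1 i) (cvf (S.u1 i) (S.v1 i) (ζ i)) +
    cvf (S.u2 i) (S.v2 i) (cvf (S.u2 i) (S.v2 i) (ζ i)) := ⟨_, rfl⟩
  have a1 : I 2 (ζ i ^ 2 * S.Lb i) = I 2 (2 * Q * S.be i) + I 2 (2 * ζ i * Y * S.be i) := by
    rw [Lb, mul_add, I_add h4, I_green h4 _ _ _ ((S.sbe i).mono t1),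
      I_green h4 _ _ _ ((S.sbe i).mono t1), ← I_add h4, ← I_add h4]
    congr 1
    simp only [hQ, hY, pow_two, der_mul, map_add]; ring
  have a2 : I 2 (ζ i ^ 2 * S.hh i * S.Lb i) = S.hh i o * I 2 (ζ i ^ 2 * S.Lb i) -
      I 2 (-(ζ i ^ 2 * (S.hh i - C (S.hh i o)) * S.Lb i)) := by
    rw [← I_C_mul h4, ← I_sub h4]; congr 1; ring
  have a3 : 2 * S.c0 ^ 3 * (4 * (S.c0 / S.la i) ^ 2) ≤ I 2 (2 * Q * S.be i) := by
    have := I_ge_small h4 (by positivity) (((div_le_one la0).2 hi0).trans one_le_two)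
      (S.be0 i) (S.be1 i)
    refine (mul_le_mul_of_nonneg_left this (by positivity)).trans ?_
    rw [← I_C_mul h4]
    refine I_mono h4 fun z _ => ?_
    have b1 := S.ell i (dx (ζ i) z) (dy (ζ i) z)
    have b2 : S.c0 ^ 2 ≤ dx (ζ i) z ^ 2 := by rw [hx]; gcongr; exact S.Lpos i z
    have b3 : S.c0 ^ 3 ≤ Q z := by
      simp only [hQ, cvf_ap, add_ap, mul_ap, pow_ap, C_ap]
      nlinarith [mul_le_mul_of_nonneg_left b2 hc0.le]
    simp only [mul_ap, C_ap, ofNat_ap]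
    nlinarith [mul_le_mul_of_nonneg_right b3 (S.be0 i z)]
  have a4 : I 2 (-(2 * ζ i * Y * S.be i)) ≤
      2 * (Kz * (S.c1 / S.la i)) * K2 * (4 * (S.c1 / S.la i) ^ 2) := by
    refine I_le_small h4 t0 t1 ((S.sbe i).mul_left _).neg fun z => ?_
    by_cases hz : S.c1 / S.la i < ‖(z : P)‖
    · simp only [neg_ap, mul_ap, S.sbe i z hz, mul_zero, neg_zero]; positivity
    rw [neg_ap]
    refine (neg_le_abs _).trans ?_
    have b1 : |ζ i z| ≤ Kz * (S.c1 / S.la i) := by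
      have := ez i z
      rw [h0, sub_zero] at this
      exact this.trans (by gcongr; exact not_lt.1 hz)
    have b2 : |Y z| ≤ K2 := by rw [hY]; exact e2 i z
    simp only [mul_ap, ofNat_ap, abs_mul, abs_of_nonneg (S.be0 i z), abs_two]
    calc _ ≤ 2 * (Kz * (S.c1 / S.la i)) * K2 * 1 := by
          have := S.be0 i z; have := S.be2 i z; gcongr
      _ = _ := mul_one _
  have a5 : I 2 (-(ζ i ^ 2 * (S.hh i - C (S.hh i o)) * S.Lb i)) ≤
      (Kz * (S.c1 / S.la i)) ^ 2 * (Kh * (S.c1 / S.la i)) * (Kb * S.la i ^ 2) *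
        (4 * (S.c1 / S.la i) ^ 2) := by
    refine I_le_small h4 t0 t1 ((S.supp_Lb i).mul_left _).neg fun z => ?_
    by_cases hz : S.c1 / S.la i < ‖(z : P)‖
    · simp only [neg_ap, mul_ap, S.supp_Lb i z hz, mul_zero, neg_zero]; positivity
    rw [neg_ap]
    refine (neg_le_abs _).trans ?_
    have b1 : |ζ i z| ≤ Kz * (S.c1 / S.la i) := by
      have := ez i z
      rw [h0, sub_zero] at this
      exact this.trans (by gcongr; exact not_lt.1 hz)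
    have b2 : |S.hh i z - S.hh i o| ≤ Kh * (S.c1 / S.la i) :=
      (eh i z).trans (by gcongr; exact not_lt.1 hz)
    simp only [mul_ap, pow_ap, sub_ap, C_ap, abs_mul, abs_pow]
    gcongr
    exact eb i z
  rw [I_neg h4] at a4
  have a6 := S.hh0 i o
  have a7 := (abs_le.1 (e0 i o)).2
  have a8 : S.c0 * (2 * S.c0 ^ 3 * (4 * (S.c0 / S.la i) ^ 2)) ≤ S.hh i o * I 2 (2 * Q * S.be i) :=
    mul_le_mul a6 a3 (by positivity) (hc0.le.trans a6)
  have a9 : S.hh i o * -I 2 (2 * ζ i * Y * S.be i) ≤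
      K0 * (2 * (Kz * (S.c1 / S.la i)) * K2 * (4 * (S.c1 / S.la i) ^ 2)) :=
    (mul_le_mul_of_nonneg_left a4 (hc0.le.trans a6)).trans (by gcongr)
  have a10 : S.c0 * (2 * S.c0 ^ 3 * (4 * (S.c0 / S.la i) ^ 2)) -
      K0 * (2 * (Kz * (S.c1 / S.la i)) * K2 * (4 * (S.c1 / S.la i) ^ 2)) -
      (Kz * (S.c1 / S.la i)) ^ 2 * (Kh * (S.c1 / S.la i)) * (Kb * S.la i ^ 2) *
        (4 * (S.c1 / S.la i) ^ 2) ≤ I 2 (ζ i ^ 2 * S.hh i * S.Lb i) := by
    rw [a2, a1]; linarith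
  refine le_of_eq_of_le ?_ (mul_le_mul_of_nonneg_left a10 (by positivity))
  field_simp
  ring

end Core
end P229
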